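import Vale.Agent.P128.Islands.Moved

/-!
# Projection on gradients, lengths, and the count of unbounded components
-/

noncomputable section

namespace Vale.Agent.P128.Islands

open MeasureTheory Filter Metric Set InnerProductSpace
open scoped Topology ENNReal NNReal ContDiff Pointwise

/-! ### Projection on the closure of test gradients -/

lemma isTest_zero : IsTest univ (fun _ : ℂ => (0 : ℝ)) :=
  ⟨contDiff_const, HasCompactSupport.intro isCompact_empty fun _ _ => rfl, subset_univ _⟩

/-- The subspace of the square integrable fields which are gradients of test functions. -/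
def gradSpace : Submodule ℝ (Lp ℂ 2 (volume : Measure ℂ)) where
  carrier := {f | ∃ φ, IsTest univ φ ∧ f =ᵐ[volume] grad φ}
  zero_mem' := by
    refine ⟨fun _ => 0, isTest_zero, ?_⟩
    have e : grad (fun _ : ℂ => (0 : ℝ)) = 0 := by
      funext x
      simp [grad, Complex.ext_iff]
    rw [e]
    exact Lp.coeFn_zero ℂ 2 volume
  add_mem' := by
    rintro f g ⟨φ, hφ, hf⟩ ⟨ψ, hψ, hg⟩
    refine ⟨fun x => φ x + ψ x, ⟨hφ.1.add hψ.1, hφ.2.1.add hψ.2.1, subset_univ _⟩, ?_⟩
    filter_upwards [Lp.coeFn_add f g, hf, hg] with x h1 h2 h3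
    rw [h1, Pi.add_apply, h2, h3,
      grad_add (hφ.1.differentiable (by simp) x) (hψ.1.differentiable (by simp) x)]
  smul_mem' := by
    rintro a f ⟨φ, hφ, hf⟩
    refine ⟨fun x => a * φ x,
      ⟨contDiff_const.mul hφ.1, hφ.2.1.mul_left, subset_univ _⟩, ?_⟩
    filter_upwards [Lp.coeFn_smul a f, hf] with x h1 h2
    rw [h1, Pi.smul_apply, h2, grad_const_mul a (hφ.1.differentiable (by simp) x)]

theorem projectionGoal : ProjectionGoal := by
  intro A hA
  set U := gradSpace.topologicalClosure with hU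
  have : CompleteSpace U := gradSpace.isClosed_topologicalClosure.completeSpace_coe
  set a := hA.toLp A with ha
  set H := U.starProjection a with hH
  have hmem : H ∈ closure (gradSpace : Set (Lp ℂ 2 (volume : Measure ℂ))) := by
    rw [← Submodule.topologicalClosure_coe]
    exact U.starProjection_apply_mem a
  obtain ⟨w, hw, hwt⟩ := mem_closure_iff_seq_limit.1 hmem
  choose φ hφ hwφ using hw
  refine ⟨⇑H, φ, Lp.memLp H, hφ, ?_, fun θ hθ => ?_⟩
  · refine ((Lp.tendsto_Lp_iff_tendsto_eLpNorm' _ _).1 hwt).congr fun n => ?_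
    refine eLpNorm_congr_ae ?_
    filter_upwards [hwφ n] with x hx
    simp [hx]
  · have hm := memLp_grad_test hθ
    have hg : hm.toLp (grad θ) ∈ U :=
      gradSpace.le_topologicalClosure ⟨θ, hθ, hm.coeFn_toLp⟩
    have h0 : inner ℝ (hm.toLp (grad θ)) (a - H) = (0 : ℝ) :=
      Submodule.sub_starProjection_mem_orthogonal a _ hg
    rw [real_inner_comm, L2.inner_def] at h0
    rw [← h0]
    refine integral_congr_ae ?_
    filter_upwards [Lp.coeFn_sub a H, hA.coeFn_toLp, hm.coeFn_toLp] with x h1 h2 h3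
    rw [h1, h3, Pi.sub_apply, ha, h2, dot_eq_inner]

/-! ### Lengths -/

lemma volume_eq_zero_of_length {s : Set ℂ} (h : Measure.hausdorffMeasure 1 s ≠ ⊤) :
    (volume : Measure ℂ) s = 0 := by
  have h2 : Measure.hausdorffMeasure 2 s = 0 :=
    ((Measure.hausdorffMeasure_zero_or_top (X := ℂ) (by norm_num : (1 : ℝ) < 2) s)).resolve_right h
  have hlip : LipschitzWith 1 fun z : ℂ => (z.re, z.im) := by
    refine LipschitzWith.of_dist_le_mul fun x y => ?_
    rw [NNReal.coe_one, one_mul, Prod.dist_eq, Real.dist_eq, Real.dist_eq, dist_eq_norm,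
      ← Complex.sub_re, ← Complex.sub_im]
    exact max_le (Complex.abs_re_le_norm _) (Complex.abs_im_le_norm _)
  have h3 := hlip.hausdorffMeasure_image_le (d := 2) zero_le_two s
  rw [h2, mul_zero, hausdorffMeasure_prod_real, nonpos_iff_eq_zero] at h3
  rw [← Complex.volume_preserving_equiv_real_prod.measure_preimage_equiv] at h3
  refine measure_mono_null ?_ h3
  exact fun x hx => ⟨x, hx, rfl⟩

theorem lengthGoal : LengthGoal := by
  refine ⟨fun K hK => ?_, fun K a l hl => ?_, fun c r hr => ?_, fun C R hC hub hne => ?_⟩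
  · refine measure_mono_null (fun x hx => mem_iUnion.2 ?_)
      (measure_iUnion_null fun n : ℕ => volume_eq_zero_of_length (hK n))
    obtain ⟨n, hn⟩ := exists_nat_gt ‖x‖
    exact ⟨n, hx, mem_ball_zero_iff.2 hn⟩
  · have e : (fun z => a + l • z) '' K = (fun z => a + z) '' (l • K) := by
      rw [← image_smul, image_image]
    rw [e, show (fun z => a + z) = ⇑(IsometryEquiv.addLeft a) from rfl,
      IsometryEquiv.hausdorffMeasure_image, Measure.hausdorffMeasure_smul₀ zero_le_one hl.ne',
      NNReal.rpow_one, ENNReal.smul_def, smul_eq_mul, ← Real.toNNReal_eq_nnnorm_of_nonneg hl.le]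
    rfl
  · have h := (lipschitzWith_circleMap c r).hausdorffMeasure_image_le zero_le_one
      (Ioc 0 (2 * Real.pi))
    rw [image_circleMap_Ioc, abs_of_nonneg hr, hausdorffMeasure_real, Real.volume_Ioc,
      ENNReal.rpow_one, sub_zero] at h
    refine h.trans_eq ?_
    rw [mul_comm _ r, ENNReal.ofReal_mul hr,
      show (Real.nnabs r : ℝ≥0∞) = ENNReal.ofReal r by
        rw [← ENNReal.ofReal_coe_nnreal, Real.coe_nnabs, abs_of_nonneg hr]]
  · obtain ⟨x, hxC, hx⟩ := hne
    rw [mem_ball_zero_iff] at hx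
    have hsub : Ico ‖x‖ (2 * R) ⊆ (fun z : ℂ => ‖z‖) '' (C ∩ ball 0 (2 * R)) := by
      rintro t ⟨ht1, ht2⟩
      have : ∃ y ∈ C, t ≤ ‖y‖ := by
        by_contra h
        push Not at h
        exact hub ((isBounded_iff_forall_norm_le).2 ⟨t, fun y hy => (h y hy).le⟩)
      obtain ⟨y, hy, hty⟩ := this
      obtain ⟨z, hz, rfl⟩ :=
        hC.intermediate_value hxC hy continuous_norm.continuousOn ⟨ht1, hty⟩
      exact ⟨z, ⟨hz, mem_ball_zero_iff.2 ht2⟩, rfl⟩
    have h := lipschitzWith_one_norm.hausdorffMeasure_image_le zero_le_one (C ∩ ball 0 (2 * R))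
    rw [ENNReal.coe_one, ENNReal.one_rpow, one_mul] at h
    refine le_trans ?_ ((measure_mono hsub).trans h)
    rw [hausdorffMeasure_real, Real.volume_Ico]
    exact ENNReal.ofReal_le_ofReal (by linarith)

/-! ### Counting components -/

/-- Emptying a disk and adding its boundary circle gives a competitor. -/
lemma length_ball_le (hL : LengthGoal) {u : ℂ → ℝ} {G : ℂ → ℂ} {K : Set ℂ}
    (hm : IsGlobalMinimizer u G K) {R : ℝ} (hR : 0 < R) :
    Measure.hausdorffMeasure 1 (K ∩ ball 0 R) ≤ ENNReal.ofReal (2 * Real.pi * R) := by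
  obtain ⟨hcl, ⟨hloc, hweak⟩, hfin, hmin⟩ := hm
  set D := ball (0 : ℂ) R with hD
  set L := K \ D ∪ sphere 0 R with hLdef
  have hout : ∀ x, x ∉ D → x ∉ L → x ∉ K := fun x hx hxL hxK => hxL (Or.inl ⟨hxK, hx⟩)
  have hcomp : IsCompetitor u K 0 (R + 1) (Dᶜ.indicator u) L := by
    refine ⟨(hcl.sdiff isOpen_ball).union isClosed_sphere,
      ⟨closedBall 0 R, isCompact_closedBall 0 R, closedBall_subset_ball (by linarith), ?_, ?_⟩,
      fun x y hx hy hn hyL => hn ?_⟩
    · ext x
      constructor
      · rintro ⟨h | h, hx⟩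
        · exact ⟨h.1, hx⟩
        · exact absurd (sphere_subset_closedBall h) hx
      · rintro ⟨h, hx⟩
        exact ⟨Or.inl ⟨h, fun h' => hx (ball_subset_closedBall h')⟩, hx⟩
    · exact Eventually.of_forall fun x hx =>
        indicator_of_mem (show x ∈ Dᶜ from fun h => hx (ball_subset_closedBall h)) u
    · have hxL : x ∈ Lᶜ := connectedComponentIn_nonempty_iff.1 ⟨y, hyL⟩
      set C := connectedComponentIn Lᶜ x with hC
      have hCp : IsPreconnected C := isPreconnected_connectedComponentIn
      have hout' : C ⊆ (closedBall 0 R)ᶜ := by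
        refine hCp.subset_left_of_subset_union isClosed_closedBall.isOpen_compl isOpen_ball
          (disjoint_compl_left.mono_right ball_subset_closedBall) ?_ ?_
        · intro z hz
          have hzL := connectedComponentIn_subset _ _ hz
          by_cases hzc : z ∈ closedBall (0 : ℂ) R
          · exact Or.inr (mem_ball.2 ((mem_closedBall.1 hzc).lt_of_ne
              fun h => hzL (Or.inr (mem_sphere.2 h))))
          · exact Or.inl hzc
        · refine ⟨x, mem_connectedComponentIn hxL, fun h => hx (Or.inl ?_)⟩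
          exact closedBall_subset_ball (by linarith) h
      have hCK : C ⊆ Kᶜ := fun z hz => hout z (fun h => hout' hz (ball_subset_closedBall h))
        (connectedComponentIn_subset _ _ hz)
      exact hCp.subset_connectedComponentIn (mem_connectedComponentIn hxL) hCK hyL
  have hsob : IsSobolev Lᶜ (Dᶜ.indicator u) (Dᶜ.indicator G) := by
    refine ⟨fun S hS hSL => ?_, fun φ hφ => ?_⟩
    · have h := hloc (Dᶜ ∩ S) (hS.inter_left isOpen_ball.isClosed_compl)
        (fun x hx => hout x hx.1 (hSL hx.2))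
      have hm : MeasurableSet Dᶜ := measurableSet_ball.compl
      rw [← Measure.restrict_restrict hm] at h
      exact ⟨(memLp_indicator_iff_restrict hm).2 h.1, (memLp_indicator_iff_restrict hm).2 h.2⟩
    · have hnear : ∀ x ∈ sphere (0 : ℂ) R, φ =ᶠ[𝓝 x] 0 := fun x hx =>
        notMem_tsupport_iff_eventuallyEq.1 fun h => hφ.2.2 h (Or.inr hx)
      set ψ := Dᶜ.indicator φ with hψ
      have hin : ∀ x ∈ D, ψ =ᶠ[𝓝 x] 0 := fun x hx => by
        filter_upwards [isOpen_ball.mem_nhds hx] with y hy
        exact indicator_of_notMem (not_not.2 hy) φ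
      have hoff : ∀ x, x ∉ D → ψ =ᶠ[𝓝 x] φ := fun x hx => by
        by_cases hs : x ∈ sphere (0 : ℂ) R
        · filter_upwards [hnear x hs] with y hy
          by_cases hyD : y ∈ Dᶜ
          · exact indicator_of_mem hyD φ
          · rw [hy]; exact indicator_of_notMem hyD φ
        · have hx' : x ∉ closedBall 0 R := fun h =>
            hs (mem_sphere.2 (le_antisymm (mem_closedBall.1 h)
              (not_lt.1 fun h' => hx (mem_ball.2 h'))))
          filter_upwards [isClosed_closedBall.isOpen_compl.mem_nhds hx'] with y hy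
          exact indicator_of_mem (show y ∈ Dᶜ from fun h => hy (ball_subset_closedBall h)) φ
      have htsupp : tsupport ψ ⊆ tsupport φ ∩ Dᶜ :=
        closure_minimal (fun x hx => by
          rw [Function.mem_support, ne_eq] at hx
          by_cases hxD : x ∈ Dᶜ
          · exact ⟨subset_tsupport φ (by rwa [hψ, indicator_of_mem hxD] at hx), hxD⟩
          · exact absurd (indicator_of_notMem hxD φ) hx)
          ((isClosed_tsupport φ).inter isOpen_ball.isClosed_compl)
      have hsm : ContDiff ℝ ∞ ψ := contDiff_iff_contDiffAt.2 fun x => by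
        by_cases hx : x ∈ D
        · exact contDiffAt_const.congr_of_eventuallyEq (hin x hx)
        · exact hφ.1.contDiffAt.congr_of_eventuallyEq (hoff x hx)
      have hψt : IsTest Kᶜ ψ :=
        ⟨hsm, hφ.2.1.of_isClosed_subset (isClosed_tsupport _) fun x hx => (htsupp hx).1,
          fun x hx => hout x (htsupp hx).2 (hφ.2.2 (htsupp hx).1)⟩
      rw [← hweak ψ hψt]
      refine integral_congr_ae (Eventually.of_forall fun x => ?_)
      dsimp only
      by_cases hx : x ∈ D
      · rw [grad_congr (g := fun _ => (0 : ℝ)) (hin x hx)]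
        simp [hx, (hin x hx).self_of_nhds, grad, Complex.ext_iff]
      · simp [hx, grad_congr (hoff x hx), (hoff x hx).self_of_nhds]
  set B := ball (0 : ℂ) (R + 1) with hB
  set m := Measure.hausdorffMeasure (X := ℂ) 1 with hmdef
  have hI : ∫⁻ x in B \ L, ENNReal.ofReal (‖Dᶜ.indicator G x‖ ^ 2) ≤
      ∫⁻ x in B \ K, ENNReal.ofReal (‖G x‖ ^ 2) := by
    have e : (fun x => ENNReal.ofReal (‖Dᶜ.indicator G x‖ ^ 2)) =
        Dᶜ.indicator fun x => ENNReal.ofReal (‖G x‖ ^ 2) := by
      funext x
      by_cases hx : x ∈ D <;> simp [hx]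
    rw [e, setLIntegral_indicator measurableSet_ball.compl]
    exact lintegral_mono_set fun x hx => ⟨hx.2.1, hout x hx.1 hx.2.2⟩
  have key := hmin 0 (R + 1) _ _ L hcomp hsob
  have hK0 := hfin 0 (R + 1)
  simp only [energy, ← hB, ← hmdef] at key hK0
  have hKB : m (K ∩ B) = m (K ∩ D) + m ((K ∩ B) \ D) := by
    rw [← measure_inter_add_sdiff (K ∩ B) (measurableSet_ball (x := (0 : ℂ)) (ε := R))]
    congr 2
    ext x
    constructor
    · exact fun h => ⟨h.1.1, h.2⟩
    · exact fun h => ⟨⟨h.1, ball_subset_ball (by linarith) h.2⟩, h.2⟩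
  have hLB : m (L ∩ B) ≤ m (sphere (0 : ℂ) R) + m ((K ∩ B) \ D) := by
    refine (measure_mono fun x hx => ?_).trans (measure_union_le _ _)
    rcases hx.1 with h | h
    · exact Or.inr ⟨⟨h.1, hx.2⟩, h.2⟩
    · exact Or.inl h
  rw [hKB] at key hK0
  have h2 : (∫⁻ x in B \ K, ENNReal.ofReal (‖G x‖ ^ 2)) + (m (K ∩ D) + m ((K ∩ B) \ D)) ≤
      (∫⁻ x in B \ K, ENNReal.ofReal (‖G x‖ ^ 2)) +
        (m (sphere (0 : ℂ) R) + m ((K ∩ B) \ D)) := key.trans (add_le_add hI hLB)
  rw [ENNReal.add_ne_top, ENNReal.add_ne_top] at hK0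
  exact ((ENNReal.add_le_add_iff_right hK0.2.2).1 ((ENNReal.add_le_add_iff_left hK0.1).1 h2)).trans
    (hL.2.2.1 0 R hR.le)

lemma isClosed_componentIn {K : Set ℂ} (hK : IsClosed K) (x : ℂ) :
    IsClosed (connectedComponentIn K x) := by
  by_cases hx : x ∈ K
  · refine isClosed_of_closure_subset ?_
    exact isPreconnected_connectedComponentIn.closure.subset_connectedComponentIn
      (subset_closure (mem_connectedComponentIn hx))
      (hK.closure_subset_iff.2 (connectedComponentIn_subset K x))
  · rw [connectedComponentIn_eq_empty hx]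
    exact isClosed_empty

theorem countGoal (hL : LengthGoal) : CountGoal := by
  intro u G K hm hub F hFK hF
  obtain ⟨T, hT⟩ := F.finite_toSet.isBounded.subset_ball (0 : ℂ)
  set R := max T 1 with hR
  have hR0 : 0 < R := lt_max_of_lt_right one_pos
  have hlow : ∀ x ∈ F, ENNReal.ofReal R ≤
      Measure.hausdorffMeasure 1 (connectedComponentIn K x ∩ ball 0 (2 * R)) := fun x hx =>
    hL.2.2.2 _ R isPreconnected_connectedComponentIn (hub x (hFK hx))
      ⟨x, mem_connectedComponentIn (hFK hx), ball_subset_ball (le_max_left _ _) (hT hx)⟩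
  have hdis : (F : Set ℂ).PairwiseDisjoint fun x => connectedComponentIn K x ∩ ball 0 (2 * R) := by
    intro x hx y hy hxy
    refine Disjoint.mono inter_subset_left inter_subset_left
      (Set.disjoint_left.2 fun z hz hz' => ?_)
    exact hxy (hF x hx y hy ((connectedComponentIn_eq hz).trans (connectedComponentIn_eq hz').symm))
  have hsum : (F.card : ℝ≥0∞) * ENNReal.ofReal R ≤ ENNReal.ofReal (2 * Real.pi * (2 * R)) := by
    calc (F.card : ℝ≥0∞) * ENNReal.ofReal R = ∑ _x ∈ F, ENNReal.ofReal R := by simp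
      _ ≤ ∑ x ∈ F, Measure.hausdorffMeasure 1 (connectedComponentIn K x ∩ ball 0 (2 * R)) :=
          Finset.sum_le_sum hlow
      _ = Measure.hausdorffMeasure 1
            (⋃ x ∈ F, connectedComponentIn K x ∩ ball 0 (2 * R)) :=
          (measure_biUnion_finset hdis fun x _ =>
            (isClosed_componentIn hm.1 x).measurableSet.inter measurableSet_ball).symm
      _ ≤ Measure.hausdorffMeasure 1 (K ∩ ball 0 (2 * R)) :=
          measure_mono (iUnion₂_subset fun x _ =>
            inter_subset_inter_left _ (connectedComponentIn_subset K x))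
      _ ≤ _ := length_ball_le hL hm (by linarith)
  rw [← ENNReal.ofReal_natCast, ← ENNReal.ofReal_mul (Nat.cast_nonneg _),
    ENNReal.ofReal_le_ofReal_iff (by positivity)] at hsum
  have h1 : (F.card : ℝ) ≤ 4 * Real.pi := le_of_mul_le_mul_right (by linarith) hR0
  have h2 : (F.card : ℝ) < (13 : ℕ) := by
    push_cast
    linarith [Real.pi_lt_d2]
  exact Nat.lt_succ_iff.1 (Nat.cast_lt.1 h2)

end Vale.Agent.P128.Islands
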