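import Vale.Agent.P128.Islands.Regular

/-!
# Similarities and square integrable fields
-/

namespace Vale.Agent.P128.Islands

open MeasureTheory Filter Metric Set InnerProductSpace
open scoped Topology ENNReal ContDiff

/-- The inverse of the similarity `y ↦ a + l • y`. -/
noncomputable def sinv (a : ℂ) (l : ℝ) (x : ℂ) : ℂ := l⁻¹ • (x - a)

/-- The field transported by the similarity, as gradients of composed functions are. -/
noncomputable def push (a : ℂ) (l : ℝ) (f : ℂ → ℂ) (x : ℂ) : ℂ := l⁻¹ • f (sinv a l x)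

lemma contDiff_sinv (a : ℂ) (l : ℝ) : ContDiff ℝ ∞ (sinv a l) :=
  (contDiff_id.sub contDiff_const).const_smul _

lemma sinv_add (a : ℂ) {l : ℝ} (hl : l ≠ 0) (y : ℂ) : sinv a l (a + l • y) = y := by
  simp [sinv, hl]

lemma add_sinv (a : ℂ) {l : ℝ} (hl : l ≠ 0) (x : ℂ) : a + l • sinv a l x = x := by
  simp [sinv, hl]

lemma fderiv_comp_sinv (ψ : ℂ → ℝ) (a : ℂ) {l : ℝ} (hl : l ≠ 0) (x v : ℂ) :
    fderiv ℝ (fun y => ψ (sinv a l y)) x v = fderiv ℝ ψ (sinv a l x) (l⁻¹ • v) := by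
  let e : ℂ ≃L[ℝ] ℂ := ContinuousLinearEquiv.smulLeft (Units.mk0 l⁻¹ (inv_ne_zero hl))
  have he : ∀ z, e z = l⁻¹ • z := fun z => rfl
  have h1 : (fun y => ψ (sinv a l y)) = fun y => (ψ ∘ e) (y - a) := rfl
  rw [h1, fderiv_comp_sub (f := ψ ∘ e) (x := x) a, e.comp_right_fderiv]
  rfl

lemma grad_comp_sinv (ψ : ℂ → ℝ) (a : ℂ) {l : ℝ} (hl : l ≠ 0) :
    grad (fun y => ψ (sinv a l y)) = push a l (grad ψ) := by
  funext x
  refine Complex.ext ?_ ?_
  · rw [grad_re, fderiv_comp_sinv ψ a hl, push, map_smul, Complex.smul_re, grad_re]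
  · rw [grad_im, fderiv_comp_sinv ψ a hl, push, map_smul, Complex.smul_im, grad_im]

lemma integral_eq_similarity (F : ℂ → ℝ) (a : ℂ) (l : ℝ) (hl : 0 < l) :
    ∫ x, F x = l ^ 2 * ∫ y, F (a + l • y) := by
  rw [Measure.integral_comp_smul_of_nonneg volume (fun y => F (a + y)) l (hR := hl.le),
    Complex.finrank_real_complex, smul_eq_mul, integral_add_left_eq_self F a, ← mul_assoc,
    mul_inv_cancel₀ (by positivity), one_mul]

lemma integral_dot_push (F f : ℂ → ℂ) (a : ℂ) {l : ℝ} (hl : 0 < l) :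
    ∫ x, dot (F x) (push a l f x) = l * ∫ y, dot (F (a + l • y)) (f y) := by
  rw [integral_eq_similarity _ a l hl, ← integral_const_mul, ← integral_const_mul]
  refine integral_congr_ae (Eventually.of_forall fun y => ?_)
  simp only [push, sinv_add a hl.ne', dot, Complex.smul_re, Complex.smul_im, smul_eq_mul]
  field_simp

lemma memLp_push {f : ℂ → ℂ} (hf : MemLp f 2) (a : ℂ) {l : ℝ} (hl : l ≠ 0) :
    MemLp (push a l f) 2 := by
  have h1 : MemLp (fun x => f (l⁻¹ • x)) 2 := by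
    have hmap := Measure.map_addHaar_smul (volume : Measure ℂ) (inv_ne_zero hl)
    refine MemLp.comp_of_map (g := f) (f := fun x : ℂ => l⁻¹ • x) ?_
      (measurable_const_smul _).aemeasurable
    rw [hmap]
    exact hf.smul_measure ENNReal.ofReal_ne_top
  exact (h1.comp_measurePreserving (measurePreserving_sub_right volume a)).const_smul (l⁻¹ : ℝ)

lemma norm_sq_eq_dot (v : ℂ) : ‖v‖ ^ 2 = dot v v := by
  rw [dot_eq_inner, real_inner_self_eq_norm_sq]

lemma integral_norm_sq_push (f : ℂ → ℂ) (a : ℂ) {l : ℝ} (hl : 0 < l) :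
    ∫ x, ‖push a l f x‖ ^ 2 = ∫ y, ‖f y‖ ^ 2 := by
  rw [integral_eq_similarity _ a l hl, ← integral_const_mul]
  refine integral_congr_ae (Eventually.of_forall fun y => ?_)
  simp only [push, sinv_add a hl.ne', norm_smul, Real.norm_eq_abs, mul_pow, sq_abs, inv_pow]
  field_simp

lemma push_sub (f g : ℂ → ℂ) (a : ℂ) (l : ℝ) (x : ℂ) :
    push a l (fun y => f y - g y) x = push a l f x - push a l g x := smul_sub _ _ _

/-- The squared `L²` norm controls convergence. -/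
lemma eLpNorm_two {f : ℂ → ℂ} (hf : MemLp f 2) :
    eLpNorm f 2 volume = ENNReal.ofReal (Real.sqrt (∫ x, ‖f x‖ ^ 2)) := by
  rw [hf.eLpNorm_eq_integral_rpow_norm two_ne_zero ENNReal.ofNat_ne_top, ENNReal.toReal_ofNat,
    Real.sqrt_eq_rpow, one_div]
  norm_num

lemma eLpNorm_push {f : ℂ → ℂ} (hf : MemLp f 2) (a : ℂ) {l : ℝ} (hl : 0 < l) :
    eLpNorm (push a l f) 2 volume = eLpNorm f 2 volume := by
  rw [eLpNorm_two hf, eLpNorm_two (memLp_push hf a hl.ne'), integral_norm_sq_push f a hl]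

/-- Convergence in `L²` of the plane. -/
def TendstoL2 (f : ℕ → ℂ → ℂ) (g : ℂ → ℂ) : Prop :=
  (∀ n, MemLp (f n) 2) ∧ MemLp g 2 ∧
    Tendsto (fun n => eLpNorm (fun x => f n x - g x) 2 volume) atTop (𝓝 0)

lemma tendstoL2_const {g : ℂ → ℂ} (hg : MemLp g 2) : TendstoL2 (fun _ => g) g :=
  ⟨fun _ => hg, hg, by simp⟩

lemma TendstoL2.push {f : ℕ → ℂ → ℂ} {g : ℂ → ℂ} (h : TendstoL2 f g) (a : ℂ) {l : ℝ}
    (hl : 0 < l) : TendstoL2 (fun n => push a l (f n)) (push a l g) := by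
  refine ⟨fun n => memLp_push (h.1 n) a hl.ne', memLp_push h.2.1 a hl.ne', ?_⟩
  refine h.2.2.congr fun n => ?_
  rw [← eLpNorm_push (f := fun x => f n x - g x) ((h.1 n).sub h.2.1) a hl]
  exact congrArg (fun F => eLpNorm F 2 volume) (funext fun x => (push_sub _ _ a l x))

lemma TendstoL2.add {f f' : ℕ → ℂ → ℂ} {g g' : ℂ → ℂ} (h : TendstoL2 f g)
    (h' : TendstoL2 f' g') : TendstoL2 (fun n x => f n x + f' n x) (fun x => g x + g' x) := by
  refine ⟨fun n => (h.1 n).add (h'.1 n), h.2.1.add h'.2.1, ?_⟩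
  refine tendsto_of_tendsto_of_tendsto_of_le_of_le tendsto_const_nhds
    (by simpa using h.2.2.add h'.2.2) (fun n => zero_le) fun n => ?_
  refine le_trans (le_of_eq ?_)
    (eLpNorm_add_le ((h.1 n).sub h.2.1).1 ((h'.1 n).sub h'.2.1).1 (by norm_num))
  congr 1
  funext x
  simp only [Pi.add_apply]
  abel

lemma TendstoL2.const_smul {f : ℕ → ℂ → ℂ} {g : ℂ → ℂ} (h : TendstoL2 f g) (s : ℝ) :
    TendstoL2 (fun n x => s • f n x) (fun x => s • g x) := by
  refine ⟨fun n => (h.1 n).const_smul s, h.2.1.const_smul s, ?_⟩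
  have := ENNReal.Tendsto.const_mul (a := ‖s‖ₑ) h.2.2 (Or.inr enorm_ne_top)
  rw [mul_zero] at this
  refine this.congr fun n => ?_
  rw [← eLpNorm_const_smul]
  exact congrArg (fun F => eLpNorm F 2 volume) (funext fun x => by simp [Pi.smul_apply, smul_sub])

lemma TendstoL2.sub {f f' : ℕ → ℂ → ℂ} {g g' : ℂ → ℂ} (h : TendstoL2 f g)
    (h' : TendstoL2 f' g') : TendstoL2 (fun n x => f n x - f' n x) (fun x => g x - g' x) := by
  simpa [sub_eq_add_neg] using h.add (h'.const_smul (-1))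

lemma TendstoL2.dot {f f' : ℕ → ℂ → ℂ} {g g' : ℂ → ℂ} (h : TendstoL2 f g)
    (h' : TendstoL2 f' g') :
    Tendsto (fun n => ∫ x, dot (f n x) (f' n x)) atTop (𝓝 (∫ x, dot (g x) (g' x))) := by
  have hL : ∀ {F : ℕ → ℂ → ℂ} {Z : ℂ → ℂ} (hF : TendstoL2 F Z),
      Tendsto (fun n => (hF.1 n).toLp (F n)) atTop (𝓝 (hF.2.1.toLp Z)) := fun hF =>
    (Lp.tendsto_Lp_iff_tendsto_eLpNorm'' _ hF.1 _ hF.2.1).2 hF.2.2
  have he : ∀ {p q : ℂ → ℂ} (hp : MemLp p 2) (hq : MemLp q 2),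
      inner ℝ (hp.toLp p) (hq.toLp q) = ∫ x, Islands.dot (p x) (q x) := fun hp hq => by
    rw [L2.inner_def]
    refine integral_congr_ae ?_
    filter_upwards [hp.coeFn_toLp, hq.coeFn_toLp] with x h1 h2
    rw [h1, h2, dot_eq_inner]
  have := (hL h).inner (hL h') (𝕜 := ℝ)
  rw [he] at this
  exact this.congr fun n => he _ _

lemma integral_dot_sub {F f g : ℂ → ℂ} (h1 : Integrable fun x => dot (F x) (f x))
    (h2 : Integrable fun x => dot (F x) (g x)) :
    ∫ x, dot (F x) (f x - g x) = (∫ x, dot (F x) (f x)) - ∫ x, dot (F x) (g x) := by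
  rw [← integral_sub h1 h2]
  refine integral_congr_ae (Eventually.of_forall fun x => ?_)
  simp [dot]
  ring

end Vale.Agent.P128.Islands
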