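import Vale.Agent.P128.Islands.Defs

/-!
# Statements of the modules used by the proof
-/

namespace Vale.Agent.P128.Islands

open MeasureTheory Filter Metric Set InnerProductSpace
open scoped Topology ENNReal Laplacian

/-- The real inner product of the plane. -/
def dot (v w : ℂ) : ℝ := v.re * w.re + v.im * w.im

/-- `f` is weakly harmonic on `U`. -/
def IsWeakHarmonic (U : Set ℂ) (f : ℂ → ℝ) : Prop :=
  LocallyIntegrableOn f U ∧ ∀ φ, IsTest U φ → ∫ x, f x * Δ φ x = 0

/-- Weyl: weakly harmonic functions are harmonic. -/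
def WeylGoal : Prop :=
  ∀ U : Set ℂ, IsOpen U → ∀ f, IsWeakHarmonic U f →
    ∃ h : ℂ → ℝ, HarmonicOnNhd h U ∧ f =ᵐ[volume.restrict U] h

/-- Square integrable entire harmonic functions vanish. -/
def LiouvilleGoal : Prop :=
  ∀ f : ℂ → ℝ, MemLp f 2 → IsWeakHarmonic univ f → f =ᵐ[volume] 0

/-- Projection of a field onto the closure of gradients of test functions. -/
def ProjectionGoal : Prop :=
  ∀ A : ℂ → ℂ, MemLp A 2 →
    ∃ (H : ℂ → ℂ) (φ : ℕ → ℂ → ℝ), MemLp H 2 ∧ (∀ n, IsTest univ (φ n)) ∧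
      Tendsto (fun n => eLpNorm (fun x => grad (φ n) x - H x) 2 volume) atTop (𝓝 0) ∧
      ∀ θ, IsTest univ θ → ∫ x, dot (A x - H x) (grad θ x) = 0

/-- A point with bounded component lies in a compact piece of `K` inside one component of the
complement of the rest. -/
def SplitGoal : Prop :=
  ∀ K : Set ℂ, IsClosed K → ∀ x ∈ K, Bornology.IsBounded (connectedComponentIn K x) →
    ∃ K₀, IsCompact K₀ ∧ x ∈ K₀ ∧ K₀ ⊆ K ∧ IsClosed (K \ K₀) ∧
      K₀ ⊆ connectedComponentIn (K \ K₀)ᶜ x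

/-- A compact piece does not help to separate points outside a disk containing it. -/
def SeparationGoal : Prop :=
  ∀ (K' K₀ : Set ℂ) (c : ℂ) (r : ℝ), IsClosed K' → IsCompact K₀ → Disjoint K' K₀ →
    K₀ ⊆ ball c r → ∀ x y, x ∉ ball c r → y ∉ ball c r → x ∉ K' →
      y ∈ connectedComponentIn K'ᶜ x → y ∈ connectedComponentIn (K' ∪ K₀)ᶜ x

/-- Lengths: sets of locally finite length are null, similarities scale length, circles, and
unbounded connected sets. -/
def LengthGoal : Prop :=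
  (∀ K : Set ℂ, (∀ r : ℝ, Measure.hausdorffMeasure 1 (K ∩ ball 0 r) ≠ ⊤) →
    (volume : Measure ℂ) K = 0) ∧
  (∀ (K : Set ℂ) (a : ℂ) (l : ℝ), 0 < l →
    Measure.hausdorffMeasure 1 ((fun z => a + l • z) '' K) =
      ENNReal.ofReal l * Measure.hausdorffMeasure 1 K) ∧
  (∀ (c : ℂ) (r : ℝ), 0 ≤ r →
    Measure.hausdorffMeasure 1 (sphere c r) ≤ ENNReal.ofReal (2 * Real.pi * r)) ∧
  ∀ (C : Set ℂ) (R : ℝ), IsPreconnected C → ¬ Bornology.IsBounded C → (C ∩ ball 0 R).Nonempty →
    ENNReal.ofReal R ≤ Measure.hausdorffMeasure 1 (C ∩ ball 0 (2 * R))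

/-- The central theorem: no nonempty compact piece lying in one component of the complement of
the rest. -/
def IslandGoal : Prop :=
  ∀ u G K, IsGlobalMinimizer u G K → IsReduced K → ∀ K₀ : Set ℂ, IsCompact K₀ → K₀ ⊆ K →
    IsClosed (K \ K₀) → ∀ x ∈ K₀, ¬ K₀ ⊆ connectedComponentIn (K \ K₀)ᶜ x

/-- Finitely many components, given that all are unbounded. -/
def CountGoal : Prop :=
  ∀ u G K, IsGlobalMinimizer u G K →
    (∀ x ∈ K, ¬ Bornology.IsBounded (connectedComponentIn K x)) →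
    ∀ F : Finset ℂ, ↑F ⊆ K →
      (∀ x ∈ F, ∀ y ∈ F, connectedComponentIn K x = connectedComponentIn K y → x = y) →
        F.card ≤ 12

/-- Assembly. -/
theorem unboundedComponents_of (hS : SplitGoal) (hI : IslandGoal) (hC : CountGoal) :
    UnboundedComponentsGoal := by
  intro u G K hm hr
  have h1 : ∀ x ∈ K, ¬ Bornology.IsBounded (connectedComponentIn K x) := by
    intro x hx hb
    obtain ⟨K₀, hc, hx0, hsub, hcl, hin⟩ := hS K hm.1 x hx hb
    exact hI u G K hm hr K₀ hc hsub hcl x hx0 hin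
  exact ⟨h1, hC u G K hm h1⟩

end Vale.Agent.P128.Islands
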