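import Vale.Agent.P128.Islands.Interface

/-!
# Weyl's lemma and Liouville's theorem for weakly harmonic functions on the plane

The radial kernels `ker a` have mass one and differ by Laplacians of test functions, so the
mollifications of a weakly harmonic function do not depend on the radius and are harmonic.
-/

noncomputable section

namespace Vale.Agent.P128.Islands

namespace Weak

open MeasureTheory Filter Metric Set InnerProductSpace
open scoped Topology Laplacian ContDiff Convolution

/-- A smooth step from `0` on `(-∞, 1/2]` to `1` on `[1, ∞)`. -/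
def step (s : ℝ) : ℝ := Real.smoothTransition (2 * s - 1)

lemma contDiff_step : ContDiff ℝ ∞ step :=
  Real.smoothTransition.contDiff.comp ((contDiff_const.mul contDiff_id).sub contDiff_const)

lemma step_eq_zero {s : ℝ} (h : s ≤ 1 / 2) : step s = 0 :=
  Real.smoothTransition.zero_of_nonpos (by linarith)

lemma step_eq_one {s : ℝ} (h : 1 ≤ s) : step s = 1 :=
  Real.smoothTransition.one_of_one_le (by linarith)

lemma contDiff_deriv_step : ContDiff ℝ ∞ (deriv step) :=
  (contDiff_infty_iff_deriv.1 contDiff_step).2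

lemma deriv_step_eq_zero {s : ℝ} (h : s < 1 / 2 ∨ 1 < s) : deriv step s = 0 := by
  rcases h with h | h
  · have e : step =ᶠ[𝓝 s] fun _ => 0 :=
      eventually_of_mem (Iio_mem_nhds h) fun t ht => step_eq_zero (le_of_lt ht)
    rw [e.deriv_eq, deriv_const]
  · have e : step =ᶠ[𝓝 s] fun _ => 1 :=
      eventually_of_mem (Ioi_mem_nhds h) fun t ht => step_eq_one (le_of_lt ht)
    rw [e.deriv_eq, deriv_const]

/-- The radial profile of scale `a`. -/
def prof (a s : ℝ) : ℝ := deriv step (s / a ^ 2) / (Real.pi * a ^ 2)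

/-- The radial kernel of radius `a`. -/
def ker (a : ℝ) (z : ℂ) : ℝ := prof a (‖z‖ ^ 2)

lemma contDiff_ker (a : ℝ) : ContDiff ℝ ∞ (ker a) :=
  (contDiff_deriv_step.comp ((contDiff_norm_sq ℝ).div_const _)).div_const _

lemma ker_eq_zero {a : ℝ} (ha : 0 < a) {z : ℂ} (hz : a < ‖z‖) : ker a z = 0 := by
  have h : 1 < ‖z‖ ^ 2 / a ^ 2 := by
    rw [lt_div_iff₀ (by positivity), one_mul]
    exact pow_lt_pow_left₀ hz ha.le two_ne_zero
  simp [ker, prof, deriv_step_eq_zero (Or.inr h)]

lemma hasCompactSupport_ker {a : ℝ} (ha : 0 < a) : HasCompactSupport (ker a) :=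
  HasCompactSupport.intro (isCompact_closedBall 0 a) fun z hz => ker_eq_zero ha (by simpa using hz)

lemma ker_sub_comm (a : ℝ) (x y : ℂ) : ker a (x - y) = ker a (y - x) := by
  rw [ker, ker, norm_sub_rev]

lemma exists_ker_bound : ∃ B, 0 ≤ B ∧ ∀ a z, |ker a z| ≤ B / a ^ 2 := by
  obtain ⟨B, hB⟩ := contDiff_deriv_step.continuous.bounded_above_of_compact_support
    (HasCompactSupport.intro (isCompact_Icc (a := 1 / 2) (b := 1)) fun s hs => deriv_step_eq_zero
      (by rw [mem_Icc, not_and_or, not_le, not_le] at hs; exact hs))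
  have hB0 : 0 ≤ B := (norm_nonneg _).trans (hB 0)
  refine ⟨B / Real.pi, by positivity, fun a z => ?_⟩
  rw [ker, prof, abs_div, abs_of_nonneg (by positivity : (0 : ℝ) ≤ Real.pi * a ^ 2), div_div]
  exact div_le_div_of_nonneg_right (hB _) (by positivity)

lemma integral_ker {a : ℝ} (ha : 0 < a) : ∫ z : ℂ, ker a z = 1 := by
  have h0 := MeasureTheory.integral_fun_norm_addHaar (μ := (volume : Measure ℂ))
    (fun y => prof a (y ^ 2))
  change (∫ z : ℂ, prof a (‖z‖ ^ 2)) = 1
  rw [h0, Complex.finrank_real_complex]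
  have hball : (volume : Measure ℂ).real (ball 0 1) = Real.pi := by
    simp [measureReal_def, Complex.volume_ball]
  have hd : ∀ y ∈ Ici (0 : ℝ), HasDerivAt (fun t => step (t ^ 2 / a ^ 2) / (2 * Real.pi))
      (y * prof a (y ^ 2)) y := by
    intro y _
    have h1 : HasDerivAt (fun t : ℝ => t ^ 2 / a ^ 2) (2 * y / a ^ 2) y := by
      simpa using (hasDerivAt_pow 2 y).div_const (a ^ 2)
    have h2 := ((contDiff_step.differentiable (by simp)) (y ^ 2 / a ^ 2)).hasDerivAt.comp y h1
    refine (h2.div_const (2 * Real.pi)).congr_deriv ?_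
    rw [prof]
    field_simp
  have hc : Continuous fun y : ℝ => y * prof a (y ^ 2) :=
    continuous_id.mul ((contDiff_deriv_step.continuous.comp
      ((continuous_id.pow 2).div_const _)).div_const _)
  have hi : IntegrableOn (fun y : ℝ => y * prof a (y ^ 2)) (Ioi 0) := by
    refine (hc.integrable_of_hasCompactSupport
      (HasCompactSupport.intro (isCompact_Icc (a := -a) (b := a)) fun y hy => ?_)).integrableOn
    have : 1 < y ^ 2 / a ^ 2 := by
      rw [lt_div_iff₀ (by positivity), one_mul, sq_lt_sq, abs_of_pos ha]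
      rw [mem_Icc, ← abs_le, not_le] at hy
      exact hy
    simp [prof, deriv_step_eq_zero (Or.inr this)]
  have ht : Tendsto (fun t => step (t ^ 2 / a ^ 2) / (2 * Real.pi)) atTop
      (𝓝 (1 / (2 * Real.pi))) := by
    refine tendsto_const_nhds.congr' ?_
    filter_upwards [eventually_ge_atTop a] with t ht
    rw [step_eq_one]
    rw [le_div_iff₀ (by positivity), one_mul]
    exact pow_le_pow_left₀ ha.le ht 2
  have hint := integral_Ioi_of_hasDerivAt_of_tendsto' hd hi ht
  simp only [show (2 : ℕ) - 1 = 1 from rfl, pow_one, smul_eq_mul, hint, hball, nsmul_eq_mul]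
  rw [step_eq_zero (by norm_num)]
  field_simp
  norm_num

/-! ### Laplacians of radial functions and reflections -/

/-- The second derivative in direction `v`. -/
def dd (f : ℂ → ℝ) (v x : ℂ) : ℝ := fderiv ℝ (fun y => fderiv ℝ f y v) x v

lemma lap_eq {f : ℂ → ℝ} (hf : ContDiff ℝ 2 f) (x : ℂ) :
    Δ f x = dd f 1 x + dd f Complex.I x := by
  rw [laplacian_eq_iteratedFDeriv_complexPlane]
  have hd : DifferentiableAt ℝ (fderiv ℝ f) x :=
    ((hf.fderiv_right (m := 1) (by norm_num)).differentiable (by norm_num)) x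
  simp only [iteratedFDeriv_two_apply, Matrix.cons_val_zero, Matrix.cons_val_one, dd]
  rw [fderiv_clm_apply hd (differentiableAt_const _), fderiv_clm_apply hd (differentiableAt_const _)]
  simp

/-- Radial functions built from an antiderivative. -/
lemma lap_radial {p g : ℝ → ℝ} (hp : ∀ s, HasDerivAt p (g s) s) (hg : ContDiff ℝ ∞ g) (x y : ℂ) :
    Δ (fun z => p (‖z - x‖ ^ 2)) y =
      4 * (‖y - x‖ ^ 2 * deriv g (‖y - x‖ ^ 2) + g (‖y - x‖ ^ 2)) := by
  have hpd : ContDiff ℝ ∞ p := contDiff_infty_iff_deriv.2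
    ⟨fun s => (hp s).differentiableAt, by rw [show deriv p = g from funext fun s => (hp s).deriv]; exact hg⟩
  have hs : ∀ z : ℂ, HasFDerivAt (fun w : ℂ => ‖w - x‖ ^ 2) (2 • innerSL ℝ (z - x)) z := fun z => by
    simpa using ((hasFDerivAt_id z).sub_const x).norm_sq
  have h1 : ∀ v : ℂ, (fun z => fderiv ℝ (fun w => p (‖w - x‖ ^ 2)) z v) =
      fun z => g (‖z - x‖ ^ 2) * (2 * inner ℝ (z - x) v) := fun v => funext fun z => by
    have h := (hp (‖z - x‖ ^ 2)).comp_hasFDerivAt z (hs z)
    rw [show (fun w => p (‖w - x‖ ^ 2)) = p ∘ fun w => ‖w - x‖ ^ 2 from rfl, h.fderiv]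
    simp [innerSL_apply_apply, mul_comm, mul_left_comm]
    try ring_nf; try simp
  have h2 : ∀ v : ℂ, dd (fun w => p (‖w - x‖ ^ 2)) v y =
      4 * deriv g (‖y - x‖ ^ 2) * inner ℝ (y - x) v ^ 2 + 2 * g (‖y - x‖ ^ 2) * inner ℝ v v := by
    intro v
    rw [dd, h1 v]
    have hA := ((hg.differentiable (by simp)) (‖y - x‖ ^ 2)).hasDerivAt.comp_hasFDerivAt y (hs y)
    have hB : HasFDerivAt (fun z : ℂ => 2 * inner ℝ (z - x) v)
        ((2 : ℝ) • innerSL ℝ v) y := by
      have h := ((innerSL ℝ v).hasFDerivAt (x := y - x)).comp y ((hasFDerivAt_id y).sub_const x)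
      refine (h.const_mul 2).congr_of_eventuallyEq (Eventually.of_forall fun z => ?_) |>.congr_fderiv ?_
      · show 2 * inner ℝ (z - x) v = 2 * inner ℝ v (z - x)
        rw [real_inner_comm]
      · ext w; simp
    rw [show (fun z => g (‖z - x‖ ^ 2) * (2 * inner ℝ (z - x) v)) = (g ∘ fun w => ‖w - x‖ ^ 2) *
        fun z => 2 * inner ℝ (z - x) v from rfl, (hA.mul hB).fderiv]
    simp [innerSL_apply_apply, smul_eq_mul]
    ring
  have hc2 : ContDiff ℝ 2 fun z : ℂ => p (‖z - x‖ ^ 2) :=
    (hpd.comp ((contDiff_norm_sq ℝ).comp (contDiff_id.sub contDiff_const))).of_le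
      (WithTop.coe_le_coe.2 le_top)
  rw [lap_eq hc2 y]
  rw [h2, h2, ← Complex.normSq_eq_norm_sq, Complex.normSq_apply]
  simp [Complex.inner]
  ring

lemma dd_reflect {f : ℂ → ℝ} (hf : ContDiff ℝ 2 f) (x v y : ℂ) :
    dd (fun t => f (x - t)) v y = dd f v (x - y) := by
  have h1 : (fun t => fderiv ℝ (fun t => f (x - t)) t v) = fun t => -fderiv ℝ f (x - t) v := by
    funext t
    have h := ((hf.differentiable (by norm_num)) (x - t)).hasFDerivAt.comp t
      ((hasFDerivAt_id t).const_sub x)
    rw [show (fun t => f (x - t)) = f ∘ fun t => x - t from rfl, h.fderiv]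
    simp
  have hd : Differentiable ℝ fun t => fderiv ℝ f t v :=
    ((hf.fderiv_right (m := 1) (by norm_num)).differentiable (by norm_num)).clm_apply
      (differentiable_const v)
  have h2 := ((hd (x - y)).hasFDerivAt.comp y ((hasFDerivAt_id y).const_sub x)).neg
  rw [dd, h1, show (fun t => -fderiv ℝ f (x - t) v) =
    -((fun t => fderiv ℝ f t v) ∘ fun t => x - t) from rfl, h2.fderiv]
  simp [dd]

/-! ### Independence of the radius -/

lemma exists_test {a b : ℝ} (ha : 0 < a) (hb : 0 < b) (x : ℂ) :
    ∃ φ : ℂ → ℝ, IsTest (closedBall x (max a b)) φ ∧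
      ∀ y, Δ φ y = ker a (y - x) - ker b (y - x) := by
  set g : ℝ → ℝ := fun t => (step (t / a ^ 2) - step (t / b ^ 2)) / (4 * Real.pi * t) with hgdef
  have hd : ContDiff ℝ ∞ fun t : ℝ => step (t / a ^ 2) - step (t / b ^ 2) :=
    (contDiff_step.comp (contDiff_id.div_const _)).sub (contDiff_step.comp (contDiff_id.div_const _))
  have hg : ContDiff ℝ ∞ g := by
    refine contDiff_iff_contDiffAt.2 fun t => ?_
    by_cases ht : t = 0
    · subst ht
      refine contDiffAt_const.congr_of_eventuallyEq (f := fun _ => (0 : ℝ)) ?_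
      filter_upwards [Iio_mem_nhds (show (0 : ℝ) < min (a ^ 2) (b ^ 2) / 2 by positivity)] with s hs
      have h1 : s / a ^ 2 ≤ 1 / 2 := by
        rw [div_le_iff₀ (by positivity)]
        linarith [min_le_left (a ^ 2) (b ^ 2), mem_Iio.1 hs]
      have h2 : s / b ^ 2 ≤ 1 / 2 := by
        rw [div_le_iff₀ (by positivity)]
        linarith [min_le_right (a ^ 2) (b ^ 2), mem_Iio.1 hs]
      simp [hgdef, step_eq_zero h1, step_eq_zero h2]
    · exact hd.contDiffAt.div (contDiffAt_const.mul contDiffAt_id) (by
        simp [Real.pi_ne_zero, ht])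
  have hgbig : ∀ t, max a b ^ 2 ≤ t → g t = 0 := by
    intro t ht
    have h1 : 1 ≤ t / a ^ 2 := by
      rw [le_div_iff₀ (by positivity), one_mul]
      exact (pow_le_pow_left₀ ha.le (le_max_left a b) 2).trans ht
    have h2 : 1 ≤ t / b ^ 2 := by
      rw [le_div_iff₀ (by positivity), one_mul]
      exact (pow_le_pow_left₀ hb.le (le_max_right a b) 2).trans ht
    simp [hgdef, step_eq_one h1, step_eq_one h2]
  set p : ℝ → ℝ := fun s => ∫ t in (max a b ^ 2)..s, g t with hpdef
  have hp : ∀ s, HasDerivAt p (g s) s := fun s =>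
    intervalIntegral.integral_hasDerivAt_right (hg.continuous.intervalIntegrable _ _)
      (hg.continuous.stronglyMeasurableAtFilter _ _) hg.continuous.continuousAt
  have hpd : ContDiff ℝ ∞ p := contDiff_infty_iff_deriv.2
    ⟨fun s => (hp s).differentiableAt, by rw [show deriv p = g from funext fun s => (hp s).deriv]; exact hg⟩
  have hzero : ∀ y, y ∉ closedBall x (max a b) → p (‖y - x‖ ^ 2) = 0 := by
    intro y hy
    rw [mem_closedBall, dist_eq_norm, not_le] at hy
    have hle : max a b ^ 2 ≤ ‖y - x‖ ^ 2 := pow_le_pow_left₀ (by positivity) hy.le 2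
    refine (intervalIntegral.integral_congr (g := fun _ => (0 : ℝ)) fun t ht => ?_).trans (by simp)
    rw [uIcc_of_le hle] at ht
    exact hgbig t ht.1
  refine ⟨fun y => p (‖y - x‖ ^ 2), ⟨hpd.comp ((contDiff_norm_sq ℝ).comp
    (contDiff_id.sub contDiff_const)), HasCompactSupport.intro (isCompact_closedBall _ _) hzero,
    closure_minimal (fun y hy => by_contra fun h => hy (hzero y h)) isClosed_closedBall⟩, fun y => ?_⟩
  rw [lap_radial hp hg]
  set s := ‖y - x‖ ^ 2 with hs
  have h3 : HasDerivAt (fun t => t * g t) (g s + s * deriv g s) s := by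
    have h := (hasDerivAt_id' s).fun_mul ((hg.differentiable (by simp)) s).hasDerivAt
    rwa [one_mul] at h
  have h4 : HasDerivAt (fun t => (step (t / a ^ 2) - step (t / b ^ 2)) / (4 * Real.pi))
      ((deriv step (s / a ^ 2) * (1 / a ^ 2) - deriv step (s / b ^ 2) * (1 / b ^ 2)) /
        (4 * Real.pi)) s :=
    ((((contDiff_step.differentiable (by simp)) _).hasDerivAt.comp s
      ((hasDerivAt_id s).div_const _)).sub
      (((contDiff_step.differentiable (by simp)) _).hasDerivAt.comp s
      ((hasDerivAt_id s).div_const _))).div_const _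
  have he : (fun t => t * g t) = fun t => (step (t / a ^ 2) - step (t / b ^ 2)) / (4 * Real.pi) := by
    funext t
    by_cases ht : t = 0
    · simp [ht, step_eq_zero]
    · simp only [hgdef]; field_simp
  rw [he] at h3
  rw [show s * deriv g s + g s = g s + s * deriv g s from add_comm _ _, h3.unique h4]
  simp only [ker, prof, ← hs]
  field_simp

lemma lap_eq_zero_of_notMem {φ : ℂ → ℝ} {y : ℂ} (hy : y ∉ tsupport φ) : Δ φ y = 0 := by
  refine (laplacian_congr_nhds (notMem_tsupport_iff_eventuallyEq.1 hy)).eq_of_nhds.trans ?_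
  rw [show (0 : ℂ → ℝ) = fun _ => 0 from rfl, laplacian_const]
  rfl

/-- The mollification with kernel `ker a`. -/
def moll (a : ℝ) (f : ℂ → ℝ) (x : ℂ) : ℝ := ∫ y, f y * ker a (y - x)

variable {U : Set ℂ} {f : ℂ → ℝ}

lemma moll_congr {g : ℂ → ℝ} {a : ℝ} (ha : 0 < a) {x : ℂ}
    (h : ∀ y ∈ closedBall x a, f y = g y) : moll a f x = moll a g x := by
  refine integral_congr_ae (Eventually.of_forall fun y => ?_)
  by_cases hy : y ∈ closedBall x a
  · show f y * _ = g y * _
    rw [h y hy]
  · rw [mem_closedBall, dist_eq_norm, not_le] at hy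
    simp [ker_eq_zero ha hy]

lemma moll_eq_conv (a : ℝ) (g : ℂ → ℝ) :
    moll a g = ker a ⋆[ContinuousLinearMap.lsmul ℝ ℝ, volume] g := by
  funext x
  rw [convolution_eq_swap]
  refine integral_congr_ae (Eventually.of_forall fun y => ?_)
  show g y * ker a (y - x) = ker a (x - y) * g y
  rw [ker_sub_comm, mul_comm]

lemma integrable_ker_mul {g : ℂ → ℝ} (hg : LocallyIntegrable g) {a : ℝ} (ha : 0 < a) (x : ℂ) :
    Integrable fun y => g y * ker a (y - x) := by
  have h := ((contDiff_ker a).continuous.comp (continuous_id.sub (continuous_const (y := x))))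
  simpa using hg.integrable_smul_right_of_hasCompactSupport h
    ((hasCompactSupport_ker ha).comp_homeomorph (Homeomorph.subRight x))

lemma moll_eq_moll (hf : IsWeakHarmonic U f) {a b : ℝ} (ha : 0 < a) (hb : 0 < b) {x : ℂ}
    (hx : closedBall x (max a b) ⊆ U) : moll a f x = moll b f x := by
  obtain ⟨φ, hφ, hΔ⟩ := exists_test ha hb x
  have h0 := hf.2 φ ⟨hφ.1, hφ.2.1, hφ.2.2.trans hx⟩
  set K := closedBall x (max a b)
  have hg : Integrable (K.indicator f) :=
    (hf.1.integrableOn_compact_subset hx (isCompact_closedBall _ _)).integrable_indicator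
      isClosed_closedBall.measurableSet
  rw [moll_congr ha (g := K.indicator f) fun y hy =>
      (indicator_of_mem (closedBall_subset_closedBall (le_max_left a b) hy) f).symm,
    moll_congr hb (g := K.indicator f) fun y hy =>
      (indicator_of_mem (closedBall_subset_closedBall (le_max_right a b) hy) f).symm,
    ← sub_eq_zero, moll, moll,
    ← integral_sub (integrable_ker_mul hg.locallyIntegrable ha x)
      (integrable_ker_mul hg.locallyIntegrable hb x), ← h0]
  refine integral_congr_ae (Eventually.of_forall fun y => ?_)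
  show K.indicator f y * _ - K.indicator f y * _ = f y * Δ φ y
  by_cases hy : y ∈ K
  · rw [indicator_of_mem hy, hΔ, mul_sub]
  · rw [indicator_of_notMem hy, lap_eq_zero_of_notMem fun h => hy (hφ.2.2 h)]
    simp

lemma dd_conv {φ g : ℂ → ℝ} (hφ : ContDiff ℝ ∞ φ) (hc : HasCompactSupport φ)
    (hg : LocallyIntegrable g) (v x : ℂ) :
    dd (φ ⋆[ContinuousLinearMap.lsmul ℝ ℝ, volume] g) v x =
      ∫ y, dd φ v (x - y) * g y := by
  have key : ∀ ψ : ℂ → ℝ, ContDiff ℝ ∞ ψ → HasCompactSupport ψ →
      (fun z => fderiv ℝ (ψ ⋆[ContinuousLinearMap.lsmul ℝ ℝ, volume] g) z v) =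
        (fun z => fderiv ℝ ψ z v) ⋆[ContinuousLinearMap.lsmul ℝ ℝ, volume] g := by
    intro ψ hψ hψc
    funext z
    have h := hψc.hasFDerivAt_convolution_left (ContinuousLinearMap.lsmul ℝ ℝ) (μ := volume)
      (hψ.of_le (WithTop.coe_le_coe.2 le_top)) hg z
    simp only [h.fderiv, convolution_def]
    rw [ContinuousLinearMap.integral_apply]
    · simp
    · exact ((hψc.fderiv ℝ).convolutionExists_left _ (hψ.continuous_fderiv (by simp)) hg z).integrable
  have hψ : ContDiff ℝ ∞ fun z => fderiv ℝ φ z v :=
    (hφ.fderiv_right (m := ∞) (by simp)).clm_apply contDiff_const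
  have hψc : HasCompactSupport fun z => fderiv ℝ φ z v := hc.fderiv_apply ℝ v
  rw [dd, key φ hφ hc]
  refine (congrFun (key _ hψ hψc) x).trans ?_
  rw [convolution_eq_swap]
  rfl

lemma harmonicAt_moll (hf : IsWeakHarmonic U f) {a : ℝ} (ha : 0 < a) {x₀ : ℂ}
    (h0 : closedBall x₀ (2 * a) ⊆ U) : HarmonicAt (moll a f) x₀ := by
  set K := closedBall x₀ (2 * a)
  have hgi : Integrable (K.indicator f) :=
    (hf.1.integrableOn_compact_subset h0 (isCompact_closedBall _ _)).integrable_indicator
      isClosed_closedBall.measurableSet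
  have he : moll a f =ᶠ[𝓝 x₀] moll a (K.indicator f) := by
    filter_upwards [ball_mem_nhds x₀ ha] with x hx
    refine moll_congr ha fun y hy => (indicator_of_mem ?_ f).symm
    rw [mem_closedBall] at hy ⊢
    rw [mem_ball] at hx
    linarith [dist_triangle y x x₀]
  rw [harmonicAt_congr_nhds he, moll_eq_conv]
  have hcd := contDiff_ker a
  have hcs := hasCompactSupport_ker ha
  have hC : ContDiff ℝ 2 (ker a ⋆[ContinuousLinearMap.lsmul ℝ ℝ, volume] K.indicator f) :=
    hcs.contDiff_convolution_left _ (hcd.of_le (WithTop.coe_le_coe.2 le_top)) hgi.locallyIntegrable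
  refine ⟨hC.contDiffAt, ?_⟩
  filter_upwards [ball_mem_nhds x₀ ha] with x hx
  have hsub : closedBall x a ⊆ K := fun y hy => by
    simp only [K, mem_closedBall] at hy ⊢
    linarith [dist_triangle y x x₀, mem_ball.1 hx]
  have h2 : ContDiff ℝ 2 (ker a) := hcd.of_le (WithTop.coe_le_coe.2 le_top)
  have hr : ContDiff ℝ 2 fun t => ker a (x - t) := h2.comp (contDiff_const.sub contDiff_id)
  have hts : tsupport (fun t => ker a (x - t)) ⊆ closedBall x a :=
    closure_minimal (fun y hy => by_contra fun h => hy (ker_eq_zero ha (by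
      rw [mem_closedBall, dist_eq_norm, not_le, norm_sub_rev] at h; exact h))) isClosed_closedBall
  have h0' := hf.2 (fun t => ker a (x - t)) ⟨hcd.comp (contDiff_const.sub contDiff_id),
    hcs.comp_homeomorph (Homeomorph.subLeft x), hts.trans (hsub.trans h0)⟩
  rw [lap_eq hC, dd_conv hcd hcs hgi.locallyIntegrable, dd_conv hcd hcs hgi.locallyIntegrable,
    ← integral_add]
  · show _ = (0 : ℝ)
    rw [← h0']
    refine integral_congr_ae (Eventually.of_forall fun y => ?_)
    show dd (ker a) 1 (x - y) * _ + dd (ker a) Complex.I (x - y) * _ = f y * _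
    rw [← dd_reflect h2, ← dd_reflect h2, ← add_mul, ← lap_eq hr]
    by_cases hy : y ∈ K
    · rw [indicator_of_mem hy, mul_comm]
    · rw [indicator_of_notMem hy, lap_eq_zero_of_notMem fun h => hy (hsub (hts h))]
      simp
  all_goals
    have hv : ∀ v : ℂ, Integrable fun y => dd (ker a) v (x - y) * K.indicator f y := fun v => by
      have hc1 : HasCompactSupport fun z => dd (ker a) v z :=
        (hcs.fderiv_apply ℝ v).fderiv_apply ℝ v
      have hc2 : Continuous fun z => dd (ker a) v z :=
        ((((hcd.fderiv_right (m := ∞) (by simp)).clm_apply contDiff_const).fderiv_right (m := ∞)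
          (by simp)).clm_apply contDiff_const).continuous
      simpa [mul_comm] using hgi.locallyIntegrable.integrable_smul_right_of_hasCompactSupport
        (hc2.comp (continuous_const.sub continuous_id))
        (hc1.comp_homeomorph (Homeomorph.subLeft x))
    exact hv _

lemma tendsto_moll_ae {g : ℂ → ℝ} (hg : LocallyIntegrable g) :
    ∀ᵐ x : ℂ, Tendsto (fun a => moll a g x) (𝓝[>] 0) (𝓝 (g x)) := by
  obtain ⟨B, hB0, hB⟩ := exists_ker_bound
  filter_upwards [IsUnifLocDoublingMeasure.ae_tendsto_average_norm_sub volume hg 1] with x hx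
  have hlim := hx (ι := ℝ) (l := 𝓝[>] (0 : ℝ)) (fun _ => x) id tendsto_id (by
    filter_upwards [self_mem_nhdsWithin] with a ha
    simpa using le_of_lt ha)
  rw [tendsto_iff_norm_sub_tendsto_zero]
  refine squeeze_zero' (Eventually.of_forall fun a => norm_nonneg _) ?_
    (by simpa using hlim.const_mul (B * Real.pi))
  filter_upwards [self_mem_nhdsWithin] with a ha
  have hi := integrable_ker_mul hg ha x
  have hk : Integrable fun y => g x * ker a (y - x) :=
    (((contDiff_ker a).continuous.comp (continuous_id.sub continuous_const)).integrable_of_hasCompactSupport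
      ((hasCompactSupport_ker ha).comp_homeomorph (Homeomorph.subRight x))).const_mul _
  have e : moll a g x - g x = ∫ y, (g y - g x) * ker a (y - x) := by
    simp only [sub_mul]
    rw [integral_sub hi hk, integral_const_mul, integral_sub_right_eq_self, integral_ker ha,
      mul_one]
    rfl
  rw [e, Real.norm_eq_abs]
  have hvol : (volume : Measure ℂ).real (closedBall x a) = a ^ 2 * Real.pi := by
    simp [measureReal_def, Complex.volume_closedBall, le_of_lt (mem_Ioi.1 ha)]
  have hint : IntegrableOn (fun y => ‖g y - g x‖) (closedBall x a) :=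
    ((hg.integrableOn_isCompact (isCompact_closedBall x a)).sub
      (integrableOn_const (isCompact_closedBall x a).measure_lt_top.ne)).norm
  calc |∫ y, (g y - g x) * ker a (y - x)|
      ≤ ∫ y, |(g y - g x) * ker a (y - x)| := abs_integral_le_integral_abs
    _ ≤ ∫ y, (closedBall x a).indicator (fun y => B / a ^ 2 * ‖g y - g x‖) y := by
        refine integral_mono_of_nonneg (Eventually.of_forall fun y => abs_nonneg _)
          (IntegrableOn.integrable_indicator (Integrable.const_mul hint _) isClosed_closedBall.measurableSet)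
          (Eventually.of_forall fun y => ?_)
        by_cases hy : y ∈ closedBall x a
        · rw [indicator_of_mem hy]
          show |_| ≤ _
          rw [abs_mul, mul_comm, Real.norm_eq_abs]
          exact mul_le_mul_of_nonneg_right (hB _ _) (abs_nonneg _)
        · rw [indicator_of_notMem hy]
          rw [mem_closedBall, dist_eq_norm, not_le] at hy
          simp [ker_eq_zero ha hy]
    _ = B * Real.pi * ⨍ y in closedBall x (id a), ‖g y - g x‖ := by
        rw [integral_indicator isClosed_closedBall.measurableSet, integral_const_mul, id,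
          setAverage_eq, hvol, smul_eq_mul]
        have : a ≠ 0 := ne_of_gt ha
        field_simp

end Weak

open MeasureTheory Filter Metric Set InnerProductSpace Weak
open scoped Topology Laplacian

/-- Weyl's lemma. -/
theorem weylGoal : WeylGoal := by
  intro U hU f hf
  classical
  have hr : ∀ x ∈ U, ∃ a > 0, closedBall x a ⊆ U := fun x hx =>
    (Metric.nhds_basis_closedBall.mem_iff).1 (hU.mem_nhds hx)
  choose! r hr0 hrU using hr
  set h : ℂ → ℝ := fun x => moll (r x) f x with hh
  have hloc : ∀ x₀ ∈ U, ∀ b, 0 < b → ∀ x, closedBall x b ⊆ U → x ∈ U → h x = moll b f x :=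
    fun x₀ _ b hb x hxb hx => moll_eq_moll hf (hr0 x hx) hb (by
      rcases max_choice (r x) b with e | e <;> rw [e]
      exacts [hrU x hx, hxb])
  refine ⟨h, fun x₀ hx₀ => ?_, ?_⟩
  · have ha : 0 < r x₀ / 2 := half_pos (hr0 x₀ hx₀)
    have hK : closedBall x₀ (2 * (r x₀ / 2)) ⊆ U := by
      rw [mul_div_cancel₀ _ two_ne_zero]; exact hrU x₀ hx₀
    refine (harmonicAt_congr_nhds ?_).2 (harmonicAt_moll hf ha hK)
    filter_upwards [ball_mem_nhds x₀ ha, hU.mem_nhds hx₀] with x hx hxU
    refine hloc x₀ hx₀ _ ha x (fun y hy => hK ?_) hxU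
    simp only [mem_closedBall] at hy ⊢
    linarith [dist_triangle y x x₀, mem_ball.1 hx]
  · rw [EventuallyEq, ae_restrict_iff' hU.measurableSet, ae_iff]
    refine measure_null_of_locally_null _ fun x₀ hx₀ => ?_
    have hx₀U : x₀ ∈ U := by
      by_contra h0
      exact hx₀ fun h1 => absurd h1 h0
    set a := r x₀ / 2 with had
    have ha : 0 < a := half_pos (hr0 x₀ hx₀U)
    set K := closedBall x₀ (2 * a)
    have hK : K ⊆ U := by
      simp only [K, had]; rw [mul_div_cancel₀ _ two_ne_zero]; exact hrU x₀ hx₀U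
    have hgi : Integrable (K.indicator f) :=
      (hf.1.integrableOn_compact_subset hK (isCompact_closedBall _ _)).integrable_indicator
        isClosed_closedBall.measurableSet
    refine ⟨_, inter_mem_nhdsWithin _ (ball_mem_nhds x₀ ha),
      measure_mono_null ?_ (ae_iff.1 (tendsto_moll_ae hgi.locallyIntegrable))⟩
    rintro x ⟨hx, hxb⟩ hlim
    apply hx
    intro hxU
    rw [indicator_of_mem (closedBall_subset_closedBall (by linarith) (ball_subset_closedBall hxb))]
      at hlim
    refine tendsto_nhds_unique hlim (tendsto_const_nhds.congr' ?_)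
    filter_upwards [Ioo_mem_nhdsGT ha] with b hb
    have hsub : closedBall x b ⊆ K := fun y hy => by
      simp only [K, mem_closedBall] at hy ⊢
      linarith [dist_triangle y x x₀, mem_ball.1 hxb, hb.2]
    rw [hloc x₀ hx₀U b hb.1 x (hsub.trans hK) hxU]
    exact moll_congr hb.1 fun y hy => (indicator_of_mem (hsub hy) f).symm

/-- Square integrable weakly harmonic functions on the plane vanish. -/
theorem liouvilleGoal : LiouvilleGoal := by
  intro f hf2 hf
  obtain ⟨B, hB0, hB⟩ := exists_ker_bound
  have hloc : LocallyIntegrable f := hf2.locallyIntegrable (by norm_num)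
  have hsq : Integrable fun y => f y ^ 2 := hf2.integrable_sq
  set I := ∫ y, f y ^ 2
  have hI : 0 ≤ I := integral_nonneg fun y => sq_nonneg _
  have hbound : ∀ a > 0, ∀ x, |moll a f x| ≤ B * (I + Real.pi) / 2 / a := by
    intro a ha x
    have hc : Integrable ((closedBall x a).indicator fun _ => (1 : ℝ)) :=
      (integrableOn_const (isCompact_closedBall x a).measure_lt_top.ne).integrable_indicator
        isClosed_closedBall.measurableSet
    have hvol : (volume : Measure ℂ).real (closedBall x a) = a ^ 2 * Real.pi := by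
      simp [measureReal_def, Complex.volume_closedBall, le_of_lt ha]
    refine (abs_integral_le_integral_abs).trans ?_
    refine (integral_mono_of_nonneg (Eventually.of_forall fun y => abs_nonneg _)
      (((hsq.const_mul a).add (hc.const_mul a⁻¹)).const_mul (B / a ^ 2 / 2))
      (Eventually.of_forall fun y => ?_)).trans (le_of_eq ?_)
    · show |f y * ker a (y - x)| ≤
        B / a ^ 2 / 2 * (a * f y ^ 2 + a⁻¹ * (closedBall x a).indicator (fun _ => (1 : ℝ)) y)
      by_cases hy : y ∈ closedBall x a
      · rw [indicator_of_mem hy, abs_mul, mul_one]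
        have h2 : |f y| ≤ (a * f y ^ 2 + a⁻¹) / 2 := by
          have h := sq_nonneg (a * |f y| - 1)
          rw [show a * f y ^ 2 + a⁻¹ = ((a * |f y|) ^ 2 + 1) / a by
            rw [mul_pow, sq_abs]; field_simp, div_div, le_div_iff₀ (by positivity)]
          nlinarith
        calc |f y| * |ker a (y - x)| ≤ (a * f y ^ 2 + a⁻¹) / 2 * (B / a ^ 2) :=
              mul_le_mul h2 (hB _ _) (abs_nonneg _) (by positivity)
          _ = _ := by ring
      · rw [indicator_of_notMem hy]
        rw [mem_closedBall, dist_eq_norm, not_le] at hy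
        simp only [ker_eq_zero ha hy, mul_zero, abs_zero, add_zero]
        positivity
    · simp only [Pi.add_apply]
      rw [integral_const_mul, integral_add (hsq.const_mul a) (hc.const_mul a⁻¹),
        integral_const_mul, integral_const_mul, integral_indicator_const _
          isClosed_closedBall.measurableSet, hvol, smul_eq_mul]
      field_simp
      ring
  filter_upwards [tendsto_moll_ae hloc] with x hx
  have h1 : ∀ b > 0, moll b f x = 0 := by
    intro b hb
    have ht : Tendsto (fun a : ℝ => B * (I + Real.pi) / 2 / a) atTop (𝓝 0) :=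
      tendsto_const_nhds.div_atTop tendsto_id
    refine abs_nonpos_iff.1 (ge_of_tendsto ht ?_)
    filter_upwards [eventually_gt_atTop (0 : ℝ)] with a ha
    rw [moll_eq_moll hf hb ha (subset_univ _)]
    exact hbound a ha x
  exact tendsto_nhds_unique hx (tendsto_const_nhds.congr'
    (eventually_of_mem self_mem_nhdsWithin fun b hb => (h1 b hb).symm))

end Vale.Agent.P128.Islands
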