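import Vale.Agent.P128.Islands.Interface

/-!
# Splitting off a bounded component and separation in the plane

A bounded component of a closed set has a compact relatively clopen neighbourhood. Two points
joined in the complements of two disjoint closed sets, one of them compact, are joined in the
complement of their union: continuous maps from the plane to the circle lift to the line.
-/

namespace Vale.Agent.P128.Islands

open Filter Metric Set
open scoped Topology

namespace Plane

/-- The outside of a disk is connected. -/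
lemma isPreconnected_compl_ball (c : ℂ) (r : ℝ) : IsPreconnected (ball c r)ᶜ := by
  rcases lt_or_ge r 0 with hr | hr
  · rw [ball_eq_empty.2 hr.le, compl_empty]
    exact isPreconnected_univ
  have hs : IsPreconnected (sphere (0 : ℂ) 1) :=
    isPreconnected_sphere (by rw [Complex.rank_real_complex]; norm_num) 0 1
  have h : (ball c r)ᶜ = (fun p : ℝ × ℂ => c + p.1 • p.2) '' (Ici r ×ˢ sphere (0 : ℂ) 1) := by
    ext z
    simp only [mem_compl_iff, mem_ball, dist_eq_norm, not_lt, mem_image, mem_prod, mem_Ici,
      mem_sphere, sub_zero, Prod.exists]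
    constructor
    · intro hz
      by_cases h0 : z - c = 0
      · rw [h0, norm_zero] at hz
        exact ⟨0, 1, ⟨hz, norm_one⟩, by rw [zero_smul, add_zero]; exact (sub_eq_zero.1 h0).symm⟩
      · refine ⟨‖z - c‖, ‖z - c‖⁻¹ • (z - c), ⟨hz, norm_smul_inv_norm h0⟩, ?_⟩
        rw [smul_smul, mul_inv_cancel₀ (norm_ne_zero_iff.2 h0), one_smul, add_sub_cancel]
    · rintro ⟨t, v, ⟨ht, hv⟩, rfl⟩
      rw [add_sub_cancel_left, norm_smul, hv, mul_one, Real.norm_of_nonneg (hr.trans ht)]
      exact ht
  rw [h]
  exact (isPreconnected_Ici.prod hs).image _ (by fun_prop)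

/-- The product with a continuous function vanishing off an open set is continuous on a larger
set, when the other factor is bounded. -/
lemma continuousAt_mul_of_eq_zero {f g : ℂ → ℝ} {z : ℂ} (hf : ∀ x, |f x| ≤ 1)
    (hg : ContinuousAt g z) (h0 : g z = 0) : ContinuousAt (fun x => g x * f x) z := by
  have h : Tendsto g (𝓝 z) (𝓝 0) := h0 ▸ hg
  rw [ContinuousAt, h0, zero_mul]
  refine squeeze_zero_norm (fun x => ?_) (by simpa using h.norm)
  rw [norm_mul]
  exact mul_le_of_le_one_right (norm_nonneg _) (hf x)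

/-- An integer valued continuous function is constant on preconnected sets. -/
lemma const_of_int {S : Set ℂ} (hS : IsPreconnected S) {a : ℂ → ℝ} (ha : ContinuousOn a S)
    (hint : ∀ x ∈ S, ∃ n : ℤ, (n : ℝ) = a x) {x y : ℂ} (hx : x ∈ S) (hy : y ∈ S) : a x = a y := by
  by_contra hne
  have key : ∀ {p q : ℂ}, p ∈ S → q ∈ S → a p < a q → False := fun {p q} hp hq hpq => by
    obtain ⟨m, hm⟩ := hint p hp
    obtain ⟨k, hk⟩ := hint q hq
    have hmk : m + 1 ≤ k := Int.add_one_le_iff.2 (by exact_mod_cast (hm ▸ hk ▸ hpq : (m : ℝ) < k))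
    have hmk' : (m : ℝ) + 1 ≤ k := by exact_mod_cast hmk
    obtain ⟨w, hwS, hw⟩ := hS.intermediate_value hp hq ha
      (show (m : ℝ) + 1 / 2 ∈ Icc (a p) (a q) by
        constructor
        · rw [← hm]; linarith
        · rw [← hk]; linarith)
    obtain ⟨n, hn⟩ := hint w hwS
    rw [hw] at hn
    have h1 : (m : ℝ) < n := by rw [hn]; linarith
    have h2 : (n : ℝ) < (m : ℝ) + 1 := by rw [hn]; linarith
    have h1' : m < n := by exact_mod_cast h1
    have h2' : n < m + 1 := by exact_mod_cast h2
    omega
  rcases lt_or_gt_of_ne hne with h | h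
  exacts [key hx hy h, key hy hx h]

lemma coe_eq_iff (a b : ℝ) :
    (a : AddCircle (1 : ℝ)) = (b : AddCircle (1 : ℝ)) ↔ ∃ n : ℤ, (n : ℝ) = a - b := by
  rw [← sub_eq_zero, ← AddCircle.coe_sub, AddCircle.coe_eq_zero_iff]
  simp

/-- Points joined in two open sets covering the plane are joined in their intersection. -/
lemma mem_component_inter {U V : Set ℂ} (hU : IsOpen U) (hV : IsOpen V) (hUV : U ∪ V = univ)
    {x y : ℂ} (hx : x ∈ U ∩ V) (hy : y ∈ U ∩ V) (hyU : y ∈ connectedComponentIn U x)
    (hyV : y ∈ connectedComponentIn V x) : y ∈ connectedComponentIn (U ∩ V) x := by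
  classical
  by_contra hn
  set W := U ∩ V with hW
  set f : ℂ → ℝ := (connectedComponentIn W x).indicator fun _ => 1 with hf
  have hfb : ∀ z, |f z| ≤ 1 := fun z => by
    by_cases h : z ∈ connectedComponentIn W x <;> simp [hf, h]
  have hfint : ∀ z, ∃ n : ℤ, (n : ℝ) = f z := fun z => by
    by_cases h : z ∈ connectedComponentIn W x
    · exact ⟨1, by simp [hf, h]⟩
    · exact ⟨0, by simp [hf, h]⟩
  have hfc : ∀ z ∈ W, ContinuousAt f z := by
    intro z hz
    have he : f =ᶠ[𝓝 z] fun _ => f z := by
      filter_upwards [((hU.inter hV).connectedComponentIn).mem_nhds (mem_connectedComponentIn hz)]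
        with w hw
      have hiff : w ∈ connectedComponentIn W x ↔ z ∈ connectedComponentIn W x := by
        constructor <;> intro h <;> rw [connectedComponentIn_eq h]
        · rw [← connectedComponentIn_eq hw]
          exact mem_connectedComponentIn hz
        · exact hw
      simp only [hf, indicator_apply, hiff]
    exact continuousAt_const.congr he.symm
  -- a function one near the outside of V and zero near the outside of U
  obtain ⟨η, hη0, hη1, hηI⟩ := exists_continuous_zero_one_of_isClosed hU.isClosed_compl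
    hV.isClosed_compl (disjoint_left.2 fun z h1 h2 => by
      rcases (hUV.symm ▸ mem_univ z : z ∈ U ∪ V) with h | h
      exacts [h1 h, h2 h])
  set α : ℂ → ℝ := fun z => (1 - η z) * f z with hα
  set β : ℂ → ℝ := fun z => -(η z * f z) with hβ
  have hαc : ∀ z ∈ U, ContinuousAt α z := by
    intro z hz
    by_cases hzV : z ∈ V
    · exact (continuousAt_const.sub η.continuous.continuousAt).mul (hfc z ⟨hz, hzV⟩)
    · exact continuousAt_mul_of_eq_zero hfb (continuousAt_const.sub η.continuous.continuousAt)
        (show 1 - η z = 0 by rw [hη1 hzV]; exact sub_self 1)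
  have hβc : ∀ z ∈ V, ContinuousAt β z := by
    intro z hz
    by_cases hzU : z ∈ U
    · exact (η.continuous.continuousAt.mul (hfc z ⟨hzU, hz⟩)).neg
    · exact (continuousAt_mul_of_eq_zero hfb η.continuous.continuousAt (hη0 hzU)).neg
  have hagree : ∀ z, ((α z : ℝ) : AddCircle (1 : ℝ)) = (β z : AddCircle (1 : ℝ)) := by
    intro z
    rw [coe_eq_iff]
    obtain ⟨n, hn⟩ := hfint z
    exact ⟨n, by simp only [hα, hβ, hn]; ring⟩
  have hc : Continuous fun z => ((α z : ℝ) : AddCircle (1 : ℝ)) := by
    refine continuous_iff_continuousAt.2 fun z => ?_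
    rcases (hUV.symm ▸ mem_univ z : z ∈ U ∪ V) with hz | hz
    · exact (AddCircle.continuous_mk' 1).continuousAt.comp (hαc z hz)
    · rw [show (fun z => ((α z : ℝ) : AddCircle (1 : ℝ))) = fun z => (β z : AddCircle (1 : ℝ)) from
        funext hagree]
      exact (AddCircle.continuous_mk' 1).continuousAt.comp (hβc z hz)
  obtain ⟨Ψ, ⟨-, hΨ⟩, -⟩ := (AddCircle.isCoveringMap_coe (1 : ℝ)).existsUnique_continuousMap_lifts
    ⟨_, hc⟩ x (α x) rfl
  have hΨ' : ∀ z, ((Ψ z : ℝ) : AddCircle (1 : ℝ)) = (α z : AddCircle (1 : ℝ)) := congrFun hΨ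
  have hU' : α x - Ψ x = α y - Ψ y :=
    const_of_int (a := fun z => α z - Ψ z) isPreconnected_connectedComponentIn
      (fun z hz => ((hαc z (connectedComponentIn_subset _ _ hz)).sub
        Ψ.continuous.continuousAt).continuousWithinAt)
      (fun z _ => by
        exact (coe_eq_iff _ _).1 (hΨ' z).symm)
      (mem_connectedComponentIn hx.1) hyU
  have hV' : β x - Ψ x = β y - Ψ y :=
    const_of_int (a := fun z => β z - Ψ z) isPreconnected_connectedComponentIn
      (fun z hz => ((hβc z (connectedComponentIn_subset _ _ hz)).sub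
        Ψ.continuous.continuousAt).continuousWithinAt)
      (fun z _ => by
        exact (coe_eq_iff _ _).1 ((hΨ' z).trans (hagree z)).symm)
      (mem_connectedComponentIn hx.2) hyV
  have h1 : f x = 1 := indicator_of_mem (mem_connectedComponentIn hx) _
  have h2 : f y = 0 := indicator_of_notMem hn _
  simp only [hα, hβ, h1, h2] at hU' hV'
  linarith

end Plane

open Plane

/-- A compact piece does not help to separate points outside a disk containing it. -/
theorem separationGoal : SeparationGoal := by
  intro K' K₀ c r hK' hK₀ hdisj hsub x y hx hy hxK hyK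
  have hball : (ball c r)ᶜ ⊆ K₀ᶜ := compl_subset_compl.2 hsub
  rw [compl_union]
  refine mem_component_inter hK'.isOpen_compl hK₀.isClosed.isOpen_compl ?_ ⟨hxK, hball hx⟩
    ⟨connectedComponentIn_subset _ _ hyK, hball hy⟩ hyK
    ((isPreconnected_compl_ball c r).subset_connectedComponentIn hx hball hy)
  rw [← compl_inter, hdisj.inter_eq, compl_empty]

/-- A point with bounded component lies in a compact piece inside one component of the complement
of the rest. -/
theorem splitGoal : SplitGoal := by
  intro K hK x hx hb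
  obtain ⟨R, hR⟩ := hb.subset_ball (0 : ℂ)
  set X := K ∩ closedBall (0 : ℂ) R with hX
  have hXc : IsCompact X := (isCompact_closedBall _ _).inter_left hK
  have : CompactSpace X := isCompact_iff_compactSpace.1 hXc
  have hxb : x ∈ ball (0 : ℂ) R := hR (mem_connectedComponentIn hx)
  let x' : X := ⟨x, hx, ball_subset_closedBall hxb⟩
  have hcomp : ∀ z ∈ connectedComponent x', ‖(z : ℂ)‖ ≠ R := by
    intro z hz
    have h1 : (z : ℂ) ∈ connectedComponentIn K x :=
      (isPreconnected_connectedComponent.image _ continuous_subtype_val.continuousOn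
        ).subset_connectedComponentIn ⟨x', mem_connectedComponent, rfl⟩
        (by rintro _ ⟨w, -, rfl⟩; exact w.2.1) ⟨z, hz, rfl⟩
    exact (mem_ball_zero_iff.1 (hR h1)).ne
  rw [connectedComponent_eq_iInter_isClopen] at hcomp
  obtain ⟨t, ht⟩ := ((isClosed_eq (continuous_norm.comp continuous_subtype_val)
      (continuous_const (y := R))).isCompact).elim_finite_subfamily_closed
    (fun s : { s : Set X // IsClopen s ∧ x' ∈ s } => (s : Set X)) (fun s => s.2.1.1)
    (eq_empty_iff_forall_notMem.2 fun z hz => hcomp z hz.2 hz.1)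
  set s : Set X := ⋂ i ∈ t, (i : Set X) with hs
  have hsc : IsClopen s := isClopen_biInter_finset fun i _ => i.2.1
  have hxs : x' ∈ s := mem_iInter₂.2 fun i _ => i.2.2
  have hsR : ∀ z ∈ s, ‖(z : ℂ)‖ < R := fun z hz =>
    lt_of_le_of_ne (by simpa using z.2.2) fun h => eq_empty_iff_forall_notMem.1 ht z ⟨h, hz⟩
  set S : Set ℂ := Subtype.val '' s with hSdef
  have hS : IsCompact S := hsc.1.isCompact.image continuous_subtype_val
  have hSK : S ⊆ K := by rintro _ ⟨w, -, rfl⟩; exact w.2.1
  have hrest : K \ S = Subtype.val '' sᶜ ∪ K \ ball 0 R := by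
    ext z
    constructor
    · rintro ⟨hzK, hzS⟩
      by_cases hzb : z ∈ ball (0 : ℂ) R
      · exact Or.inl ⟨⟨z, hzK, ball_subset_closedBall hzb⟩, fun h => hzS ⟨_, h, rfl⟩, rfl⟩
      · exact Or.inr ⟨hzK, hzb⟩
    · rintro (⟨w, hw, rfl⟩ | ⟨hzK, hzb⟩)
      · exact ⟨w.2.1, fun ⟨w', hw', e⟩ => hw (Subtype.ext e ▸ hw')⟩
      · exact ⟨hzK, fun ⟨w, hw, e⟩ => hzb (mem_ball_zero_iff.2 (e ▸ hsR w hw))⟩
  have hclosed : IsClosed (K \ S) := by
    rw [hrest]
    exact (hsc.compl.1.isCompact.image continuous_subtype_val).isClosed.union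
      (hK.inter isOpen_ball.isClosed_compl)
  set U : Set ℂ := (K \ S)ᶜ with hU
  have hSU : S ⊆ U := fun z hz h => h.2 hz
  set O := connectedComponentIn U x with hO
  have hxS : x ∈ S := ⟨x', hxs, rfl⟩
  have hOc : ∀ z ∈ closure O, z ∈ U → z ∈ O := by
    intro z hz hzU
    obtain ⟨w, hw1, hw2⟩ := mem_closure_iff.1 hz (connectedComponentIn U z)
      hclosed.isOpen_compl.connectedComponentIn (mem_connectedComponentIn hzU)
    rw [hO, connectedComponentIn_eq hw2, ← connectedComponentIn_eq hw1]
    exact mem_connectedComponentIn hzU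
  have hK0 : S ∩ O = S ∩ closure O :=
    Subset.antisymm (inter_subset_inter_right _ subset_closure)
      fun z hz => ⟨hz.1, hOc z hz.2 (hSU hz.1)⟩
  have hKd : K \ (S ∩ O) = K \ S ∪ S ∩ Oᶜ := by
    ext z
    have := @hSK z
    simp only [Set.mem_sdiff, mem_inter_iff, mem_union, mem_compl_iff]
    tauto
  refine ⟨S ∩ O, hK0 ▸ hS.inter_right isClosed_closure,
    ⟨hxS, mem_connectedComponentIn (hSU hxS)⟩, inter_subset_left.trans hSK, ?_, ?_⟩
  · rw [hKd]
    exact hclosed.union
      (hS.isClosed.inter (hclosed.isOpen_compl.connectedComponentIn.isClosed_compl))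
  · intro z hz
    refine (isPreconnected_connectedComponentIn (F := U) (x := x)).subset_connectedComponentIn
      (mem_connectedComponentIn (hSU hxS)) ?_ hz.2
    intro w hw h
    exact (connectedComponentIn_subset _ _ hw) ⟨h.1, fun hwS => h.2 ⟨hwS, hw⟩⟩

end Vale.Agent.P128.Islands
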