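import Vale.Agent.P128.Islands.Basic

/-!
# Statements about divergence free and curl free fields on open sets
-/

namespace Vale.Agent.P128.Islands

open MeasureTheory Filter Metric Set InnerProductSpace
open scoped Topology ENNReal ContDiff

/-- A classical field on `O`, divergence free and curl free. -/
def IsPotentialField (O : Set ℂ) (g : ℂ → ℂ) : Prop :=
  HarmonicOnNhd (fun x => (g x).re) O ∧ HarmonicOnNhd (fun x => (g x).im) O ∧
  ContDiffOn ℝ ∞ g O ∧
  ∀ x ∈ O, (fderiv ℝ g x 1).im = (fderiv ℝ g x Complex.I).re ∧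
    (fderiv ℝ g x Complex.I).im = -(fderiv ℝ g x 1).re

/-- Weakly divergence free and curl free fields are classical. -/
def FieldGoal : Prop :=
  ∀ O : Set ℂ, IsOpen O → ∀ P : ℂ → ℂ, LocallyIntegrableOn P O →
    (∀ θ, IsTest O θ → ∫ x, dot (P x) (grad θ x) = 0 ∧ ∫ x, dot (P x) (rgrad θ x) = 0) →
    ∃ g, IsPotentialField O g ∧ P =ᵐ[volume.restrict O] g

/-- Earnshaw: the frozen energy of a translate has no strict minimum. -/
def EarnshawGoal : Prop :=
  ∀ (O : Set ℂ) (g A : ℂ → ℂ) (S : Set ℂ) (r : ℝ), IsOpen O → IsPotentialField O g →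
    IsCompact S → 0 < r → (∀ a ∈ ball (0 : ℂ) r, ∀ y ∈ S, a + y ∈ O) →
    MemLp A 2 → (∀ y, y ∉ S → A y = 0) →
    (∀ a ∈ ball (0 : ℂ) r, ∫ y, dot (g y) (A y) ≤ ∫ y, dot (g (a + y)) (A y)) →
    ∀ a ∈ ball (0 : ℂ) r, ∫ y, dot (g (a + y)) (A y) = ∫ y, dot (g y) (A y)

/-- A constant pairing with all translates kills the pairing with derivatives. -/
def DerivGoal : Prop :=
  ∀ (O : Set ℂ) (g B : ℂ → ℂ) (S : Set ℂ) (r c : ℝ), IsOpen O → IsPotentialField O g →
    IsCompact S → S ⊆ O → 0 < r → MemLp B 2 → (∀ y, y ∉ S → B y = 0) →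
    (∀ a ∈ ball (0 : ℂ) r, (∀ y ∈ S, a + y ∈ O) → ∫ y, dot (g (a + y)) (B y) = c) →
    ∀ e : ℂ, ∫ y, dot (fderiv ℝ g y e) (B y) = 0

/-- Either the field is constant, or curl freeness off the critical points of the field extends
to all of `O`. -/
def CriticalGoal : Prop :=
  ∀ (O : Set ℂ) (g G : ℂ → ℂ), IsOpen O → IsPreconnected O → IsPotentialField O g →
    (∀ S, IsCompact S → MemLp G 2 (volume.restrict S)) →
    (∀ θ, IsTest O θ → (∀ x ∈ tsupport θ, fderiv ℝ g x 1 ≠ 0) →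
      ∫ x, dot (G x) (rgrad θ x) = 0) →
    (∃ c, ∀ x ∈ O, g x = c) ∨ ∀ θ, IsTest O θ → ∫ x, dot (G x) (rgrad θ x) = 0

end Vale.Agent.P128.Islands
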