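import Vale.Agent.P128.Islands.Moved
import Vale.Agent.P128.Islands.FieldInterface

/-!
# No island: the central argument
-/

namespace Vale.Agent.P128.Islands

open MeasureTheory Filter Metric Set InnerProductSpace
open scoped Topology ENNReal ContDiff Manifold Laplacian

variable {u : ℂ → ℝ} {K K₀ O : Set ℂ} {χ : ℂ → ℝ} {H : ℂ → ℂ} {φ : ℕ → ℂ → ℝ}

lemma exists_cutoff {K₀ O : Set ℂ} (hK : IsCompact K₀) (hO : IsOpen O) (h : K₀ ⊆ O) :
    ∃ χ : ℂ → ℝ, IsTest O χ ∧ ∀ᶠ x in 𝓝ˢ K₀, χ x = 1 := by
  obtain ⟨L, hL, hKL, hLO⟩ := exists_compact_between hK hO h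
  obtain ⟨f, h1, h0, -⟩ :=
    exists_contMDiffMap_one_nhds_of_subset_interior (n := ⊤) 𝓘(ℝ, ℂ) hK.isClosed hKL
  have hs : tsupport (f : ℂ → ℝ) ⊆ L :=
    closure_minimal (fun x hx => by by_contra h'; exact hx (h0 x h')) hL.isClosed
  exact ⟨f, ⟨contMDiff_iff_contDiff.1 f.contMDiff,
    hL.of_isClosed_subset (isClosed_tsupport _) hs, hs.trans hLO⟩, h1⟩

lemma eq_zero_of_quadratic {a b : ℝ} (h : ∀ t : ℝ, 0 ≤ t ^ 2 * a + 2 * t * b) : b = 0 := by
  have ha : 0 ≤ a := by linarith [h 1, h (-1)]
  by_contra hne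
  have h2 := h (-b / (a + 1))
  have e : (-b / (a + 1)) ^ 2 * a + 2 * (-b / (a + 1)) * b =
      -(b ^ 2 * (a + 2)) / (a + 1) ^ 2 := by
    field_simp
    ring
  have : (0 : ℝ) < b ^ 2 * (a + 2) / (a + 1) ^ 2 := by positivity
  rw [e, neg_div] at h2
  linarith

lemma isVariation_zero : IsVariation K₀ fun _ => (0 : ℝ) :=
  ⟨contDiffOn_const, HasCompactSupport.intro isCompact_empty fun _ _ => rfl, by
    have : grad (fun _ : ℂ => (0 : ℝ)) = fun _ => 0 := by
      funext x; simp [grad, Complex.ext_iff]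
    rw [this]; exact MemLp.zero'⟩

/-- The pairing of the field with the moved cut off gradient. -/
noncomputable def pairing (g : ℂ → ℂ) (u χ : ℂ → ℝ) (a : ℂ) (l : ℝ) : ℝ :=
  ∫ y, dot (g (a + l • y)) (grad (fun z => χ z * u z) y)

lemma grad_cutoff_eq_zero {y : ℂ} (h : y ∉ tsupport χ) :
    grad (fun z => χ z * u z) y = 0 :=
  grad_eq_zero_of_notMem_tsupport fun h' => h (tsupport_mul_subset_left h')

lemma push_eq_zero {f : ℂ → ℂ} {S : Set ℂ} (h : ∀ y ∉ S, f y = 0) {a x : ℂ} {l : ℝ}
    (hl : l ≠ 0) (hx : ∀ y ∈ S, a + l • y ≠ x) : push a l f x = 0 := by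
  rw [push, h _ fun h' => hx _ h' (add_sinv a hl x), smul_zero]

/-- Pairing the gradient with a moved field supported in `O`. -/
lemma Frozen.integral_push (F : Frozen u K K₀ O χ H φ) {g : ℂ → ℂ}
    (hg : (fun x => grad u x - jumpField u χ H x) =ᵐ[volume.restrict O] g)
    {f : ℂ → ℝ} (hf : HasCompactSupport f) (hfm : MemLp (grad f) 2) (a : ℂ) {l : ℝ} (hl : 0 < l)
    (hin : ∀ y ∈ tsupport f, a + l • y ∈ O) :
    ∫ x, dot (grad u x) (push a l (grad f) x) = l * (∫ y, dot (g (a + l • y)) (grad f y)) +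
      ∫ x, dot (jumpField u χ H x) (push a l (grad f) x) := by
  have hz : ∀ x, x ∉ O → push a l (grad f) x = 0 := fun x hx =>
    push_eq_zero (fun y hy => grad_eq_zero_of_notMem_tsupport hy) hl.ne'
      fun y hy he => hx (he ▸ hin y hy)
  have i1 : Integrable fun x => dot (grad u x) (push a l (grad f) x) := by
    rw [← grad_comp_sinv f a hl.ne']
    exact F.piece.integrable_dot_grad (hasCompactSupport_comp_sinv hf a hl.ne')
      (by rw [grad_comp_sinv f a hl.ne']; exact memLp_push hfm a hl.ne')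
  have i2 := integrable_dot F.memJump (memLp_push hfm a hl.ne')
  rw [← integral_dot_push g (grad f) a hl]
  have e : (fun x => dot (g x) (push a l (grad f) x)) =ᵐ[volume] fun x =>
      dot (grad u x) (push a l (grad f) x) - dot (jumpField u χ H x) (push a l (grad f) x) := by
    filter_upwards [(ae_restrict_iff' F.piece.isOpen.measurableSet).1 hg] with x hx
    by_cases hxO : x ∈ O
    · rw [← hx hxO]; simp [dot]; ring
    · simp [hz x hxO, dot]
  rw [integral_congr_ae e, integral_sub i1 i2]
  ring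

lemma Frozen.integral_jump_cutoff (F : Frozen u K K₀ O χ H φ) :
    ∫ x, dot (jumpField u χ H x) (grad (fun z => χ z * u z) x) =
      ∫ x, ‖jumpField u χ H x‖ ^ 2 := by
  have h := F.orth_push 0 (one_pos : (0 : ℝ) < 1)
  have h' : ∫ x, dot (jumpField u χ H x) (H x) = 0 := by simpa [push, sinv] using h
  have e : (fun x => ‖jumpField u χ H x‖ ^ 2) = fun x =>
      dot (jumpField u χ H x) (grad (fun z => χ z * u z) x) - dot (jumpField u χ H x) (H x) := by
    funext x
    rw [norm_sq_eq_dot]
    simp only [jumpField, dot, Complex.sub_re, Complex.sub_im]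
    ring
  rw [e, integral_sub (integrable_dot F.memJump F.piece.memLp_cutoff)
    (integrable_dot F.memJump F.memH), h', sub_zero]

lemma Frozen.integral_jump_push (F : Frozen u K K₀ O χ H φ) (a : ℂ) {l : ℝ} (hl : 0 < l) :
    ∫ x, dot (jumpField u χ H x) (push a l (grad fun z => χ z * u z) x) =
      ∫ x, dot (jumpField u χ H x) (push a l (jumpField u χ H) x) := by
  have h := F.orth_push a hl
  have e : (fun x => dot (jumpField u χ H x) (push a l (jumpField u χ H) x)) = fun x =>
      dot (jumpField u χ H x) (push a l (grad fun z => χ z * u z) x) -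
        dot (jumpField u χ H x) (push a l H x) := by
    funext x
    simp only [push, jumpField, dot, Complex.sub_re, Complex.sub_im, Complex.smul_re,
      Complex.smul_im, smul_eq_mul]
    ring
  rw [e, integral_sub (integrable_dot F.memJump (memLp_push F.piece.memLp_cutoff a hl.ne'))
    (integrable_dot F.memJump (memLp_push F.memH a hl.ne')), h, sub_zero]

lemma Frozen.pairing_one (F : Frozen u K K₀ O χ H φ) {g : ℂ → ℂ}
    (hg : (fun x => grad u x - jumpField u χ H x) =ᵐ[volume.restrict O] g) :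
    pairing g u χ 0 1 = - ∫ x, ‖jumpField u χ H x‖ ^ 2 := by
  have h := F.integral_push hg (f := fun z => χ z * u z) F.piece.test.2.1.mul_right
    F.piece.memLp_cutoff 0 one_pos
    fun y hy => by simpa using F.piece.test.2.2 (tsupport_mul_subset_left hy)
  have e : push 0 1 (grad fun z => χ z * u z) = grad fun z => χ z * u z := by
    funext x; simp [push, sinv]
  rw [e, F.piece.euler_cutoff, F.integral_jump_cutoff, one_mul] at h
  rw [pairing]
  linarith

/-- The expanded limit inequality for moved, scaled and perturbed pieces. -/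
theorem Frozen.inequality (F : Frozen u K K₀ O χ H φ) (hSep : SeparationGoal) (hLen : LengthGoal)
    {g : ℂ → ℂ} (hg : (fun x => grad u x - jumpField u χ H x) =ᵐ[volume.restrict O] g)
    (a : ℂ) {l : ℝ} (hl : 0 < l) (s : ℝ) {η : ℂ → ℝ} (hη : IsVariation K₀ η)
    (hχ : ∀ y ∈ tsupport χ, a + l • y ∈ O) (hηO : ∀ y ∈ tsupport η, a + l • y ∈ O) :
    0 ≤ (l - 1) * (Measure.hausdorffMeasure 1 K₀).toReal +
      (s ^ 2 + 1) * (∫ x, ‖jumpField u χ H x‖ ^ 2) + s ^ 2 * (∫ y, ‖grad η y‖ ^ 2) +
      2 * s ^ 2 * (∫ y, dot (jumpField u χ H y) (grad η y)) +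
      2 * s * l * (pairing g u χ a l + ∫ y, dot (g (a + l • y)) (grad η y)) := by
  have h := F.moved hSep hLen a hl s hη
  set W := jumpField u χ H with hW
  have hp1 := memLp_push F.memJump a hl.ne'
  have hp2 := memLp_push hη.memLp a hl.ne'
  have e : (fun x => ‖s • push a l (fun y => W y + grad η y) x - W x‖ ^ 2) = fun x =>
      s ^ 2 * ‖push a l W x‖ ^ 2 + s ^ 2 * ‖push a l (grad η) x‖ ^ 2 + ‖W x‖ ^ 2 +
        2 * s ^ 2 * dot (push a l W x) (push a l (grad η) x) -
        2 * s * dot (W x) (push a l W x) - 2 * s * dot (W x) (push a l (grad η) x) := by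
    funext x
    simp only [norm_sq_eq_dot, push, dot, Complex.sub_re, Complex.sub_im, Complex.add_re,
      Complex.add_im, Complex.smul_re, Complex.smul_im, smul_eq_mul]
    ring
  have e2 : ∫ x, dot (push a l W x) (push a l (grad η) x) = ∫ y, dot (W y) (grad η y) := by
    rw [integral_dot_push _ (grad η) a hl, ← integral_const_mul]
    refine integral_congr_ae (Eventually.of_forall fun y => ?_)
    simp only [push, sinv_add a hl.ne', dot, Complex.smul_re, Complex.smul_im, smul_eq_mul]
    field_simp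
  have j1 := (hp1.norm.integrable_sq).const_mul (s ^ 2)
  have j2 := (hp2.norm.integrable_sq).const_mul (s ^ 2)
  have j3 := F.memJump.norm.integrable_sq
  have j4 := (integrable_dot hp1 hp2).const_mul (2 * s ^ 2)
  have j5 := (integrable_dot F.memJump hp1).const_mul (2 * s)
  have j6 := (integrable_dot F.memJump hp2).const_mul (2 * s)
  rw [e, integral_sub ((((j1.fun_add j2).fun_add j3).fun_add j4).sub' j5) j6,
    integral_sub (((j1.fun_add j2).fun_add j3).fun_add j4) j5,
    integral_add ((j1.fun_add j2).fun_add j3) j4, integral_add (j1.fun_add j2) j3,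
    integral_add j1 j2] at h
  simp only [integral_const_mul] at h
  rw [integral_norm_sq_push W a hl, integral_norm_sq_push (grad η) a hl, e2,
    F.integral_push hg (f := fun z => χ z * u z) F.piece.test.2.1.mul_right F.piece.memLp_cutoff a
      hl (fun y hy => hχ y (tsupport_mul_subset_left hy)),
    F.integral_push hg hη.compact hη.memLp a hl hηO, F.integral_jump_push a hl] at h
  simp only [pairing]
  linarith

lemma isPotential_add_mem {S : Set ℂ} {O : Set ℂ} (hO : IsOpen O) (hS : IsCompact S)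
    (h : S ⊆ O) : ∃ r > 0, ∀ a ∈ ball (0 : ℂ) r, ∀ y ∈ S, a + y ∈ O := by
  obtain ⟨r, hr, hsub⟩ := hS.exists_thickening_subset_open hO h
  refine ⟨r, hr, fun a ha y hy => hsub ?_⟩
  rw [mem_thickening_iff]
  exact ⟨y, hy, by simpa [dist_eq_norm] using ha⟩

/-- The derivatives of the field are orthogonal to all variations inside `O`. -/
theorem Frozen.integral_deriv_eq_zero (F : Frozen u K K₀ O χ H φ) (hSep : SeparationGoal)
    (hLen : LengthGoal) (hE : EarnshawGoal) (hD : DerivGoal) {g : ℂ → ℂ}
    (hp : IsPotentialField O g)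
    (hg : (fun x => grad u x - jumpField u χ H x) =ᵐ[volume.restrict O] g) {η : ℂ → ℝ}
    (hη : IsVariation K₀ η) (hηO : tsupport η ⊆ O) (e : ℂ) :
    ∫ y, dot (fderiv ℝ g y e) (grad η y) = 0 := by
  set W := ∫ x, ‖jumpField u χ H x‖ ^ 2
  set A := grad fun z => χ z * u z with hA
  obtain ⟨r, hr, hrO⟩ := isPotential_add_mem F.piece.isOpen F.piece.test.2.1.isCompact
    F.piece.test.2.2
  have hp1 := F.pairing_one hg
  have hp0 : ∀ a, pairing g u χ a 1 = ∫ y, dot (g (a + y)) (A y) := fun a => by
    simp [pairing, hA]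
  have hz0 : grad (fun _ : ℂ => (0 : ℝ)) = fun _ => 0 := by
    funext x; simp [grad, Complex.ext_iff]
  have hmin : ∀ a ∈ ball (0 : ℂ) r,
      ∫ y, dot (g y) (A y) ≤ ∫ y, dot (g (a + y)) (A y) := by
    intro a ha
    have := F.inequality hSep hLen hg a one_pos 1 isVariation_zero
      (fun y hy => by simpa using hrO a ha y hy)
      (fun y hy => by simp [tsupport] at hy)
    simp [hz0, dot] at this
    have h0 := hp0 0
    simp only [zero_add] at h0
    rw [← h0, ← hp0, hp1]
    linarith
  have hconst : ∀ a ∈ ball (0 : ℂ) r, pairing g u χ a 1 = -W := fun a ha => by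
    rw [hp0, hE O g A (tsupport χ) r F.piece.isOpen hp F.piece.test.2.1.isCompact hr hrO
      F.piece.memLp_cutoff (fun y hy => grad_cutoff_eq_zero hy) hmin a ha, ← hp1, hp0]
    simp
  refine hD O g (grad η) (tsupport η) r (- ∫ y, dot (jumpField u χ H y) (grad η y)) F.piece.isOpen
    hp hη.compact.isCompact hηO hr hη.memLp (fun y hy => grad_eq_zero_of_notMem_tsupport hy)
    (fun a ha hin => ?_) e
  have key : ∀ t : ℝ, 0 ≤ t ^ 2 * (∫ y, ‖grad η y‖ ^ 2) + 2 * t *
      ((∫ y, dot (jumpField u χ H y) (grad η y)) + ∫ y, dot (g (a + y)) (grad η y)) := by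
    intro t
    rcases eq_or_ne t 0 with rfl | ht
    · simp
    have hd : ∀ᵐ y : ℂ, grad (fun z => t * η z) y = t • grad η y := by
      filter_upwards [measure_eq_zero_iff_ae_notMem.1 F.piece.reg.null] with y hy
      refine grad_const_mul t (((hη.smooth y fun h => hy (F.piece.subset h)).contDiffAt
        (F.piece.compact.isClosed.isOpen_compl.mem_nhds fun h => hy (F.piece.subset h))
        ).differentiableAt (by simp))
    have hηt : IsVariation K₀ fun z => t * η z :=
      ⟨contDiffOn_const.mul hη.smooth, hη.compact.mul_left,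
        (memLp_congr_ae hd).2 (hη.memLp.const_smul t)⟩
    have := F.inequality hSep hLen hg a one_pos 1 hηt
      (fun y hy => by simpa using hrO a ha y hy)
      (fun y hy => by simpa using hin y (tsupport_mul_subset_right hy))
    rw [integral_congr_ae (f := fun y => ‖grad (fun z => t * η z) y‖ ^ 2)
        (g := fun y => t ^ 2 * ‖grad η y‖ ^ 2) (hd.mono fun y hy => by
        simp only [hy, norm_smul, Real.norm_eq_abs, mul_pow, sq_abs]),
      integral_congr_ae (f := fun y => dot (jumpField u χ H y) (grad (fun z => t * η z) y))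
        (g := fun y => t * dot (jumpField u χ H y) (grad η y))
        (hd.mono fun y hy => by
          simp only [hy, dot, Complex.smul_re, Complex.smul_im, smul_eq_mul]; ring),
      integral_congr_ae (f := fun y => dot (g (a + (1 : ℝ) • y)) (grad (fun z => t * η z) y))
        (g := fun y => t * dot (g (a + (1 : ℝ) • y)) (grad η y))
        (hd.mono fun y hy => by
          simp only [hy, dot, Complex.smul_re, Complex.smul_im, smul_eq_mul]; ring),
      integral_const_mul, integral_const_mul, integral_const_mul, hconst a ha] at this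
    simp only [one_smul] at this
    linarith
  linarith [eq_zero_of_quadratic key]

/-- Truncations. -/
noncomputable def trunc (M : ℕ) (t : ℝ) : ℝ := ((M : ℝ) + 1) * Real.arctan (t / ((M : ℝ) + 1))

lemma hasDerivAt_trunc (M : ℕ) (t : ℝ) :
    HasDerivAt (trunc M) (1 / (1 + (t / ((M : ℝ) + 1)) ^ 2)) t := by
  have h := (((hasDerivAt_id t).div_const ((M : ℝ) + 1)).arctan).const_mul ((M : ℝ) + 1)
  simp only [id_eq] at h
  exact h.congr_deriv (by field_simp)

lemma contDiff_trunc (M : ℕ) : ContDiff ℝ ∞ (trunc M) :=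
  contDiff_const.mul (Real.contDiff_arctan.comp (contDiff_id.div_const _))

lemma abs_trunc_le (M : ℕ) (t : ℝ) : |trunc M t| ≤ ((M : ℝ) + 1) * (Real.pi / 2) := by
  rw [trunc, abs_mul, abs_of_pos (by positivity : (0 : ℝ) < (M : ℝ) + 1)]
  refine mul_le_mul_of_nonneg_left (abs_le.2 ⟨?_, ?_⟩) (by positivity)
  · linarith [Real.neg_pi_div_two_lt_arctan (t / ((M : ℝ) + 1))]
  · linarith [Real.arctan_lt_pi_div_two (t / ((M : ℝ) + 1))]

lemma abs_deriv_trunc_le (M : ℕ) (t : ℝ) : |deriv (trunc M) t| ≤ 1 := by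
  rw [(hasDerivAt_trunc M t).deriv, abs_of_pos (by positivity), div_le_one (by positivity)]
  linarith [sq_nonneg (t / ((M : ℝ) + 1))]

lemma tendsto_deriv_trunc (t : ℝ) : Tendsto (fun M => deriv (trunc M) t) atTop (𝓝 1) := by
  simp only [(hasDerivAt_trunc _ t).deriv]
  have h : Tendsto (fun M : ℕ => t / ((M : ℝ) + 1)) atTop (𝓝 0) := by
    refine Tendsto.div_atTop tendsto_const_nhds ?_
    exact tendsto_atTop_add_const_right _ _ tendsto_natCast_atTop_atTop
  simpa [Pi.div_def] using (tendsto_const_nhds (x := (1 : ℝ))).div ((h.pow 2).const_add 1) (by simp)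

lemma Piece.isVariation_trunc (P : Piece u K K₀ O χ) {c : ℂ → ℝ} (hc : IsTest O c) (M : ℕ) :
    IsVariation K₀ (fun x => c x * trunc M (u x)) ∧
      ∀ᵐ x : ℂ, grad (fun y => c y * trunc M (u y)) x =
        (c x * deriv (trunc M) (u x)) • grad u x + trunc M (u x) • grad c x := by
  have hd : ∀ᵐ x : ℂ, grad (fun y => c y * trunc M (u y)) x =
      (c x * deriv (trunc M) (u x)) • grad u x + trunc M (u x) • grad c x := by
    filter_upwards [measure_eq_zero_iff_ae_notMem.1 P.reg.null] with x hx
    have d1 := P.differentiableAt hx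
    have d2 := (contDiff_trunc M).differentiable (by simp) (u x)
    rw [grad_mul (f := c) (g := fun y => trunc M (u y)) (hc.1.differentiable (by simp) x)
      (d2.comp x d1), grad_comp_real d2 d1, smul_smul]
  have hsm : ContDiffOn ℝ ∞ (fun x => c x * trunc M (u x)) Kᶜ :=
    hc.1.contDiffOn.mul ((contDiff_trunc M).comp_contDiffOn P.reg.smooth)
  refine ⟨⟨fun x hx => ?_, hc.2.1.mul_right, ?_⟩, hd⟩
  · by_cases hK : x ∈ K
    · have hn : x ∉ tsupport c := fun h => P.disjoint.le_bot ⟨hc.2.2 h, hK, hx⟩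
      have : (fun y => c y * trunc M (u y)) =ᶠ[𝓝 x] fun _ => (0 : ℝ) := by
        filter_upwards [notMem_tsupport_iff_eventuallyEq.1 hn] with y hy
        simp [hy]
      exact (contDiffAt_const.congr_of_eventuallyEq this).contDiffWithinAt
    · exact ((hsm x hK).contDiffAt (P.reg.isClosed.isOpen_compl.mem_nhds hK)).contDiffWithinAt
  · obtain ⟨R, hR⟩ := hc.2.1.isCompact.isBounded.subset_ball (0 : ℂ)
    obtain ⟨B, hB⟩ := hc.2.1.exists_bound_of_continuous hc.1.continuous
    have hB0 : 0 ≤ B := (norm_nonneg _).trans (hB 0)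
    set J : ℂ → ℝ := fun x => B * ((ball (0 : ℂ) R).indicator (fun y => ‖grad u y‖) x) +
      ((M : ℝ) + 1) * (Real.pi / 2) * ‖grad c x‖
    have hind : MemLp ((ball (0 : ℂ) R).indicator fun y => ‖grad u y‖) 2 :=
      (memLp_indicator_iff_restrict measurableSet_ball).2 (P.reg.memLp R).norm
    have hJ : MemLp J 2 :=
      (hind.const_mul B).add ((memLp_grad_test (hc.mono (subset_univ _))).norm.const_mul _)
    have hmeas : AEStronglyMeasurable (grad fun y => c y * trunc M (u y)) volume := by
      have h1 : AEStronglyMeasurable (grad fun y => c y * trunc M (u y))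
          (volume.restrict Kᶜ) :=
        (contDiffOn_grad P.reg.isClosed.isOpen_compl hsm).continuousOn.aestronglyMeasurable
          P.reg.isClosed.isOpen_compl.measurableSet
      have e : (volume : Measure ℂ).restrict Kᶜ = volume :=
        Measure.restrict_eq_self_of_ae_mem (measure_eq_zero_iff_ae_notMem.1 P.reg.null)
      rwa [e] at h1
    refine hJ.of_le_mul (c := 1) hmeas ?_
    filter_upwards [hd] with x hx
    have hJ0 : 0 ≤ J x := add_nonneg (mul_nonneg hB0 (indicator_nonneg (fun _ _ => norm_nonneg _) _))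
      (mul_nonneg (by positivity) (norm_nonneg _))
    rw [hx, one_mul, Real.norm_eq_abs, abs_of_nonneg hJ0]
    refine (norm_add_le _ _).trans (add_le_add ?_ ?_)
    · rw [norm_smul, Real.norm_eq_abs, abs_mul]
      by_cases hxR : x ∈ ball (0 : ℂ) R
      · rw [indicator_of_mem hxR]
        have := mul_le_mul (hB x) (abs_deriv_trunc_le M (u x)) (abs_nonneg _) hB0
        rw [mul_one, Real.norm_eq_abs] at this
        exact mul_le_mul_of_nonneg_right this (norm_nonneg _)
      · simp [image_eq_zero_of_notMem_tsupport fun h => hxR (hR h), indicator_of_notMem hxR]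
    · rw [norm_smul, Real.norm_eq_abs]
      exact mul_le_mul_of_nonneg_right (abs_trunc_le M (u x)) (norm_nonneg _)

lemma contDiff_smul_test {U : Set ℂ} (hU : IsOpen U) {f : ℂ → ℝ} {v : ℂ → ℂ} {θ : ℂ → ℝ}
    (hθ : IsTest U θ) (hv : ContDiffOn ℝ ∞ v U) (hv0 : ∀ x ∈ U, v x ≠ 0)
    (hf : f = fun x => dot (rgrad θ x) (v x) / ‖v x‖ ^ 2) : IsTest U f := by
  have hzero : ∀ x, x ∉ tsupport θ → f x = 0 := fun x hx => by
    simp [hf, rgrad, grad_eq_zero_of_notMem_tsupport hx, dot]
  refine ⟨contDiff_iff_contDiffAt.2 fun x => ?_,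
    HasCompactSupport.intro hθ.2.1.isCompact hzero,
    (closure_minimal (fun x hx => by by_contra h; exact hx (hzero x h))
      (isClosed_tsupport _)).trans hθ.2.2⟩
  by_cases hx : x ∈ U
  · have h1 : ContDiffAt ℝ ∞ (rgrad θ) x :=
      contDiffAt_const.mul (((contDiffOn_grad isOpen_univ hθ.1.contDiffOn) x (mem_univ _)
        ).contDiffAt univ_mem)
    have h2 := (hv x hx).contDiffAt (hU.mem_nhds hx)
    rw [hf]
    have h3 : (fun y => dot (rgrad θ y) (v y) / ‖v y‖ ^ 2) = fun y =>
        inner ℝ (rgrad θ y) (v y) / ‖v y‖ ^ 2 := by funext y; rw [dot_eq_inner]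
    rw [h3]
    exact (h1.inner ℝ h2).div (h2.norm_sq ℝ) (by simpa using hv0 x hx)
  · have : f =ᶠ[𝓝 x] fun _ => (0 : ℝ) := by
      filter_upwards [(isClosed_tsupport θ).isOpen_compl.mem_nhds fun h => hx (hθ.2.2 h)] with y hy
      exact hzero y hy
    exact contDiffAt_const.congr_of_eventuallyEq this

/-- The product rule behind the cancellation of the truncated terms. -/
lemma sum_dot_grad_eq_zero {U : Set ℂ} (hU : IsOpen U) {g : ℂ → ℂ} (hg : ContDiffOn ℝ ∞ g U)
    (hh : HarmonicOnNhd (fun x => (g x).re) U)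
    (hcr : ∀ x ∈ U, (fderiv ℝ g x 1).im = (fderiv ℝ g x Complex.I).re ∧
      (fderiv ℝ g x Complex.I).im = -(fderiv ℝ g x 1).re)
    {θ a b : ℂ → ℝ} (hθ : IsTest U θ) (ha : IsTest U a) (hb : IsTest U b)
    (hdec : ∀ x ∈ U, rgrad θ x = a x • fderiv ℝ g x 1 + b x • fderiv ℝ g x Complex.I)
    {x : ℂ} (hx : x ∈ U) :
    dot (fderiv ℝ g x 1) (grad a x) + dot (fderiv ℝ g x Complex.I) (grad b x) = 0 := by
  set g₁ := fun y => (g y).re with hg₁
  set p := fun y => fderiv ℝ g₁ y 1 with hp
  set q := fun y => fderiv ℝ g₁ y Complex.I with hq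
  have hgd : ∀ y ∈ U, ∀ v, fderiv ℝ g₁ y v = (fderiv ℝ g y v).re := fun y hy v => by
    have hd : DifferentiableAt ℝ g y :=
      ((hg y hy).contDiffAt (hU.mem_nhds hy)).differentiableAt (by simp)
    have : fderiv ℝ g₁ y = Complex.reCLM.comp (fderiv ℝ g y) :=
      (Complex.reCLM.hasFDerivAt.comp y hd.hasFDerivAt).fderiv
    rw [this]; rfl
  have hg1 : ContDiffAt ℝ ∞ g₁ x :=
    Complex.reCLM.contDiff.contDiffAt.comp x ((hg x hx).contDiffAt (hU.mem_nhds hx))
  have hp' : DifferentiableAt ℝ p x :=
    (((hg1.fderiv_right (m := ∞) le_rfl).clm_apply contDiffAt_const)).differentiableAt (by simp)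
  have hq' : DifferentiableAt ℝ q x :=
    (((hg1.fderiv_right (m := ∞) le_rfl).clm_apply contDiffAt_const)).differentiableAt (by simp)
  have hpq : fderiv ℝ q x 1 = fderiv ℝ p x Complex.I :=
    fderiv_comm_apply (hg1.of_le (WithTop.coe_le_coe.2 le_top)) _ _
  have hlap : fderiv ℝ p x 1 + fderiv ℝ q x Complex.I = 0 := by
    have := (hh x hx).2.self_of_nhds
    have hd : ∀ v : ℂ, fderiv ℝ (fun y => fderiv ℝ g₁ y v) x v =
        fderiv ℝ (fderiv ℝ g₁) x v v := fun v => by
      rw [fderiv_clm_apply ((hg1.fderiv_right (m := ∞) le_rfl).differentiableAt (by simp))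
        (differentiableAt_const v)]
      simp
    simp only [hp, hq]
    rw [hd, hd]
    simpa [laplacian_eq_iteratedFDeriv_complexPlane, iteratedFDeriv_two_apply, hg₁] using this
  have e1 : (fun y => - fderiv ℝ θ y Complex.I) =ᶠ[𝓝 x] fun y => a y * p y + b y * q y := by
    filter_upwards [hU.mem_nhds hx] with y hy
    have := congrArg Complex.re (hdec y hy)
    simpa [rgrad_re, hp, hq, hgd y hy] using this
  have e2 : (fun y => fderiv ℝ θ y 1) =ᶠ[𝓝 x] fun y => a y * q y - b y * p y := by
    filter_upwards [hU.mem_nhds hx] with y hy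
    have := congrArg Complex.im (hdec y hy)
    rw [rgrad_im, Complex.add_im, Complex.smul_im, Complex.smul_im, (hcr y hy).1,
      (hcr y hy).2] at this
    simp only [hp, hq, hgd y hy, smul_eq_mul] at this ⊢
    linarith
  have da := ha.1.differentiable (by simp) x
  have db := hb.1.differentiable (by simp) x
  have hc := fderiv_comm_apply (φ := θ) (x := x)
    (hθ.1.contDiffAt.of_le (WithTop.coe_le_coe.2 le_top)) Complex.I 1
  have f1 := congrArg (fun L : ℂ →L[ℝ] ℝ => L 1) e1.fderiv_eq
  have f2 := congrArg (fun L : ℂ →L[ℝ] ℝ => L Complex.I) e2.fderiv_eq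
  simp only [fderiv_fun_neg] at f1
  rw [fderiv_fun_add (da.fun_mul hp') (db.fun_mul hq'), fderiv_fun_mul da hp',
    fderiv_fun_mul db hq'] at f1
  rw [fderiv_fun_sub (da.fun_mul hq') (db.fun_mul hp'), fderiv_fun_mul da hq',
    fderiv_fun_mul db hp'] at f2
  simp only [add_apply, sub_apply,
    neg_apply, smul_apply, smul_eq_mul] at f1 f2
  simp only [dot, grad_re, grad_im, (hcr x hx).1, (hcr x hx).2]
  simp only [hp, hq, hgd x hx] at f1 f2
  have hpq' := hpq
  have hlap' := hlap
  simp only [hp, hq] at hpq' hlap'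
  linear_combination -(f1 + f2) - hc + (-(a x)) * hlap' - (b x) * hpq'

/-- `grad u` is curl free on `O` away from the critical points of the field. -/
theorem Frozen.curl_off_critical (F : Frozen u K K₀ O χ H φ) (hSep : SeparationGoal)
    (hLen : LengthGoal) (hE : EarnshawGoal) (hD : DerivGoal) {g : ℂ → ℂ}
    (hp : IsPotentialField O g)
    (hg : (fun x => grad u x - jumpField u χ H x) =ᵐ[volume.restrict O] g) {θ : ℂ → ℝ}
    (hθ : IsTest O θ) (hne : ∀ x ∈ tsupport θ, fderiv ℝ g x 1 ≠ 0) :
    ∫ x, dot (grad u x) (rgrad θ x) = 0 := by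
  have hgc : ContinuousOn (fun x => fderiv ℝ g x 1) O :=
    ((hp.2.2.1.fderiv_of_isOpen F.piece.isOpen (m := ∞) le_rfl).clm_apply
      contDiffOn_const).continuousOn
  set U := O ∩ (fun x => fderiv ℝ g x 1) ⁻¹' {0}ᶜ with hUdef
  have hU : IsOpen U := hgc.isOpen_inter_preimage F.piece.isOpen isOpen_compl_singleton
  have hθU : IsTest U θ := ⟨hθ.1, hθ.2.1, fun x hx => ⟨hθ.2.2 hx, hne x hx⟩⟩
  set D₁ := fun x => fderiv ℝ g x 1
  set D₂ := fun x => fderiv ℝ g x Complex.I
  have hgU := hp.2.2.1.mono (inter_subset_left : U ⊆ O)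
  have hD₁ : ContDiffOn ℝ ∞ D₁ U :=
    (hgU.fderiv_of_isOpen hU (m := ∞) le_rfl).clm_apply contDiffOn_const
  have hD₂ : ContDiffOn ℝ ∞ D₂ U :=
    (hgU.fderiv_of_isOpen hU (m := ∞) le_rfl).clm_apply contDiffOn_const
  have hnorm : ∀ x ∈ O, ‖D₂ x‖ ^ 2 = ‖D₁ x‖ ^ 2 := fun x hx => by
    simp only [norm_sq_eq_dot, dot, D₁, D₂, (hp.2.2.2 x hx).1, (hp.2.2.2 x hx).2]
    ring
  have h2ne : ∀ x ∈ U, D₂ x ≠ 0 := fun x hx h => hx.2 (by
    have := hnorm x hx.1
    rw [h] at this
    simpa [D₁] using this.symm)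
  set a := fun x => dot (rgrad θ x) (D₁ x) / ‖D₁ x‖ ^ 2 with ha'
  set b := fun x => dot (rgrad θ x) (D₂ x) / ‖D₂ x‖ ^ 2 with hb'
  have ha : IsTest U a := contDiff_smul_test hU hθU hD₁ (fun x hx => hx.2) ha'
  have hb : IsTest U b := contDiff_smul_test hU hθU hD₂ h2ne hb'
  have hdec : ∀ x ∈ U, rgrad θ x = a x • D₁ x + b x • D₂ x := by
    intro x hx
    have hn : ‖D₁ x‖ ^ 2 ≠ 0 := pow_ne_zero _ (norm_ne_zero_iff.2 hx.2)
    simp only [ha', hb', hnorm x hx.1]
    rw [Complex.ext_iff]
    simp only [D₁, D₂, dot, Complex.add_re, Complex.add_im, Complex.smul_re, Complex.smul_im,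
      (hp.2.2.2 x hx.1).1, (hp.2.2.2 x hx.1).2, smul_eq_mul]
    rw [norm_sq_eq_dot] at hn ⊢
    simp only [D₁, dot, (hp.2.2.2 x hx.1).1] at hn ⊢
    generalize (fderiv ℝ g x 1).re = p at hn ⊢
    generalize (fderiv ℝ g x Complex.I).re = q at hn ⊢
    have h1 : p ^ 2 + q ^ 2 ≠ 0 := fun h => hn (by linear_combination h)
    constructor <;> rw [show p * p + q * q = p ^ 2 + q ^ 2 by ring] <;> field_simp <;> ring
  have hzero : ∀ x, dot (D₁ x) (grad a x) + dot (D₂ x) (grad b x) = 0 := by
    intro x
    by_cases hx : x ∈ U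
    · exact sum_dot_grad_eq_zero hU hgU (fun y hy => hp.1 y hy.1)
        (fun y hy => hp.2.2.2 y hy.1) hθU ha hb hdec hx
    · simp [grad_eq_zero_of_notMem_tsupport fun h => hx (ha.2.2 h),
        grad_eq_zero_of_notMem_tsupport fun h => hx (hb.2.2 h), dot]
  have hmemS : ∀ {c : ℂ → ℝ}, IsTest U c → ∀ (v : ℂ) (f : ℂ → ℂ), MemLp f 2 →
      (∀ x, x ∉ tsupport c → f x = 0) → Integrable fun x => dot (fderiv ℝ g x v) (f x) := by
    intro c hc v f hf hf0
    have hcont : ContinuousOn (fun x => fderiv ℝ g x v) U :=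
      ((hgU.fderiv_of_isOpen hU (m := ∞) le_rfl).clm_apply contDiffOn_const).continuousOn
    have : IsFiniteMeasure ((volume : Measure ℂ).restrict (tsupport c)) :=
      isFiniteMeasure_restrict.2 hc.2.1.isCompact.measure_ne_top
    obtain ⟨B, hB⟩ := hc.2.1.isCompact.exists_bound_of_continuousOn (hcont.mono hc.2.2)
    have hm := MemLp.of_bound (p := 2) (μ := (volume : Measure ℂ).restrict (tsupport c)) ((hcont.mono hc.2.2).aestronglyMeasurable
      (isClosed_tsupport c).measurableSet) B
      (ae_restrict_of_forall_mem (isClosed_tsupport c).measurableSet hB)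
    refine (integrableOn_iff_integrable_of_support_subset ?_).1
      (integrable_dot hm (hf.restrict _))
    intro x hx
    by_contra hn
    exact hx (by simp [dot, hf0 x hn])
  have hM : ∀ M : ℕ, ∫ x, deriv (trunc M) (u x) * dot (grad u x) (rgrad θ x) = 0 := by
    intro M
    obtain ⟨va, hga⟩ := F.piece.isVariation_trunc (ha.mono inter_subset_left) M
    obtain ⟨vb, hgb⟩ := F.piece.isVariation_trunc (hb.mono inter_subset_left) M
    have za := F.integral_deriv_eq_zero hSep hLen hE hD hp hg va
      ((tsupport_mul_subset_left).trans (ha.2.2.trans inter_subset_left)) 1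
    have zb := F.integral_deriv_eq_zero hSep hLen hE hD hp hg vb
      ((tsupport_mul_subset_left).trans (hb.2.2.trans inter_subset_left)) Complex.I
    have ia := hmemS ha 1 _ va.memLp fun x hx =>
      grad_eq_zero_of_notMem_tsupport fun h => hx (tsupport_mul_subset_left h)
    have ib := hmemS hb Complex.I _ vb.memLp fun x hx =>
      grad_eq_zero_of_notMem_tsupport fun h => hx (tsupport_mul_subset_left h)
    have h0 := integral_add ia ib
    rw [za, zb, add_zero] at h0
    rw [← h0]
    refine integral_congr_ae ?_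
    filter_upwards [hga, hgb] with x h1 h2
    rw [h1, h2]
    have hr : dot (grad u x) (rgrad θ x) =
        a x * dot (D₁ x) (grad u x) + b x * dot (D₂ x) (grad u x) := by
      by_cases hx : x ∈ U
      · rw [hdec x hx]
        simp [dot]
        ring
      · have h3 : rgrad θ x = 0 := by
          simp [rgrad, grad_eq_zero_of_notMem_tsupport fun h => hx (hθU.2.2 h)]
        rw [h3, image_eq_zero_of_notMem_tsupport fun h => hx (ha.2.2 h),
          image_eq_zero_of_notMem_tsupport fun h => hx (hb.2.2 h)]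
        simp [dot]
    have hz := hzero x
    simp only [D₁, D₂] at hr hz
    simp only [dot, Complex.add_re, Complex.add_im, Complex.smul_re, Complex.smul_im,
      smul_eq_mul] at hr hz ⊢
    linear_combination deriv (trunc M) (u x) * hr - trunc M (u x) * hz
  have hint : Integrable fun x => dot (grad u x) (rgrad θ x) := by
    have hrm : MemLp (rgrad θ) 2 := by
      have h := memLp_grad_test (hθ.mono (subset_univ _))
      exact h.of_le_mul (c := 1) (h.1.const_mul Complex.I)
        (Eventually.of_forall fun x => by simp [rgrad])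
    obtain ⟨R, hR⟩ := hθ.2.1.isCompact.isBounded.subset_ball (0 : ℂ)
    exact F.piece.reg.integrable_dot hrm (r := R) fun x hx => by
      simp [rgrad, grad_eq_zero_of_notMem_tsupport fun h => hx (hR h)]
  have hmeas : ∀ M, AEStronglyMeasurable (fun x => deriv (trunc M) (u x)) volume := fun M => by
    have h1 : AEStronglyMeasurable (fun x => deriv (trunc M) (u x)) (volume.restrict Kᶜ) :=
      (((contDiff_trunc M).continuous_deriv (by simp)).comp_continuousOn
        F.piece.reg.smooth.continuousOn).aestronglyMeasurable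
          F.piece.reg.isClosed.isOpen_compl.measurableSet
    have e : (volume : Measure ℂ).restrict Kᶜ = volume :=
      Measure.restrict_eq_self_of_ae_mem (measure_eq_zero_iff_ae_notMem.1 F.piece.reg.null)
    rwa [e] at h1
  have hlim := tendsto_integral_of_dominated_convergence
    (F := fun M x => deriv (trunc M) (u x) * dot (grad u x) (rgrad θ x))
    (f := fun x => dot (grad u x) (rgrad θ x)) (fun x => ‖dot (grad u x) (rgrad θ x)‖)
    (fun M => (hmeas M).mul hint.1) hint.norm
    (fun M => Eventually.of_forall fun x => by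
      rw [norm_mul, Real.norm_eq_abs]
      exact mul_le_of_le_one_left (norm_nonneg _) (abs_deriv_trunc_le M (u x)))
    (Eventually.of_forall fun x => by
      simpa using (tendsto_deriv_trunc (u x)).mul_const (dot (grad u x) (rgrad θ x)))
  simp only [hM] at hlim
  exact tendsto_nhds_unique hlim tendsto_const_nhds

lemma locallyIntegrableOn_of_ball {P : ℂ → ℂ} (hO : IsOpen O)
    (h : ∀ r, MemLp P 2 (volume.restrict (ball 0 r))) : LocallyIntegrableOn P O := by
  refine (locallyIntegrableOn_iff hO.isLocallyClosed).2 fun S _ hS => ?_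
  obtain ⟨R, hR⟩ := hS.isBounded.subset_ball (0 : ℂ)
  have : IsFiniteMeasure ((volume : Measure ℂ).restrict (ball (0 : ℂ) R)) :=
    isFiniteMeasure_restrict.2 (measure_ball_lt_top).ne
  have hI : IntegrableOn P (ball 0 R) := (h R).integrable one_le_two
  exact hI.mono_set hR

/-- The remaining field is weakly divergence free and curl free on `O`. -/
lemma Frozen.weak_field (F : Frozen u K K₀ O χ H φ) {θ : ℂ → ℝ} (hθ : IsTest O θ) :
    (∫ x, dot (grad u x - jumpField u χ H x) (grad θ x) = 0) ∧
      ∫ x, dot (grad u x - jumpField u χ H x) (rgrad θ x) = 0 := by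
  have P := F.piece
  have hθ' := hθ.mono (subset_univ O)
  have hgm := memLp_grad_test hθ'
  have hrm : MemLp (rgrad θ) 2 :=
    hgm.of_le_mul (c := 1) (hgm.1.const_mul Complex.I)
      (Eventually.of_forall fun x => by simp [rgrad])
  constructor
  · have e : (fun x => dot (grad u x - jumpField u χ H x) (grad θ x)) = fun x =>
        dot (grad u x) (grad θ x) - dot (jumpField u χ H x) (grad θ x) := by
      funext x; simp [dot]; ring
    rw [e, integral_sub (P.integrable_dot_grad hθ.2.1 hgm) (integrable_dot F.memJump hgm),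
      P.euler_test hθ', show ∫ x, dot (jumpField u χ H x) (grad θ x) = 0 from F.orth θ hθ',
      sub_zero]
  · have hH : ∫ x, dot (H x) (rgrad θ x) = 0 := by
      refine tendsto_nhds_unique (F.tendsto.dot (tendstoL2_const hrm)) ?_
      simp [fun n => integral_grad_rgrad isOpen_univ (F.test n).1.contDiffOn hθ']
    set f := fun x => u x - χ x * u x
    have hf : ContDiffOn ℝ ∞ f O := P.contDiffOn_rest.mono P.disjoint.subset_compl_right
    have hf0 := integral_grad_rgrad P.isOpen hf hθ
    have e : (fun x => dot (grad u x - jumpField u χ H x) (rgrad θ x)) =ᵐ[volume] fun x =>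
        dot (grad f x) (rgrad θ x) + dot (H x) (rgrad θ x) := by
      filter_upwards [measure_eq_zero_iff_ae_notMem.1 P.reg.null] with x hx
      rw [show grad f x = grad u x - grad (fun y => χ y * u y) x from
        grad_sub (P.differentiableAt hx) ((P.test.1.differentiable (by simp) x).fun_mul
          (P.differentiableAt hx))]
      simp only [jumpField, dot, Complex.sub_re, Complex.sub_im]
      ring
    have i1 : Integrable fun x => dot (grad f x) (rgrad θ x) := by
      obtain ⟨R, hR⟩ := hθ.2.1.isCompact.isBounded.subset_ball (0 : ℂ)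
      have ia := P.reg.integrable_dot hrm (r := R) fun x hx => by
        simp [rgrad, grad_eq_zero_of_notMem_tsupport fun h => hx (hR h)]
      refine (ia.sub' (integrable_dot P.memLp_cutoff hrm)).congr ?_
      filter_upwards [measure_eq_zero_iff_ae_notMem.1 P.reg.null] with x hx
      rw [show grad f x = grad u x - grad (fun y => χ y * u y) x from
        grad_sub (P.differentiableAt hx) ((P.test.1.differentiable (by simp) x).fun_mul
          (P.differentiableAt hx))]
      simp only [dot, Complex.sub_re, Complex.sub_im]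
      ring
    rw [integral_congr_ae e, integral_add i1 (integrable_dot F.memH hrm), hf0, hH, add_zero]

/-- **No island.** -/
theorem islandGoal (hW : WeylGoal) (hLi : LiouvilleGoal) (hP : ProjectionGoal)
    (hSep : SeparationGoal) (hLen : LengthGoal) (hF : FieldGoal) (hE : EarnshawGoal)
    (hD : DerivGoal) (hCr : CriticalGoal) (hCu : CurlGoal) : IslandGoal := by
  intro u₀ G₀ K hm hred K₀ hK₀ hsub hcl x hx hsubO
  obtain ⟨u, R⟩ := exists_reg hW hLen hm
  set O := connectedComponentIn (K \ K₀)ᶜ x with hOdef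
  have hO : IsOpen O := hcl.isOpen_compl.connectedComponentIn
  obtain ⟨χ, hχ, hone⟩ := exists_cutoff hK₀ hO hsubO
  have P : Piece u K K₀ O χ :=
    ⟨R, hK₀, hsub, hcl, hO, disjoint_left.2 fun y hy h =>
      connectedComponentIn_subset _ _ hy h, hχ, hone⟩
  obtain ⟨H, φ, hH, hφ, hlim, horth⟩ := hP _ P.memLp_cutoff
  have F : Frozen u K K₀ O χ H φ :=
    ⟨P, hH, hφ, ⟨fun n => memLp_grad_test (hφ n), hH, hlim⟩, horth⟩
  set J := jumpField u χ H
  have hloc : LocallyIntegrableOn (fun y => grad u y - J y) O :=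
    locallyIntegrableOn_of_ball hO fun r => (R.memLp r).sub (F.memJump.restrict _)
  obtain ⟨g, hp, hg⟩ := hF O hO _ hloc fun θ hθ => F.weak_field hθ
  -- the piece has positive finite length
  have hpos : 0 < (Measure.hausdorffMeasure 1 K₀).toReal := by
    obtain ⟨r, hr, hball⟩ := Metric.isOpen_iff.1 hcl.isOpen_compl x fun h => h.2 hx
    have h1 := hred x (hsub hx) r hr
    have h2 : K ∩ ball x r ⊆ K₀ := fun y hy => by
      by_contra h; exact hball hy.2 ⟨hy.1, h⟩
    obtain ⟨R', hR'⟩ := hK₀.isBounded.subset_ball (0 : ℂ)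
    exact ENNReal.toReal_pos (lt_of_lt_of_le h1 (measure_mono h2)).ne'
      (ne_top_of_le_ne_top (R.length_ne_top R') (measure_mono fun y hy =>
        show y ∈ K ∩ ball 0 R' from ⟨hsub hy, hR' hy⟩))
  have hle := F.length_le hSep
  set W := ∫ y, ‖J y‖ ^ 2 with hWdef
  suffices hW0 : W ≤ 0 by linarith
  rcases hCr O g (grad u) hO isPreconnected_connectedComponentIn hp
      (fun S hS => by
        obtain ⟨R', hR'⟩ := hS.isBounded.subset_ball (0 : ℂ)
        exact (R.memLp R').mono_measure (Measure.restrict_mono_set _ hR'))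
      (fun θ hθ hne => F.curl_off_critical hSep hLen hE hD hp hg hθ hne) with ⟨c, hc⟩ | hcurl
  · -- constant field: scaling
    have hnhds : ∀ᶠ l : ℝ in 𝓝 1, 0 < l ∧ ∀ y ∈ tsupport χ, (0 : ℂ) + l • y ∈ O := by
      refine (lt_mem_nhds one_pos).and (hχ.2.1.isCompact.eventually_forall_of_forall_eventually
        fun y hy => ?_)
      have hcont : Continuous fun z : ℝ × ℂ => (0 : ℂ) + z.1 • z.2 := by fun_prop
      refine hcont.continuousAt.preimage_mem_nhds (hO.mem_nhds ?_)
      simpa using hχ.2.2 hy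
    obtain ⟨ε, hε, hball⟩ := Metric.eventually_nhds_iff.1 hnhds
    have key : ∀ l : ℝ, dist l 1 < ε →
        0 ≤ (l - 1) * (Measure.hausdorffMeasure 1 K₀).toReal + (1 - l ^ 2) * W := by
      intro l hl
      obtain ⟨hl0, hin⟩ := hball hl
      have h := F.inequality hSep hLen hg 0 hl0 l isVariation_zero hin
        (fun y hy => by simp [tsupport] at hy)
      have hpair : pairing g u χ 0 l = -W := by
        rw [← F.pairing_one hg, pairing, pairing]
        refine integral_congr_ae (Eventually.of_forall fun y => ?_)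
        by_cases hy : y ∈ tsupport χ
        · simp only [hc _ (hin y hy), hc _ (show (0 : ℂ) + (1 : ℝ) • y ∈ O by
            simpa using hχ.2.2 hy)]
        · simp [grad_cutoff_eq_zero hy, dot]
      have hz0 : grad (fun _ : ℂ => (0 : ℝ)) = fun _ => 0 := by
        funext y; simp [grad, Complex.ext_iff]
      simp [hz0, dot, hpair] at h
      linarith
    have h1 := key (1 + ε / 2) (by simp [abs_of_pos hε]; linarith)
    have h2 := key (1 - ε / 2) (by simp [abs_of_pos hε]; linarith)
    by_contra hneg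
    nlinarith [mul_pos (mul_pos hε hε) (not_le.1 hneg)]
  · have hrot : ∀ θ, IsTest univ θ → ∫ y, dot (H y) (rgrad θ y) = 0 := by
      intro θ hθ
      have hgm := memLp_grad_test hθ
      have hrm : MemLp (rgrad θ) 2 :=
        hgm.of_le_mul (c := 1) (hgm.1.const_mul Complex.I)
          (Eventually.of_forall fun y => by simp [rgrad])
      refine tendsto_nhds_unique (F.tendsto.dot (tendstoL2_const hrm)) ?_
      simp [fun n => integral_grad_rgrad isOpen_univ (F.test n).1.contDiffOn hθ]
    have hz := hCu hLi u K K₀ O χ H P hH hrot horth hcurl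
    rw [hWdef, integral_congr_ae (g := fun _ => (0 : ℝ))
      (hz.mono fun y hy => by simp only [J, jumpField]; simp at hy; simp [hy])]
    simp

end Vale.Agent.P128.Islands
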