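import Vale.Agent.P128.Islands.FieldInterface

/-!
# Divergence free and curl free fields: regularity, Earnshaw, derivatives, critical points
-/

noncomputable section

namespace Vale.Agent.P128.Islands

open MeasureTheory Filter Metric Set InnerProductSpace
open scoped Topology ENNReal ContDiff Laplacian ComplexConjugate

lemma abs_dot_le (v w : ℂ) : |dot v w| ≤ ‖v‖ * ‖w‖ := by
  rw [dot_eq_inner]
  exact abs_real_inner_le_norm v w

lemma measurable_dot {f h : ℂ → ℂ} {μ : Measure ℂ} (hf : AEStronglyMeasurable f μ)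
    (hh : AEStronglyMeasurable h μ) : AEStronglyMeasurable (fun x => dot (f x) (h x)) μ := by
  unfold dot
  exact ((Complex.continuous_re.comp_aestronglyMeasurable hf).mul
    (Complex.continuous_re.comp_aestronglyMeasurable hh)).add
    ((Complex.continuous_im.comp_aestronglyMeasurable hf).mul
    (Complex.continuous_im.comp_aestronglyMeasurable hh))

lemma fderiv_re_apply {g : ℂ → ℂ} {x : ℂ} (hg : DifferentiableAt ℝ g x) (v : ℂ) :
    fderiv ℝ (fun y => (g y).re) x v = (fderiv ℝ g x v).re := by
  have h : HasFDerivAt (fun y => (g y).re) (Complex.reCLM.comp (fderiv ℝ g x)) x :=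
    Complex.reCLM.hasFDerivAt.comp x hg.hasFDerivAt
  rw [h.fderiv]
  rfl

lemma fderiv_im_apply {g : ℂ → ℂ} {x : ℂ} (hg : DifferentiableAt ℝ g x) (v : ℂ) :
    fderiv ℝ (fun y => (g y).im) x v = (fderiv ℝ g x v).im := by
  have h : HasFDerivAt (fun y => (g y).im) (Complex.imCLM.comp (fderiv ℝ g x)) x :=
    Complex.imCLM.hasFDerivAt.comp x hg.hasFDerivAt
  rw [h.fderiv]
  rfl

lemma IsPotentialField.differentiableAt {O : Set ℂ} {g : ℂ → ℂ} (h : IsPotentialField O g)
    (hO : IsOpen O) {x : ℂ} (hx : x ∈ O) : DifferentiableAt ℝ g x :=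
  ((h.2.2.1 x hx).contDiffAt (hO.mem_nhds hx)).differentiableAt (by simp)

lemma rgrad_eq_zero_of_notMem_tsupport {f : ℂ → ℝ} {x : ℂ} (h : x ∉ tsupport f) :
    rgrad f x = 0 := by
  simp [rgrad, grad_eq_zero_of_notMem_tsupport h]

lemma integrable_mul_of_test {O : Set ℂ} {p : ℂ → ℝ} (hp : LocallyIntegrableOn p O) {ψ : ℂ → ℝ}
    (hψ : IsTest O ψ) : Integrable fun x => p x * ψ x := by
  have h := (hp.integrableOn_compact_subset hψ.2.2 hψ.2.1.isCompact).mul_continuousOn
    hψ.1.continuous.continuousOn hψ.2.1.isCompact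
  refine (integrableOn_iff_integrable_of_support_subset ?_).1 h
  intro x hx
  by_contra hn
  exact hx (by simp [image_eq_zero_of_notMem_tsupport hn])

/-! ### Weakly potential fields are classical -/

lemma lap_eq_second {φ : ℂ → ℝ} (hφ : ContDiff ℝ ∞ φ) (x : ℂ) :
    Δ φ x = fderiv ℝ (fun y => fderiv ℝ φ y 1) x 1 +
      fderiv ℝ (fun y => fderiv ℝ φ y Complex.I) x Complex.I := by
  rw [laplacian_eq_iteratedFDeriv_complexPlane]
  have hd : DifferentiableAt ℝ (fderiv ℝ φ) x :=
    ((hφ.fderiv_right (m := ∞) le_rfl).differentiable (by simp)) x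
  simp only [iteratedFDeriv_two_apply, Matrix.cons_val_zero, Matrix.cons_val_one]
  rw [fderiv_clm_apply hd (differentiableAt_const _),
    fderiv_clm_apply hd (differentiableAt_const _)]
  simp

theorem fieldGoal (hW : WeylGoal) : FieldGoal := by
  intro O hO P hP hweak
  have hpre : LocallyIntegrableOn (fun x => (P x).re) O := fun x hx =>
    let ⟨t, ht, hi⟩ := hP x hx
    ⟨t, ht, hi.re⟩
  have hpim : LocallyIntegrableOn (fun x => (P x).im) O := fun x hx =>
    let ⟨t, ht, hi⟩ := hP x hx
    ⟨t, ht, hi.im⟩
  have hcomm : ∀ φ : ℂ → ℝ, IsTest O φ → ∀ x,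
      fderiv ℝ (fun y => fderiv ℝ φ y 1) x Complex.I =
        fderiv ℝ (fun y => fderiv ℝ φ y Complex.I) x 1 := fun φ hφ x =>
    fderiv_comm_apply (hφ.1.contDiffAt.of_le (WithTop.coe_le_coe.2 le_top)) _ _
  have hre : IsWeakHarmonic O fun x => (P x).re := by
    refine ⟨hpre, fun φ hφ => ?_⟩
    have hx := hφ.fderiv_apply 1
    have hy := hφ.fderiv_apply Complex.I
    have i1 : Integrable fun x => dot (P x) (grad (fun y => fderiv ℝ φ y 1) x) := by
      simp only [dot, grad_re, grad_im]
      exact (integrable_mul_of_test hpre (hx.fderiv_apply 1)).add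
        (integrable_mul_of_test hpim (hx.fderiv_apply Complex.I))
    have i2 : Integrable fun x => dot (P x) (rgrad (fun y => fderiv ℝ φ y Complex.I) x) := by
      simp only [dot, rgrad_re, rgrad_im, mul_neg]
      exact (integrable_mul_of_test hpre (hy.fderiv_apply Complex.I)).neg.add
        (integrable_mul_of_test hpim (hy.fderiv_apply 1))
    have h := integral_sub i1 i2
    rw [(hweak _ hx).1, (hweak _ hy).2, sub_zero] at h
    rw [← h]
    refine integral_congr_ae (Eventually.of_forall fun x => ?_)
    simp only [dot, grad_re, grad_im, rgrad_re, rgrad_im, lap_eq_second hφ.1, hcomm φ hφ x]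
    ring
  have him : IsWeakHarmonic O fun x => (P x).im := by
    refine ⟨hpim, fun φ hφ => ?_⟩
    have hx := hφ.fderiv_apply 1
    have hy := hφ.fderiv_apply Complex.I
    have i1 : Integrable fun x => dot (P x) (grad (fun y => fderiv ℝ φ y Complex.I) x) := by
      simp only [dot, grad_re, grad_im]
      exact (integrable_mul_of_test hpre (hy.fderiv_apply 1)).add
        (integrable_mul_of_test hpim (hy.fderiv_apply Complex.I))
    have i2 : Integrable fun x => dot (P x) (rgrad (fun y => fderiv ℝ φ y 1) x) := by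
      simp only [dot, rgrad_re, rgrad_im, mul_neg]
      exact (integrable_mul_of_test hpre (hx.fderiv_apply Complex.I)).neg.add
        (integrable_mul_of_test hpim (hx.fderiv_apply 1))
    have h := integral_add i1 i2
    rw [(hweak _ hy).1, (hweak _ hx).2, add_zero] at h
    rw [← h]
    refine integral_congr_ae (Eventually.of_forall fun x => ?_)
    simp only [dot, grad_re, grad_im, rgrad_re, rgrad_im, lap_eq_second hφ.1, hcomm φ hφ x]
    ring
  obtain ⟨h1, hh1, he1⟩ := hW O hO _ hre
  obtain ⟨h2, hh2, he2⟩ := hW O hO _ him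
  set g : ℂ → ℂ := fun x => ⟨h1 x, h2 x⟩ with hg
  have hc1 : ContDiffOn ℝ ∞ h1 O := fun x hx =>
    ((HarmonicAt.analyticAt (hh1 x hx)).contDiffAt).contDiffWithinAt
  have hc2 : ContDiffOn ℝ ∞ h2 O := fun x hx =>
    ((HarmonicAt.analyticAt (hh2 x hx)).contDiffAt).contDiffWithinAt
  have hcg : ContDiffOn ℝ ∞ g O := by
    have e : g = fun x => Complex.equivRealProdCLM.symm (h1 x, h2 x) := by
      funext x
      simp [hg, Complex.ext_iff]
    rw [e]
    exact Complex.equivRealProdCLM.symm.contDiff.comp_contDiffOn (hc1.prodMk hc2)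
  have hPg : P =ᵐ[volume.restrict O] g := by
    filter_upwards [he1, he2] with x a b
    exact Complex.ext a b
  have hfree : ∀ θ, IsTest O θ →
      ∫ x, dot (g x) (grad θ x) = 0 ∧ ∫ x, dot (g x) (rgrad θ x) = 0 := by
    intro θ hθ
    have hae : ∀ᵐ x : ℂ, x ∈ O → P x = g x :=
      (ae_restrict_iff' hO.measurableSet).1 hPg
    refine ⟨?_, ?_⟩
    · rw [← (hweak θ hθ).1]
      refine integral_congr_ae (hae.mono fun x hx => ?_)
      by_cases h : x ∈ O
      · simp [hx h]
      · simp [dot, grad_eq_zero_of_notMem_tsupport fun h' => h (hθ.2.2 h')]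
    · rw [← (hweak θ hθ).2]
      refine integral_congr_ae (hae.mono fun x hx => ?_)
      by_cases h : x ∈ O
      · simp [hx h]
      · simp [dot, rgrad_eq_zero_of_notMem_tsupport fun h' => h (hθ.2.2 h')]
  have hd : ∀ f : ℂ → ℝ, ContDiffOn ℝ ∞ f O → ∀ v,
      ContinuousOn (fun x => fderiv ℝ f x v) O := fun f hf v =>
    ((hf.fderiv_of_isOpen hO (m := ∞) le_rfl).clm_apply contDiffOn_const).continuousOn
  have vanish : ∀ F : ℂ → ℝ, ContinuousOn F O →
      (∀ θ, IsTest O θ → ∫ x, θ x * F x = 0) → EqOn F 0 O := by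
    intro F hF hint
    have h := hO.ae_eq_zero_of_integral_contDiff_smul_eq_zero
      (hF.locallyIntegrableOn hO.measurableSet)
      (fun θ a b c => by simpa [smul_eq_mul] using hint θ ⟨a, b, c⟩)
    refine Measure.eqOn_open_of_ae_eq (μ := (volume : Measure ℂ)) ?_ hO hF continuousOn_const
    rw [EventuallyEq, ae_restrict_iff' hO.measurableSet]
    exact h
  have c1 := vanish (fun x => fderiv ℝ h2 x 1 - fderiv ℝ h1 x Complex.I)
    ((hd h2 hc2 1).sub (hd h1 hc1 Complex.I)) (fun θ hθ => by
      have a := integrable_mul_test hO (hd h2 hc2 1) hθ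
      have b := integrable_mul_test hO (hd h1 hc1 Complex.I) hθ
      have c := integrable_mul_test hO hc1.continuousOn (hθ.fderiv_apply Complex.I)
      have d := integrable_mul_test hO hc2.continuousOn (hθ.fderiv_apply 1)
      calc ∫ x, θ x * (fderiv ℝ h2 x 1 - fderiv ℝ h1 x Complex.I)
          = ∫ x, (fderiv ℝ h2 x 1 * θ x - fderiv ℝ h1 x Complex.I * θ x) := by
            refine integral_congr_ae (Eventually.of_forall fun x => ?_)
            ring
        _ = -(∫ x, h2 x * fderiv ℝ θ x 1) + ∫ x, h1 x * fderiv ℝ θ x Complex.I := by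
            rw [integral_sub a b, integral_fderiv_mul_test hO hc2 hθ,
              integral_fderiv_mul_test hO hc1 hθ]
            ring
        _ = -∫ x, dot (g x) (rgrad θ x) := by
            have e : (fun x => dot (g x) (rgrad θ x)) = fun x =>
                h2 x * fderiv ℝ θ x 1 - h1 x * fderiv ℝ θ x Complex.I := by
              funext x
              simp [hg, dot, rgrad_re, rgrad_im]
              ring
            rw [e, integral_sub d c]
            ring
        _ = 0 := by rw [(hfree θ hθ).2, neg_zero])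
  have c2 := vanish (fun x => fderiv ℝ h1 x 1 + fderiv ℝ h2 x Complex.I)
    ((hd h1 hc1 1).add (hd h2 hc2 Complex.I)) (fun θ hθ => by
      have a := integrable_mul_test hO (hd h1 hc1 1) hθ
      have b := integrable_mul_test hO (hd h2 hc2 Complex.I) hθ
      have c := integrable_mul_test hO hc1.continuousOn (hθ.fderiv_apply 1)
      have d := integrable_mul_test hO hc2.continuousOn (hθ.fderiv_apply Complex.I)
      calc ∫ x, θ x * (fderiv ℝ h1 x 1 + fderiv ℝ h2 x Complex.I)
          = ∫ x, (fderiv ℝ h1 x 1 * θ x + fderiv ℝ h2 x Complex.I * θ x) := by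
            refine integral_congr_ae (Eventually.of_forall fun x => ?_)
            ring
        _ = -((∫ x, h1 x * fderiv ℝ θ x 1) + ∫ x, h2 x * fderiv ℝ θ x Complex.I) := by
            rw [integral_add a b, integral_fderiv_mul_test hO hc2 hθ,
              integral_fderiv_mul_test hO hc1 hθ]
            ring
        _ = -∫ x, dot (g x) (grad θ x) := by
            rw [← integral_add c d]
            rfl
        _ = 0 := by rw [(hfree θ hθ).1, neg_zero])
  refine ⟨g, ⟨hh1, hh2, hcg, fun x hx => ?_⟩, hPg⟩
  have hgd : DifferentiableAt ℝ g x :=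
    ((hcg x hx).contDiffAt (hO.mem_nhds hx)).differentiableAt (by simp)
  have a := c1 hx
  have b := c2 hx
  simp only [Pi.zero_apply] at a b
  have e1 : ∀ v, (fderiv ℝ g x v).re = fderiv ℝ h1 x v := fun v => (fderiv_re_apply hgd v).symm
  have e2 : ∀ v, (fderiv ℝ g x v).im = fderiv ℝ h2 x v := fun v => (fderiv_im_apply hgd v).symm
  rw [e1, e1, e2, e2]
  constructor <;> linarith

/-! ### Translates -/

/-- Bounded measurable replacement of `g` near the translates of `S`. -/
lemma exists_shift_bound {E : Type*} [NormedAddCommGroup E] [MeasurableSpace E] [BorelSpace E]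
    {O S : Set ℂ} {g : ℂ → E} {b : ℂ} {ρ : ℝ} (hg : ContinuousOn g O) (hS : IsCompact S)
    (hsub : ∀ a ∈ closedBall b ρ, ∀ y ∈ S, a + y ∈ O) :
    ∃ (h : ℂ → E) (C : ℝ), Measurable h ∧ (∀ z, ‖h z‖ ≤ C) ∧
      ∀ a ∈ closedBall b ρ, ∀ y ∈ S, h (a + y) = g (a + y) := by
  classical
  set K := (fun p : ℂ × ℂ => p.1 + p.2) '' (closedBall b ρ ×ˢ S) with hK
  have hKc : IsCompact K := ((isCompact_closedBall b ρ).prod hS).image continuous_add
  have hKO : K ⊆ O := by
    rintro z ⟨⟨a, y⟩, ⟨ha, hy⟩, rfl⟩
    exact hsub a ha y hy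
  obtain ⟨C, hC⟩ := hKc.exists_bound_of_continuousOn (hg.mono hKO)
  refine ⟨K.piecewise g fun _ => 0, max C 0,
    (hg.mono hKO).measurable_piecewise continuousOn_const hKc.measurableSet, fun z => ?_,
    fun a ha y hy => piecewise_eq_of_mem _ _ _ ⟨(a, y), ⟨ha, hy⟩, rfl⟩⟩
  by_cases hz : z ∈ K
  · rw [piecewise_eq_of_mem _ _ _ hz]
    exact (hC z hz).trans (le_max_left _ _)
  · rw [piecewise_eq_of_notMem _ _ _ hz, norm_zero]
    exact le_max_right _ _

lemma integrable_of_memLp_two {S : Set ℂ} (hS : IsCompact S) {A : ℂ → ℂ} (hA : MemLp A 2)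
    (h0 : ∀ y, y ∉ S → A y = 0) : Integrable A := by
  have : IsFiniteMeasure ((volume : Measure ℂ).restrict S) :=
    isFiniteMeasure_restrict.2 hS.measure_ne_top
  refine (integrableOn_iff_integrable_of_support_subset ?_).1
    ((hA.restrict S).integrable one_le_two)
  intro x hx
  by_contra hn
  exact hx (h0 x hn)

theorem earnshawGoal : EarnshawGoal := by
  intro O g A S r hO hg hS hr hsub hA h0 hmin
  set f : ℂ → ℝ := fun a => ∫ y, dot (g (a + y)) (A y) with hf
  set m : ℝ := ∫ y, dot (g y) (A y) with hm
  have hf0 : f 0 = m := by simp [hf, hm]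
  have hAi := integrable_of_memLp_two hS hA h0
  have hcont : ContinuousOn f (ball 0 r) := by
    intro b hb
    obtain ⟨ρ, hρ, hbρ⟩ := nhds_basis_closedBall.mem_iff.1 (isOpen_ball.mem_nhds hb)
    obtain ⟨gt, C, hgm, hgC, hgeq⟩ := exists_shift_bound hg.2.2.1.continuousOn hS
      (fun a ha => hsub a (hbρ ha))
    refine (continuousAt_of_dominated (bound := fun y => C * ‖A y‖) ?_ ?_
      (hAi.norm.const_mul C) ?_).continuousWithinAt
    · filter_upwards [closedBall_mem_nhds b hρ] with a ha
      have e : (fun y => dot (g (a + y)) (A y)) = fun y => dot (gt (a + y)) (A y) := by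
        funext y
        by_cases hy : y ∈ S
        · rw [hgeq a ha y hy]
        · simp [h0 y hy, dot]
      rw [e]
      exact measurable_dot (hgm.comp (measurable_const_add a)).aestronglyMeasurable hA.1
    · filter_upwards [closedBall_mem_nhds b hρ] with a ha
      refine Eventually.of_forall fun y => ?_
      by_cases hy : y ∈ S
      · rw [Real.norm_eq_abs]
        refine (abs_dot_le _ _).trans (mul_le_mul_of_nonneg_right ?_ (norm_nonneg _))
        rw [← hgeq a ha y hy]
        exact hgC _
      · simp [h0 y hy, dot]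
    · refine Eventually.of_forall fun y => ?_
      by_cases hy : y ∈ S
      · have hc : ContinuousAt (fun a => g (a + y)) b :=
          ContinuousAt.comp (g := g) ((hg.2.2.1.continuousOn).continuousAt
            (hO.mem_nhds (hsub b hb y hy))) (continuousAt_id.add continuousAt_const)
        unfold dot
        exact ((Complex.continuous_re.continuousAt.comp hc).mul continuousAt_const).add
          ((Complex.continuous_im.continuousAt.comp hc).mul continuousAt_const)
      · simpa [h0 y hy, dot] using continuousAt_const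
  have hmean : ∀ b ρ, 0 < ρ → closedBall b ρ ⊆ ball 0 r →
      ∫ θ in (0 : ℝ)..2 * Real.pi, f (circleMap b ρ θ) = 2 * Real.pi * f b := by
    intro b ρ hρ hbρ
    obtain ⟨gt, C, hgm, hgC, hgeq⟩ := exists_shift_bound hg.2.2.1.continuousOn hS
      (fun a ha => hsub a (hbρ ha))
    have hcm : ∀ θ, circleMap b ρ θ ∈ closedBall b ρ := fun θ =>
      circleMap_mem_closedBall b hρ.le θ
    have e : ∀ θ y, dot (g (circleMap b ρ θ + y)) (A y) =
        dot (gt (circleMap b ρ θ + y)) (A y) := by
      intro θ y
      by_cases hy : y ∈ S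
      · rw [hgeq _ (hcm θ) y hy]
      · simp [h0 y hy, dot]
    have h2π : (0 : ℝ) ≤ 2 * Real.pi := by positivity
    rw [intervalIntegral.integral_of_le h2π]
    simp only [hf, e]
    rw [integral_integral_swap ?_, ← integral_const_mul]
    · refine integral_congr_ae (Eventually.of_forall fun y => ?_)
      simp only [← e]
      by_cases hy : y ∈ S
      · have hh : HarmonicOnNhd (fun z => dot (g z) (A y)) (closedBall (b + y) |ρ|) := by
          intro z hz
          have hzO : z ∈ O := by
            have := hsub (z - y) (hbρ ?_) y hy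
            · simpa using this
            · rw [abs_of_pos hρ] at hz
              simpa [mem_closedBall, dist_eq_norm, sub_sub, add_comm y b] using hz
          have a1 := (hg.1 z hzO).const_smul (c := (A y).re)
          have a2 := (hg.2.1 z hzO).const_smul (c := (A y).im)
          have e3 : (fun z => dot (g z) (A y)) =
              ((A y).re • fun x => (g x).re) + ((A y).im • fun x => (g x).im) := by
            funext x
            simp [dot]
            ring
          rw [e3]
          exact a1.add a2
        have h := hh.circleAverage_eq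
        rw [Real.circleAverage_def, smul_eq_mul, intervalIntegral.integral_of_le h2π,
          inv_mul_eq_iff_eq_mul₀ (by positivity)] at h
        rw [show (fun θ => dot (g (circleMap b ρ θ + y)) (A y)) =
          fun θ => dot (g (circleMap (b + y) ρ θ)) (A y) from funext fun θ => by
            simp [circleMap, add_right_comm]]
        exact h
      · simp [h0 y hy, dot]
    · refine ((hAi.norm.const_mul C).comp_snd _).mono' ?_ (Eventually.of_forall fun p => ?_)
      · have hmq : Measurable fun p : ℝ × ℂ => gt (circleMap b ρ p.1 + p.2) :=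
          hgm.comp (((continuous_circleMap b ρ).measurable.comp measurable_fst).add measurable_snd)
        unfold Function.uncurry dot
        exact ((Complex.measurable_re.comp hmq).aestronglyMeasurable.mul
          (Complex.continuous_re.comp_aestronglyMeasurable hA.1.comp_snd)).add
          ((Complex.measurable_im.comp hmq).aestronglyMeasurable.mul
          (Complex.continuous_im.comp_aestronglyMeasurable hA.1.comp_snd))
      · exact (Real.norm_eq_abs _).trans_le ((abs_dot_le _ _).trans
          (mul_le_mul_of_nonneg_right (hgC _) (norm_nonneg _)))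
  set M := {a | a ∈ ball (0 : ℂ) r ∧ f a = m} with hM
  have hopen : IsOpen M := by
    rw [Metric.isOpen_iff]
    rintro b ⟨hb, hbm⟩
    obtain ⟨ρ₀, hρ₀, hbρ⟩ := nhds_basis_closedBall.mem_iff.1 (isOpen_ball.mem_nhds hb)
    refine ⟨ρ₀, hρ₀, fun z hz => ⟨hbρ (ball_subset_closedBall hz), ?_⟩⟩
    rcases eq_or_ne z b with rfl | hne
    · exact hbm
    set ρ := dist z b with hρ
    have hρpos : 0 < ρ := dist_pos.2 hne
    have hρsub : closedBall b ρ ⊆ ball 0 r :=
      (closedBall_subset_closedBall (le_of_lt hz)).trans hbρ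
    have hzs : z ∈ sphere b |ρ| := by rw [abs_of_pos hρpos, mem_sphere]
    rw [← image_circleMap_Ioc] at hzs
    obtain ⟨θ₀, hθ₀, hθz⟩ := hzs
    have hcc : Continuous fun θ => f (circleMap b ρ θ) :=
      hcont.comp_continuous (continuous_circleMap b ρ)
        (fun θ => hρsub (circleMap_mem_closedBall b hρpos.le θ))
    have hge : ∀ θ, m ≤ f (circleMap b ρ θ) := fun θ =>
      hmin _ (hρsub (circleMap_mem_closedBall b hρpos.le θ))
    by_contra hne'
    rw [← hθz] at hne'
    have hpos : 0 < ∫ θ in (0 : ℝ)..2 * Real.pi, (f (circleMap b ρ θ) - m) :=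
      intervalIntegral.integral_pos (by positivity) (hcc.sub continuous_const).continuousOn
        (fun θ _ => sub_nonneg.2 (hge θ))
        ⟨θ₀, Ioc_subset_Icc_self hθ₀, sub_pos.2 (lt_of_le_of_ne (hge θ₀) (Ne.symm hne'))⟩
    rw [intervalIntegral.integral_sub (hcc.intervalIntegrable _ _)
      intervalIntegrable_const, intervalIntegral.integral_const, hmean b ρ hρpos hρsub, hbm,
      smul_eq_mul] at hpos
    linarith
  intro a ha
  have hball : ball (0 : ℂ) r ⊆ M := by
    refine (convex_ball (0 : ℂ) r).isPreconnected.subset_of_closure_inter_subset hopen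
      ⟨0, mem_ball_self hr, mem_ball_self hr, hf0⟩ ?_
    rintro x ⟨hx, hxb⟩
    refine ⟨hxb, ?_⟩
    have hcx : ContinuousAt f x := hcont.continuousAt (isOpen_ball.mem_nhds hxb)
    obtain ⟨u, hu, hux⟩ := mem_closure_iff_seq_limit.1 hx
    exact tendsto_nhds_unique (hcx.tendsto.comp hux)
      (tendsto_const_nhds.congr fun n => ((hu n).2).symm)
  exact (hball ha).2

theorem derivGoal : DerivGoal := by
  intro O g B S r c hO hg hS hSO hr hB h0 hconst e
  obtain ⟨δ, hδ, hδO⟩ := hS.exists_cthickening_subset_open hO hSO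
  set ρ := min δ (r / 2) with hρdef
  have hρ : 0 < ρ := lt_min hδ (half_pos hr)
  have hsub : ∀ a ∈ closedBall (0 : ℂ) ρ, ∀ y ∈ S, a + y ∈ O := fun a ha y hy => by
    refine hδO (mem_cthickening_of_dist_le _ y _ _ hy ?_)
    rw [dist_eq_norm, add_sub_cancel_right]
    exact ((mem_closedBall_zero_iff.1 ha)).trans (min_le_left _ _)
  have hgc := hg.2.2.1
  obtain ⟨gt, C, hgm, hgC, hgeq⟩ := exists_shift_bound hgc.continuousOn hS hsub
  obtain ⟨dg, D, hdm, hdD, hdeq⟩ := exists_shift_bound (g := fun x => fderiv ℝ g x e)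
    (((hgc.fderiv_of_isOpen hO (m := ∞) le_rfl).clm_apply contDiffOn_const).continuousOn) hS hsub
  have hBi := integrable_of_memLp_two hS hB h0
  set η := ρ / (‖e‖ + 1) with hηdef
  have hη : 0 < η := by positivity
  have hte : ∀ t ∈ ball (0 : ℝ) η, t • e ∈ closedBall (0 : ℂ) ρ := fun t ht => by
    rw [mem_closedBall_zero_iff, norm_smul]
    rw [mem_ball_zero_iff] at ht
    calc ‖t‖ * ‖e‖ ≤ η * (‖e‖ + 1) :=
          mul_le_mul ht.le (le_add_of_nonneg_right zero_le_one) (norm_nonneg _) hη.le
      _ = ρ := div_mul_cancel₀ _ (by positivity)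
  have eF : ∀ t ∈ ball (0 : ℝ) η, ∀ y,
      dot (g (t • e + y)) (B y) = dot (gt (t • e + y)) (B y) := fun t ht y => by
    by_cases hy : y ∈ S
    · rw [hgeq _ (hte t ht) y hy]
    · simp [h0 y hy, dot]
  have eD : ∀ t ∈ ball (0 : ℝ) η, ∀ y,
      dot (fderiv ℝ g (t • e + y) e) (B y) = dot (dg (t • e + y)) (B y) := fun t ht y => by
    by_cases hy : y ∈ S
    · rw [hdeq _ (hte t ht) y hy]
    · simp [h0 y hy, dot]
  have hmF : ∀ t ∈ ball (0 : ℝ) η,
      AEStronglyMeasurable (fun y => dot (g (t • e + y)) (B y)) volume := fun t ht => by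
    simp only [eF t ht]
    exact measurable_dot (hgm.comp (measurable_const_add _)).aestronglyMeasurable hB.1
  have h := hasDerivAt_integral_of_dominated_loc_of_deriv_le (𝕜 := ℝ) (μ := volume)
    (F := fun t y => dot (g (t • e + y)) (B y))
    (F' := fun t y => dot (fderiv ℝ g (t • e + y) e) (B y))
    (bound := fun y => D * ‖B y‖) (ball_mem_nhds (0 : ℝ) hη)
    (eventually_of_mem (ball_mem_nhds (0 : ℝ) hη) hmF)
    ((hBi.norm.const_mul C).mono' (hmF 0 (mem_ball_self hη)) (Eventually.of_forall fun y => by
      rw [eF 0 (mem_ball_self hη) y, Real.norm_eq_abs]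
      exact (abs_dot_le _ _).trans (mul_le_mul_of_nonneg_right (hgC _) (norm_nonneg _))))
    (by
      simp only [eD 0 (mem_ball_self hη)]
      exact measurable_dot (hdm.comp (measurable_const_add _)).aestronglyMeasurable hB.1)
    (Eventually.of_forall fun y t ht => by
      rw [eD t ht y, Real.norm_eq_abs]
      exact (abs_dot_le _ _).trans (mul_le_mul_of_nonneg_right (hdD _) (norm_nonneg _)))
    (hBi.norm.const_mul D)
    (Eventually.of_forall fun y t ht => by
      by_cases hy : y ∈ S
      · have h1 := (hg.differentiableAt hO (hsub _ (hte t ht) y hy)).hasFDerivAt.comp_hasDerivAt t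
          (((hasDerivAt_id t).smul_const e).add_const y)
        simp only [one_smul] at h1
        have h2 := ((Complex.reCLM.hasFDerivAt.comp_hasDerivAt t h1).mul_const (B y).re).add
          ((Complex.imCLM.hasFDerivAt.comp_hasDerivAt t h1).mul_const (B y).im)
        exact h2
      · simpa [h0 y hy, dot] using hasDerivAt_const t (0 : ℝ))
  have hc : HasDerivAt (fun t : ℝ => ∫ y, dot (g (t • e + y)) (B y)) 0 0 := by
    refine (hasDerivAt_const (0 : ℝ) c).congr_of_eventuallyEq ?_
    filter_upwards [ball_mem_nhds (0 : ℝ) hη] with t ht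
    refine hconst _ ?_ (hsub _ (hte t ht))
    rw [mem_ball_zero_iff]
    exact lt_of_le_of_lt ((mem_closedBall_zero_iff.1 (hte t ht)).trans (min_le_right _ _))
      (half_lt_self hr)
  have := h.2.unique hc
  simpa using this

/-! ### Critical points -/

/-- A fixed cutoff: one on the unit disk, zero outside the disk of radius two. -/
def cutBump : ContDiffBump (0 : ℂ) := ⟨1, 2, one_pos, one_lt_two⟩

/-- The cutoff of radius `s` at `z`. -/
def cut (z : ℂ) (s : ℝ) (x : ℂ) : ℝ := cutBump (s⁻¹ • (x - z))

lemma contDiff_cut (z : ℂ) (s : ℝ) : ContDiff ℝ ∞ (cut z s) :=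
  (cutBump.contDiff).comp ((contDiff_id.sub contDiff_const).const_smul s⁻¹)

lemma cut_mem (z : ℂ) (s : ℝ) (x : ℂ) : 0 ≤ cut z s x ∧ cut z s x ≤ 1 :=
  ⟨cutBump.nonneg, cutBump.le_one⟩

lemma cut_eq_zero {z x : ℂ} {s : ℝ} (hs : 0 < s) (h : 2 * s ≤ ‖x - z‖) : cut z s x = 0 := by
  refine cutBump.zero_of_le_dist ?_
  rw [dist_zero_right, norm_smul, norm_inv, Real.norm_eq_abs, abs_of_pos hs]
  show (2 : ℝ) ≤ _
  rw [le_inv_mul_iff₀ hs]
  linarith

lemma cut_eventuallyEq_one {z : ℂ} {s : ℝ} (hs : 0 < s) : cut z s =ᶠ[𝓝 z] fun _ => 1 := by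
  filter_upwards [ball_mem_nhds z hs] with x hx
  refine cutBump.one_of_mem_closedBall ?_
  rw [mem_closedBall_zero_iff, norm_smul, norm_inv, Real.norm_eq_abs, abs_of_pos hs]
  show _ ≤ (1 : ℝ)
  rw [inv_mul_le_iff₀ hs, mul_one]
  rw [mem_ball, dist_eq_norm] at hx
  exact hx.le

lemma exists_cut_bound : ∃ D, 0 ≤ D ∧ ∀ z s x, 0 < s → ‖rgrad (cut z s) x‖ ≤ D / s := by
  obtain ⟨D, hD⟩ := (cutBump.contDiff.continuous_fderiv (n := (⊤ : ℕ∞)) (by simp)
    ).bounded_above_of_compact_support (cutBump.hasCompactSupport.fderiv ℝ)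
  have hD0 : 0 ≤ D := (norm_nonneg _).trans (hD 0)
  refine ⟨2 * D, by positivity, fun z s x hs => ?_⟩
  have h1 : HasFDerivAt (fun y : ℂ => s⁻¹ • (y - z))
      (s⁻¹ • ContinuousLinearMap.id ℝ ℂ) x := ((hasFDerivAt_id x).sub_const z).const_smul s⁻¹
  have h2 := ((cutBump.contDiff (n := (⊤ : ℕ∞))).differentiable (by simp)
    (s⁻¹ • (x - z))).hasFDerivAt.comp x h1
  have e : ∀ v, ‖v‖ = 1 → |fderiv ℝ (cut z s) x v| ≤ D / s := by
    intro v hv
    rw [show cut z s = (cutBump : ℂ → ℝ) ∘ fun y => s⁻¹ • (y - z) from rfl, h2.fderiv]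
    simp only [ContinuousLinearMap.comp_apply, smul_apply,
      ContinuousLinearMap.id_apply, map_smul, smul_eq_mul, abs_mul, abs_inv, abs_of_pos hs]
    rw [inv_mul_le_iff₀ hs, mul_div_cancel₀ _ hs.ne']
    refine (((fderiv ℝ (cutBump : ℂ → ℝ) _).le_opNorm v).trans ?_)
    rw [hv, mul_one]
    exact hD _
  rw [rgrad, norm_mul, Complex.norm_I, one_mul]
  refine (Complex.norm_le_abs_re_add_abs_im _).trans ?_
  rw [grad_re, grad_im, show 2 * D / s = D / s + D / s by ring]
  exact add_le_add (e 1 norm_one) (e Complex.I Complex.norm_I)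

lemma rgrad_mul {f h : ℂ → ℝ} {x : ℂ} (hf : DifferentiableAt ℝ f x)
    (hh : DifferentiableAt ℝ h x) :
    rgrad (fun y => f y * h y) x = f x • rgrad h x + h x • rgrad f x := by
  simp only [rgrad, grad_mul hf hh, Complex.real_smul]
  ring

/-- Removing one point from the support of the test function. -/
lemma removable_point {O : Set ℂ} {G : ℂ → ℂ}
    (hG : ∀ S, IsCompact S → MemLp G 2 (volume.restrict S)) {θ : ℂ → ℝ} (hθ : IsTest O θ) (z : ℂ)
    (h : ∀ ψ, IsTest O ψ → tsupport ψ ⊆ tsupport θ → z ∉ tsupport ψ →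
      ∫ x, dot (G x) (rgrad ψ x) = 0) :
    ∫ x, dot (G x) (rgrad θ x) = 0 := by
  obtain ⟨D, hD0, hD⟩ := exists_cut_bound
  obtain ⟨T, hT⟩ := hθ.2.1.exists_bound_of_continuous hθ.1.continuous
  have hT0 : 0 ≤ T := (norm_nonneg _).trans (hT z)
  set s : ℕ → ℝ := fun n => 1 / ((n : ℝ) + 1) with hsdef
  have hs : ∀ n, 0 < s n := fun n => by positivity
  have hs1 : ∀ n, s n ≤ 1 := fun n => by
    rw [hsdef]
    simp only
    rw [div_le_one (by positivity)]
    linarith [(Nat.cast_nonneg n : (0 : ℝ) ≤ n)]
  have hs0 : Tendsto s atTop (𝓝 0) := tendsto_one_div_add_atTop_nhds_zero_nat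
  -- integrability
  have hint : ∀ ψ : ℂ → ℝ, ContDiff ℝ ∞ ψ → HasCompactSupport ψ →
      Integrable fun x => dot (G x) (rgrad ψ x) := by
    intro ψ hψ hψc
    have hc : Continuous (rgrad ψ) := continuous_const.mul
      (continuousOn_univ.1 (contDiffOn_grad isOpen_univ hψ.contDiffOn).continuousOn)
    have hm : MemLp (rgrad ψ) 2 := hc.memLp_of_hasCompactSupport
      (HasCompactSupport.intro hψc.isCompact fun x hx => rgrad_eq_zero_of_notMem_tsupport hx)
    have hd : Integrable (fun x => dot (G x) (rgrad ψ x))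
        (volume.restrict (tsupport ψ)) :=
      ((hG _ hψc.isCompact).re.integrable_mul (hm.restrict _).re).add
        ((hG _ hψc.isCompact).im.integrable_mul (hm.restrict _).im)
    refine (integrableOn_iff_integrable_of_support_subset ?_).1 hd
    intro x hx
    by_contra hn
    exact hx (by simp [dot, rgrad_eq_zero_of_notMem_tsupport hn])
  -- main term
  have hmain : Tendsto (fun n => ∫ x, (1 - cut z (s n) x) * dot (G x) (rgrad θ x)) atTop
      (𝓝 (∫ x, dot (G x) (rgrad θ x))) := by
    refine tendsto_integral_of_dominated_convergence (fun x => ‖dot (G x) (rgrad θ x)‖)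
      (fun n => ((continuous_const.sub (contDiff_cut z (s n)).continuous).aestronglyMeasurable).mul
        (hint θ hθ.1 hθ.2.1).aestronglyMeasurable)
      (hint θ hθ.1 hθ.2.1).norm (fun n => Eventually.of_forall fun x => ?_) ?_
    · rw [norm_mul]
      refine mul_le_of_le_one_left (norm_nonneg _) ?_
      rw [Real.norm_eq_abs, abs_le]
      constructor <;> linarith [(cut_mem z (s n) x).1, (cut_mem z (s n) x).2]
    · filter_upwards [Measure.ae_ne volume z] with x hx
      refine tendsto_const_nhds.congr' ?_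
      have hpos : 0 < ‖x - z‖ := norm_pos_iff.2 (sub_ne_zero.2 hx)
      filter_upwards [hs0.eventually (Iio_mem_nhds (half_pos hpos))] with n hn
      rw [cut_eq_zero (hs n) (by linarith), sub_zero, one_mul]
  -- error term
  set J : ℕ → ℝ := fun n => ∫ x in closedBall z (2 * s n), ‖G x‖ ^ 2 with hJdef
  have hGsq : IntegrableOn (fun x => ‖G x‖ ^ 2) (closedBall z 2) :=
    (hG _ (isCompact_closedBall z 2)).norm.integrable_sq
  have hsub : ∀ n, closedBall z (2 * s n) ⊆ closedBall z 2 := fun n =>
    closedBall_subset_closedBall (by linarith [hs1 n])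
  have hJ : Tendsto J atTop (𝓝 0) := by
    have e : (0 : ℝ) = ∫ _x : ℂ, (0 : ℝ) := by simp
    rw [e]
    simp only [hJdef, ← integral_indicator isClosed_closedBall.measurableSet]
    have hI : Integrable ((closedBall z 2).indicator fun x => ‖G x‖ ^ 2) :=
      hGsq.integrable_indicator isClosed_closedBall.measurableSet
    refine tendsto_integral_of_dominated_convergence
      ((closedBall z 2).indicator fun x => ‖G x‖ ^ 2)
      (fun n => ((hGsq.mono_set (hsub n)).integrable_indicator
        isClosed_closedBall.measurableSet).aestronglyMeasurable)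
      hI (fun n => Eventually.of_forall fun x => ?_) ?_
    · rw [Real.norm_eq_abs, abs_of_nonneg (indicator_nonneg (fun _ _ => by positivity) _)]
      exact indicator_le_indicator_of_subset (hsub n) (fun _ => by positivity) x
    · filter_upwards [Measure.ae_ne volume z] with x hx
      refine tendsto_const_nhds.congr' ?_
      have hpos : 0 < ‖x - z‖ := norm_pos_iff.2 (sub_ne_zero.2 hx)
      filter_upwards [hs0.eventually (Iio_mem_nhds (half_pos hpos))] with n hn
      rw [indicator_of_notMem]
      rw [mem_closedBall, dist_eq_norm]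
      linarith
  set E : ℕ → ℝ := fun n => ∫ x, θ x * dot (G x) (rgrad (cut z (s n)) x) with hEdef
  have hE : Tendsto E atTop (𝓝 0) := by
    refine Metric.tendsto_atTop.2 fun ε hε => ?_
    set K := T * D * (4 * Real.pi + 1) with hKdef
    have hK : 0 ≤ K := by positivity
    set η := ε / (K + 1) with hηdef
    have hη : 0 < η := by positivity
    obtain ⟨N, hN⟩ := Metric.tendsto_atTop.1 hJ (η ^ 2) (by positivity)
    refine ⟨N, fun n hn => ?_⟩
    rw [dist_zero_right, Real.norm_eq_abs]
    have hJn : J n ≤ η ^ 2 := by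
      have := hN n hn
      rw [dist_zero_right, Real.norm_eq_abs] at this
      exact ((le_abs_self _).trans this.le)
    set Bn := closedBall z (2 * s n) with hBn
    have hvol : (volume : Measure ℂ).real Bn = (2 * s n) ^ 2 * Real.pi := by
      simp [hBn, measureReal_def, Complex.volume_closedBall, (hs n).le]
    have hconstI : IntegrableOn (fun _ : ℂ => η / s n ^ 2) Bn :=
      integrableOn_const (isCompact_closedBall _ _).measure_lt_top.ne
    have hsq : IntegrableOn (fun x => ‖G x‖ ^ 2 / η) Bn :=
      (hGsq.mono_set (hsub n)).div_const η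
    have hdomOn : IntegrableOn (fun x => T * D * (‖G x‖ ^ 2 / η + η / s n ^ 2)) Bn :=
      (hsq.add hconstI).const_mul (T * D)
    have hdom : Integrable (Bn.indicator fun x =>
        T * D * (‖G x‖ ^ 2 / η + η / s n ^ 2)) :=
      hdomOn.integrable_indicator isClosed_closedBall.measurableSet
    calc |E n| ≤ ∫ x, |θ x * dot (G x) (rgrad (cut z (s n)) x)| := abs_integral_le_integral_abs
      _ ≤ ∫ x, Bn.indicator (fun x => T * D * (‖G x‖ ^ 2 / η + η / s n ^ 2)) x := by
          refine integral_mono_of_nonneg (Eventually.of_forall fun x => abs_nonneg _) hdom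
            (Eventually.of_forall fun x => ?_)
          by_cases hx : x ∈ Bn
          · rw [indicator_of_mem hx]
            show |_| ≤ _
            rw [abs_mul, mul_assoc T D]
            refine mul_le_mul (hT x) ((abs_dot_le _ _).trans ?_) (abs_nonneg _) hT0
            refine (mul_le_mul_of_nonneg_left (hD z (s n) x (hs n)) (norm_nonneg _)).trans ?_
            have key : ‖G x‖ / s n ≤ ‖G x‖ ^ 2 / η + η / s n ^ 2 := by
              have h1 := sq_nonneg (‖G x‖ / Real.sqrt η - Real.sqrt η / s n)
              have h2 : 0 < Real.sqrt η := Real.sqrt_pos.2 hη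
              rw [sub_sq, div_pow, div_pow, Real.sq_sqrt hη.le] at h1
              have h3 : 2 * (‖G x‖ / Real.sqrt η) * (Real.sqrt η / s n) = 2 * (‖G x‖ / s n) := by
                field_simp
              have h4 : 0 ≤ ‖G x‖ / s n := div_nonneg (norm_nonneg _) (hs n).le
              linarith
            calc ‖G x‖ * (D / s n) = D * (‖G x‖ / s n) := by ring
              _ ≤ _ := mul_le_mul_of_nonneg_left key hD0
          · rw [indicator_of_notMem hx]
            have h1 : rgrad (cut z (s n)) x = 0 := by
              have h2 : cut z (s n) =ᶠ[𝓝 x] fun _ => (0 : ℝ) := by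
                filter_upwards [isClosed_closedBall.isOpen_compl.mem_nhds hx] with y hy
                refine cut_eq_zero (hs n) (le_of_lt ?_)
                simpa [hBn, dist_eq_norm] using hy
              rw [rgrad, grad_congr h2]
              simp [grad, Complex.ext_iff]
            simp [h1, dot]
      _ = T * D * (J n / η + 4 * Real.pi * η) := by
          rw [integral_indicator isClosed_closedBall.measurableSet, integral_const_mul,
            integral_add hsq hconstI,
            integral_div, setIntegral_const, hvol, smul_eq_mul]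
          have := (hs n).ne'
          field_simp
          ring
      _ ≤ T * D * (η + 4 * Real.pi * η) := by
          refine mul_le_mul_of_nonneg_left ?_ (by positivity)
          refine add_le_add_left ?_ _ |>.trans_eq rfl
          rw [div_le_iff₀ hη]
          linarith [pow_two η]
      _ = K * η := by rw [hKdef]; ring
      _ < (K + 1) * η := by linarith
      _ = ε := mul_div_cancel₀ _ (by positivity)
  have hsum : ∀ n, ∫ x, (1 - cut z (s n) x) * dot (G x) (rgrad θ x) = E n := by
    intro n
    set ψ : ℂ → ℝ := fun x => θ x * (1 - cut z (s n) x) with hψdef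
    have hsupp : tsupport ψ ⊆ tsupport θ := tsupport_mul_subset_left
    have hψ : IsTest O ψ :=
      ⟨hθ.1.mul (contDiff_const.sub (contDiff_cut z (s n))), hθ.2.1.mul_right, hsupp.trans hθ.2.2⟩
    have hzn : z ∉ tsupport ψ := by
      rw [notMem_tsupport_iff_eventuallyEq]
      filter_upwards [cut_eventuallyEq_one (hs n)] with x hx
      simp [hψdef, hx]
    have h0 := h ψ hψ hsupp hzn
    have hd1 : Differentiable ℝ θ := hθ.1.differentiable (by simp)
    have hd2 : Differentiable ℝ (cut z (s n)) := (contDiff_cut z (s n)).differentiable (by simp)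
    have e : ∀ x, dot (G x) (rgrad ψ x) = (1 - cut z (s n) x) * dot (G x) (rgrad θ x) -
        θ x * dot (G x) (rgrad (cut z (s n)) x) := by
      intro x
      rw [hψdef, rgrad_mul (f := θ) (h := fun y => 1 - cut z (s n) y) (hd1 x)
        ((differentiableAt_const _).sub (hd2 x))]
      have e1 : rgrad (fun y => 1 - cut z (s n) y) x = -rgrad (cut z (s n)) x := by
        simp only [rgrad, grad_sub (differentiableAt_const (1 : ℝ)) (hd2 x)]
        simp [grad, Complex.ext_iff]
      rw [e1]
      simp [dot]
      ring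
    have i1 : Integrable fun x => (1 - cut z (s n) x) * dot (G x) (rgrad θ x) :=
      (hint θ hθ.1 hθ.2.1).bdd_mul (c := 1)
        (continuous_const.sub (contDiff_cut z (s n)).continuous).aestronglyMeasurable
        (Eventually.of_forall fun x => by
          rw [Real.norm_eq_abs, abs_le]
          constructor <;> linarith [(cut_mem z (s n) x).1, (cut_mem z (s n) x).2])
    have i2 : Integrable fun x => θ x * dot (G x) (rgrad (cut z (s n)) x) :=
      (hint (cut z (s n)) (contDiff_cut z (s n)) (HasCompactSupport.intro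
        (isCompact_closedBall z (2 * s n)) fun x hx => cut_eq_zero (hs n) (by
          rw [mem_closedBall, dist_eq_norm, not_le] at hx; exact hx.le))).bdd_mul (c := T)
        hθ.1.continuous.aestronglyMeasurable (Eventually.of_forall hT)
    simp only [e] at h0
    rw [integral_sub i1 i2] at h0
    simp only [hEdef]
    linarith
  exact tendsto_nhds_unique (hmain.congr hsum) hE

theorem criticalGoal : CriticalGoal := by
  intro O g G hO hpre hg hG hoff
  set f : ℂ → ℝ := fun x => (g x).re with hf
  set H : ℂ → ℂ := fun x => fderiv ℝ f x 1 - Complex.I * fderiv ℝ f x Complex.I with hH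
  have han : AnalyticOnNhd ℂ H O := fun x hx =>
    HarmonicAt.analyticAt_complex_partial (hg.1 x hx)
  have hzero : ∀ x ∈ O, (H x = 0 ↔ fderiv ℝ g x 1 = 0) := by
    intro x hx
    have hd := hg.differentiableAt hO hx
    obtain ⟨h1, h2⟩ := hg.2.2.2 x hx
    simp only [hH, hf, fderiv_re_apply hd, Complex.ext_iff, ← h1]
    simp
  by_cases hall : EqOn H 0 O
  · left
    obtain ⟨c, hc⟩ := hO.exists_is_const_of_fderiv_eq_zero hpre
      (hg.2.2.1.differentiableOn (by simp)) (fun x hx => by
        have h0 := (hzero x hx).1 (hall hx)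
        obtain ⟨h1, h2⟩ := hg.2.2.2 x hx
        have hI : fderiv ℝ g x Complex.I = 0 := by
          apply Complex.ext
          · rw [← h1, h0]; rfl
          · rw [h2, h0]; simp
        ext v
        rw [show v = (v.re : ℝ) • (1 : ℂ) + (v.im : ℝ) • Complex.I by simp,
          map_add, map_smul, map_smul, h0, hI]
        simp)
    exact ⟨c, hc⟩
  right
  have hiso : ∀ x ∈ O, ∀ᶠ y in 𝓝[≠] x, H y ≠ 0 := fun x hx => by
    by_contra hn
    rw [not_eventually] at hn
    exact hall (han.eqOn_zero_of_preconnected_of_frequently_eq_zero hpre hx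
      (hn.mono fun y hy => not_not.1 hy))
  suffices key : ∀ Z : Finset ℂ, ∀ θ, IsTest O θ →
      (∀ x ∈ tsupport θ, fderiv ℝ g x 1 = 0 → x ∈ Z) → ∫ x, dot (G x) (rgrad θ x) = 0 by
    intro θ hθ
    obtain ⟨t, htK, htcov⟩ := hθ.2.1.isCompact.elim_nhds_subcover
      (fun x => {y | y = x ∨ H y ≠ 0}) (fun x hx => by
        have := eventually_nhdsWithin_iff.1 (hiso x (hθ.2.2 hx))
        refine this.mono fun y hy => ?_
        by_cases h : y = x
        · exact Or.inl h
        · exact Or.inr (hy h))
    refine key t θ hθ fun x hx hx0 => ?_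
    obtain ⟨y, hy, hxy⟩ := mem_iUnion₂.1 (htcov hx)
    rcases hxy with rfl | hne
    · exact hy
    · exact absurd ((hzero x (hθ.2.2 hx)).2 hx0) hne
  intro Z
  induction Z using Finset.induction_on with
  | empty =>
    exact fun θ hθ hZ => hoff θ hθ fun x hx h0 => absurd (hZ x hx h0) (Finset.notMem_empty x)
  | @insert z Z hzZ ih =>
    intro θ hθ hZ
    refine removable_point hG hθ z fun ψ hψ hsub hz => ih ψ hψ fun x hx h0 => ?_
    rcases Finset.mem_insert.1 (hZ x (hsub hx) h0) with rfl | h
    · exact absurd hx hz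
    · exact h

end Vale.Agent.P128.Islands
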