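import Vale.Agent.P128.Islands.Vary
import Vale.Agent.P128.Islands.Weak

/-!
# A piece without curl has no field
-/

namespace Vale.Agent.P128.Islands

open MeasureTheory Filter Metric Set InnerProductSpace
open scoped Topology ENNReal ContDiff Laplacian

lemma memLp_grad_of_test {U : Set ℂ} {θ : ℂ → ℝ} (hθ : IsTest U θ) :
    MemLp (grad θ) 2 ∧ MemLp (rgrad θ) 2 := by
  have hc : Continuous (grad θ) :=
    continuousOn_univ.1 (contDiffOn_grad isOpen_univ hθ.1.contDiffOn).continuousOn
  have hs : HasCompactSupport (grad θ) :=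
    HasCompactSupport.intro hθ.2.1.isCompact fun x hx => grad_eq_zero_of_notMem_tsupport hx
  exact ⟨hc.memLp_of_hasCompactSupport hs,
    (continuous_const.mul hc).memLp_of_hasCompactSupport hs.mul_left⟩

/-- The gradient of the cut off function is orthogonal to rotated test gradients. -/
lemma Piece.integral_cutoff_rgrad {u : ℂ → ℝ} {K K₀ O : Set ℂ} {χ : ℂ → ℝ}
    (P : Piece u K K₀ O χ) (hcurl : ∀ θ, IsTest O θ → ∫ x, dot (grad u x) (rgrad θ x) = 0)
    {θ : ℂ → ℝ} (hθ : IsTest univ θ) :
    ∫ x, dot (grad (fun y => χ y * u y) x) (rgrad θ x) = 0 := by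
  set η : ℂ → ℝ := fun x => χ x * θ x with hη
  have hηt : IsTest O η := ⟨P.test.1.mul hθ.1, P.test.2.1.mul_right,
    tsupport_mul_subset_left.trans P.test.2.2⟩
  set f : ℂ → ℝ := fun x => θ x * u x with hf
  have hU : IsOpen Kᶜ := P.reg.isClosed.isOpen_compl
  have hfs : ContDiffOn ℝ ∞ f Kᶜ := hθ.1.contDiffOn.mul P.reg.smooth
  have ha := P.isTest_fderiv 1
  have hb := P.isTest_fderiv Complex.I
  have hcross := integral_cross_eq_zero hU hfs ha hb fun x =>
    fderiv_comm_apply (P.test.1.contDiffAt.of_le (WithTop.coe_le_coe.2 le_top)) _ _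
  obtain ⟨R, hR⟩ := hηt.2.1.isCompact.isBounded.subset_ball (0 : ℂ)
  have hi := P.reg.integrable_dot (memLp_grad_of_test hηt).2 (r := R) fun x hx => by
    simp [rgrad, grad_eq_zero_of_notMem_tsupport fun h => hx (hR h)]
  have hfv : ∀ v, ContinuousOn (fun x => fderiv ℝ f x v) Kᶜ := fun v =>
    (((hfs.fderiv_of_isOpen hU (m := ∞) le_rfl).clm_apply contDiffOn_const).continuousOn)
  have hic : Integrable fun x =>
      fderiv ℝ f x Complex.I * fderiv ℝ χ x 1 - fderiv ℝ f x 1 * fderiv ℝ χ x Complex.I :=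
    (integrable_mul_test hU (hfv Complex.I) ha).sub (integrable_mul_test hU (hfv 1) hb)
  have he : (fun x => dot (grad (fun y => χ y * u y) x) (rgrad θ x)) =ᵐ[volume] fun x =>
      dot (grad u x) (rgrad η x) -
        (fderiv ℝ f x Complex.I * fderiv ℝ χ x 1 - fderiv ℝ f x 1 * fderiv ℝ χ x Complex.I) := by
    filter_upwards [P.ae_grad_cutoff, measure_eq_zero_iff_ae_notMem.1 P.reg.null] with x hx hK
    have hu := P.differentiableAt hK
    have hχ := (P.test.1.differentiable (by simp)) x
    have hd := (hθ.1.differentiable (by simp)) x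
    rw [hx, hη, hf, fderiv_fun_mul hd hu]
    simp only [rgrad, grad_mul hχ hd, dot, Complex.mul_re, Complex.mul_im, Complex.I_re,
      Complex.I_im, Complex.add_re, Complex.add_im, Complex.smul_re, Complex.smul_im, smul_eq_mul,
      grad_re, grad_im, add_apply, smul_apply]
    ring
  rw [integral_congr_ae he, integral_sub hi hic, hcurl η hηt]
  linarith

/-- A square integrable field orthogonal to all test gradients and rotated test gradients has
weakly harmonic components. -/
lemma isWeakHarmonic_re_im {W : ℂ → ℂ} (hW : MemLp W 2)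
    (h1 : ∀ θ, IsTest univ θ → ∫ x, dot (W x) (grad θ x) = 0)
    (h2 : ∀ θ, IsTest univ θ → ∫ x, dot (W x) (rgrad θ x) = 0) :
    IsWeakHarmonic univ (fun x => (W x).re) ∧ IsWeakHarmonic univ (fun x => (W x).im) := by
  have hre : MemLp (fun x => (W x).re) 2 := hW.re
  have him : MemLp (fun x => (W x).im) 2 := hW.im
  refine ⟨⟨(hre.locallyIntegrable one_le_two).locallyIntegrableOn _, fun φ hφ => ?_⟩,
    ⟨(him.locallyIntegrable one_le_two).locallyIntegrableOn _, fun φ hφ => ?_⟩⟩
  all_goals
    have hcd : ContDiff ℝ 2 φ := hφ.1.of_le (WithTop.coe_le_coe.2 le_top)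
    have t1 := hφ.fderiv_apply 1
    have tI := hφ.fderiv_apply Complex.I
  · have e : ∀ x, (W x).re * Δ φ x = dot (W x) (grad (fun y => fderiv ℝ φ y 1) x) -
        dot (W x) (rgrad (fun y => fderiv ℝ φ y Complex.I) x) := fun x => by
      rw [Weak.lap_eq hcd, Weak.dd, Weak.dd, dot, dot, rgrad_re, rgrad_im, grad_re, grad_im,
        fderiv_comm_apply hcd.contDiffAt Complex.I 1]
      ring
    simp only [e]
    rw [integral_sub (integrable_dot hW (memLp_grad_of_test t1).1)
      (integrable_dot hW (memLp_grad_of_test tI).2), h1 _ t1, h2 _ tI, sub_zero]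
  · have e : ∀ x, (W x).im * Δ φ x = dot (W x) (grad (fun y => fderiv ℝ φ y Complex.I) x) +
        dot (W x) (rgrad (fun y => fderiv ℝ φ y 1) x) := fun x => by
      rw [Weak.lap_eq hcd, Weak.dd, Weak.dd, dot, dot, rgrad_re, rgrad_im, grad_re, grad_im,
        fderiv_comm_apply hcd.contDiffAt Complex.I 1]
      ring
    simp only [e]
    rw [integral_add (integrable_dot hW (memLp_grad_of_test tI).1)
      (integrable_dot hW (memLp_grad_of_test t1).2), h1 _ tI, h2 _ t1, add_zero]

/-- A piece without curl has no field. -/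
theorem curlGoal : CurlGoal := by
  intro hL u K K₀ O χ H P hH hHr hHg hcurl
  set A := grad fun y => χ y * u y with hA
  have hW : MemLp (fun x => A x - H x) 2 := P.memLp_cutoff.sub hH
  have h2 : ∀ θ, IsTest univ θ → ∫ x, dot (A x - H x) (rgrad θ x) = 0 := by
    intro θ hθ
    have e : ∀ x, dot (A x - H x) (rgrad θ x) = dot (A x) (rgrad θ x) - dot (H x) (rgrad θ x) :=
      fun x => by simp [dot]; ring
    simp only [e]
    rw [integral_sub (integrable_dot P.memLp_cutoff (memLp_grad_of_test hθ).2)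
      (integrable_dot hH (memLp_grad_of_test hθ).2), hHr θ hθ,
      P.integral_cutoff_rgrad hcurl hθ, sub_zero]
  obtain ⟨w1, w2⟩ := isWeakHarmonic_re_im hW hHg h2
  filter_upwards [hL _ hW.re w1, hL _ hW.im w2] with x hx hy
  exact Complex.ext hx hy

end Vale.Agent.P128.Islands
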