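import Vale.Agent.P128.Islands.Core
import Vale.Agent.P128.Islands.Weak
import Vale.Agent.P128.Islands.Field
import Vale.Agent.P128.Islands.Curl

/-!
# Assembly: all components are unbounded
-/

namespace Vale.Agent.P128.Islands

open MeasureTheory Metric Set

/-- The central theorem with the topological and metric modules as arguments. -/
theorem islandGoal_of (hP : ProjectionGoal) (hSep : SeparationGoal) (hLen : LengthGoal) :
    IslandGoal :=
  islandGoal weylGoal liouvilleGoal hP hSep hLen (fieldGoal weylGoal) earnshawGoal derivGoal
    criticalGoal curlGoal

/-- The constant pair is a global minimiser, so the hypotheses are satisfiable. -/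
theorem isGlobalMinimizer_const (a : ℝ) :
    IsGlobalMinimizer (fun _ => a) (fun _ => 0) ∅ := by
  have e : grad (fun _ : ℂ => a) = fun _ => 0 := by
    funext x; simp [grad, Complex.ext_iff]
  have h := isSobolev_of_contDiffOn isOpen_univ (f := fun _ : ℂ => a) contDiffOn_const
  rw [e] at h
  refine ⟨isClosed_empty, by rwa [compl_empty], fun c r => ?_, fun c r v Gv L _ _ => ?_⟩ <;>
    simp [energy]

end Vale.Agent.P128.Islands
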