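import Vale.Agent.P128.Islands.Interface

/-!
# Gradients, rotated gradients and integration by parts
-/

namespace Vale.Agent.P128.Islands

open MeasureTheory Filter Metric Set InnerProductSpace
open scoped Topology ENNReal ContDiff Laplacian

/-- The gradient rotated by a quarter turn. -/
noncomputable def rgrad (f : ℂ → ℝ) (x : ℂ) : ℂ := Complex.I * grad f x

lemma dot_eq_inner (v w : ℂ) : dot v w = inner ℝ v w := by
  rw [Complex.inner, dot, Complex.mul_re, Complex.conj_re, Complex.conj_im]
  ring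

lemma grad_re (f : ℂ → ℝ) (x : ℂ) : (grad f x).re = fderiv ℝ f x 1 := rfl

lemma grad_im (f : ℂ → ℝ) (x : ℂ) : (grad f x).im = fderiv ℝ f x Complex.I := rfl

lemma rgrad_re (f : ℂ → ℝ) (x : ℂ) : (rgrad f x).re = - fderiv ℝ f x Complex.I := by
  simp [rgrad, grad_im]

lemma rgrad_im (f : ℂ → ℝ) (x : ℂ) : (rgrad f x).im = fderiv ℝ f x 1 := by
  simp [rgrad, grad_re]

lemma grad_add {f g : ℂ → ℝ} {x : ℂ} (hf : DifferentiableAt ℝ f x)
    (hg : DifferentiableAt ℝ g x) : grad (fun y => f y + g y) x = grad f x + grad g x := by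
  simp [grad, fderiv_fun_add hf hg, Complex.ext_iff]

lemma grad_sub {f g : ℂ → ℝ} {x : ℂ} (hf : DifferentiableAt ℝ f x)
    (hg : DifferentiableAt ℝ g x) : grad (fun y => f y - g y) x = grad f x - grad g x := by
  simp [grad, fderiv_fun_sub hf hg, Complex.ext_iff]

lemma grad_const_mul (a : ℝ) {f : ℂ → ℝ} {x : ℂ} (hf : DifferentiableAt ℝ f x) :
    grad (fun y => a * f y) x = a • grad f x := by
  simp [grad, fderiv_const_mul hf, Complex.ext_iff]

lemma grad_mul {f g : ℂ → ℝ} {x : ℂ} (hf : DifferentiableAt ℝ f x)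
    (hg : DifferentiableAt ℝ g x) :
    grad (fun y => f y * g y) x = f x • grad g x + g x • grad f x := by
  simp [grad, fderiv_fun_mul hf hg, Complex.ext_iff]

lemma grad_comp_real {τ : ℝ → ℝ} {f : ℂ → ℝ} {x : ℂ} (hτ : DifferentiableAt ℝ τ (f x))
    (hf : DifferentiableAt ℝ f x) : grad (fun y => τ (f y)) x = deriv τ (f x) • grad f x := by
  have h : fderiv ℝ (fun y => τ (f y)) x = deriv τ (f x) • fderiv ℝ f x :=
    (hτ.hasDerivAt.comp_hasFDerivAt x hf.hasFDerivAt).fderiv
  simp [grad, h, Complex.ext_iff]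

lemma grad_congr {f g : ℂ → ℝ} {x : ℂ} (h : f =ᶠ[𝓝 x] g) : grad f x = grad g x := by
  simp [grad, h.fderiv_eq]

lemma grad_eq_zero_of_notMem_tsupport {f : ℂ → ℝ} {x : ℂ} (h : x ∉ tsupport f) :
    grad f x = 0 := by
  have : fderiv ℝ f x = 0 := image_eq_zero_of_notMem_tsupport
    (fun hx => h (tsupport_fderiv_subset ℝ hx))
  simp [grad, this, Complex.ext_iff]

lemma contDiffOn_grad {f : ℂ → ℝ} {U : Set ℂ} (hU : IsOpen U) (hf : ContDiffOn ℝ ∞ f U) :
    ContDiffOn ℝ ∞ (grad f) U := by
  have h := hf.fderiv_of_isOpen hU (m := ∞) le_rfl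
  have h1 : ContDiffOn ℝ ∞ (fun x => fderiv ℝ f x 1) U := h.clm_apply contDiffOn_const
  have h2 : ContDiffOn ℝ ∞ (fun x => fderiv ℝ f x Complex.I) U := h.clm_apply contDiffOn_const
  have : grad f = fun x => Complex.equivRealProdCLM.symm
      (fderiv ℝ f x 1, fderiv ℝ f x Complex.I) := by
    funext x
    simp [grad, Complex.ext_iff]
  rw [this]
  exact Complex.equivRealProdCLM.symm.contDiff.comp_contDiffOn (h1.prodMk h2)

lemma IsTest.mono {U V : Set ℂ} {φ : ℂ → ℝ} (h : IsTest U φ) (hUV : U ⊆ V) : IsTest V φ :=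
  ⟨h.1, h.2.1, h.2.2.trans hUV⟩

lemma IsTest.fderiv_apply {U : Set ℂ} {φ : ℂ → ℝ} (h : IsTest U φ) (v : ℂ) :
    IsTest U (fun x => fderiv ℝ φ x v) := by
  refine ⟨(h.1.fderiv_right (m := ∞) le_rfl).clm_apply contDiff_const,
    h.2.1.fderiv_apply (𝕜 := ℝ) v, ?_⟩
  refine Subset.trans (closure_minimal (fun x hx => ?_) (isClosed_tsupport _)) h.2.2
  by_contra hn
  apply hx
  have : fderiv ℝ φ x = 0 := image_eq_zero_of_notMem_tsupport
    (fun hx' => hn (tsupport_fderiv_subset ℝ hx'))
  simp [this]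

/-- The product of a smooth function on `U` with a test function of `U` is smooth. -/
lemma contDiff_mul_test {U : Set ℂ} (hU : IsOpen U) {f φ : ℂ → ℝ} (hf : ContDiffOn ℝ ∞ f U)
    (hφ : IsTest U φ) : ContDiff ℝ ∞ (fun x => f x * φ x) := by
  refine contDiff_iff_contDiffAt.2 fun x => ?_
  by_cases hx : x ∈ U
  · exact ((hf x hx).contDiffAt (hU.mem_nhds hx)).mul hφ.1.contDiffAt
  · have h0 : (fun y => f y * φ y) =ᶠ[𝓝 x] fun _ => (0 : ℝ) := by
      filter_upwards [(isClosed_tsupport φ).isOpen_compl.mem_nhds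
        (fun h => hx (hφ.2.2 h))] with y hy
      simp [image_eq_zero_of_notMem_tsupport hy]
    exact contDiffAt_const.congr_of_eventuallyEq h0

lemma integrable_mul_test {U : Set ℂ} (hU : IsOpen U) {f φ : ℂ → ℝ} (hf : ContinuousOn f U)
    (hφ : IsTest U φ) : Integrable (fun x => f x * φ x) := by
  refine Continuous.integrable_of_hasCompactSupport ?_ hφ.2.1.mul_left
  refine continuous_iff_continuousAt.2 fun x => ?_
  by_cases hx : x ∈ U
  · exact (hf.continuousAt (hU.mem_nhds hx)).mul hφ.1.continuous.continuousAt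
  · have h0 : (fun y => f y * φ y) =ᶠ[𝓝 x] fun _ => (0 : ℝ) := by
      filter_upwards [(isClosed_tsupport φ).isOpen_compl.mem_nhds
        (fun h => hx (hφ.2.2 h))] with y hy
      simp [image_eq_zero_of_notMem_tsupport hy]
    exact continuousAt_const.congr h0.symm

/-- Integration by parts against a test function. -/
lemma integral_fderiv_mul_test {U : Set ℂ} (hU : IsOpen U) {f φ : ℂ → ℝ}
    (hf : ContDiffOn ℝ ∞ f U) (hφ : IsTest U φ) (v : ℂ) :
    ∫ x, fderiv ℝ f x v * φ x = - ∫ x, f x * fderiv ℝ φ x v := by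
  have hfv : ContinuousOn (fun x => fderiv ℝ f x v) U :=
    (((hf.fderiv_of_isOpen hU (m := ∞) le_rfl).clm_apply contDiffOn_const).continuousOn)
  have hg := contDiff_mul_test hU hf hφ
  have h0 : ∫ x, fderiv ℝ (fun y => f y * φ y) x v = 0 := by
    have hi : Integrable fun x => fderiv ℝ (fun y => f y * φ y) x v :=
      (((hg.fderiv_right (m := ∞) le_rfl).continuous).clm_apply continuous_const
        ).integrable_of_hasCompactSupport (hφ.2.1.mul_left.fderiv_apply (𝕜 := ℝ) v)
    have := integral_mul_fderiv_eq_neg_fderiv_mul_of_integrable (μ := volume) (v := v)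
      (f := fun _ : ℂ => (1 : ℝ)) (g := fun y => f y * φ y) (by simp) (by simpa using hi)
      (by simpa using hg.continuous.integrable_of_hasCompactSupport hφ.2.1.mul_left)
      (fun _ _ => differentiableAt_const _) (fun x _ => hg.differentiable (by simp) x)
    simpa using this
  have hsplit : (fun x => fderiv ℝ (fun y => f y * φ y) x v) =
      fun x => fderiv ℝ f x v * φ x + f x * fderiv ℝ φ x v := by
    funext x
    by_cases hx : x ∈ U
    · have hd : DifferentiableAt ℝ f x :=
        ((hf x hx).contDiffAt (hU.mem_nhds hx)).differentiableAt (by simp)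
      rw [fderiv_fun_mul hd (hφ.1.differentiable (by simp) x)]
      simp
      ring
    · have hn : x ∉ tsupport φ := fun h => hx (hφ.2.2 h)
      have hn' : x ∉ tsupport (fun y => f y * φ y) := fun h => hn (tsupport_mul_subset_right h)
      have e1 : fderiv ℝ φ x = 0 := image_eq_zero_of_notMem_tsupport
        (fun h => hn (tsupport_fderiv_subset ℝ h))
      have e2 : fderiv ℝ (fun y => f y * φ y) x = 0 := image_eq_zero_of_notMem_tsupport
        (fun h => hn' (tsupport_fderiv_subset ℝ h))
      simp [e1, e2, image_eq_zero_of_notMem_tsupport hn]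
  rw [hsplit, integral_add (integrable_mul_test hU hfv hφ)
    (integrable_mul_test hU hf.continuousOn (hφ.fderiv_apply v))] at h0
  linarith

/-- Smooth functions are Sobolev functions with their gradient. -/
lemma isSobolev_of_contDiffOn {U : Set ℂ} (hU : IsOpen U) {f : ℂ → ℝ}
    (hf : ContDiffOn ℝ ∞ f U) : IsSobolev U f (grad f) := by
  have hg := (contDiffOn_grad hU hf).continuousOn
  refine ⟨fun S hS hSU => ⟨?_, ?_⟩, fun φ hφ => ?_⟩
  · have : IsFiniteMeasure ((volume : Measure ℂ).restrict S) :=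
      isFiniteMeasure_restrict.2 hS.measure_ne_top
    obtain ⟨B, hB⟩ := hS.exists_bound_of_continuousOn (hf.continuousOn.mono hSU)
    exact MemLp.of_bound ((hf.continuousOn.mono hSU).aestronglyMeasurable hS.measurableSet) B
      (ae_restrict_of_forall_mem hS.measurableSet hB)
  · have : IsFiniteMeasure ((volume : Measure ℂ).restrict S) :=
      isFiniteMeasure_restrict.2 hS.measure_ne_top
    obtain ⟨B, hB⟩ := hS.exists_bound_of_continuousOn (hg.mono hSU)
    exact MemLp.of_bound ((hg.mono hSU).aestronglyMeasurable hS.measurableSet) B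
      (ae_restrict_of_forall_mem hS.measurableSet hB)
  · have hfv : ∀ v, ContinuousOn (fun x => fderiv ℝ f x v) U := fun v =>
      (((hf.fderiv_of_isOpen hU (m := ∞) le_rfl).clm_apply contDiffOn_const).continuousOn)
    have a1 := integrable_mul_test hU hf.continuousOn (hφ.fderiv_apply 1)
    have a2 := integrable_mul_test hU hf.continuousOn (hφ.fderiv_apply Complex.I)
    have b1 := integrable_mul_test hU (hfv 1) hφ
    have b2 := integrable_mul_test hU (hfv Complex.I) hφ
    have e : (fun x => f x • grad φ x + φ x • grad f x) = fun x =>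
        (((f x * fderiv ℝ φ x 1 + fderiv ℝ f x 1 * φ x : ℝ)) : ℂ) +
        ((f x * fderiv ℝ φ x Complex.I + fderiv ℝ f x Complex.I * φ x : ℝ) : ℂ) * Complex.I := by
      funext x
      simp [grad, Complex.ext_iff]
      constructor <;> ring
    rw [e, integral_add (a1.fun_add b1).ofReal ((a2.fun_add b2).ofReal.mul_const _),
      integral_mul_const, integral_complex_ofReal, integral_complex_ofReal,
      integral_add a1 b1, integral_add a2 b2, integral_fderiv_mul_test hU hf hφ,
      integral_fderiv_mul_test hU hf hφ]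
    simp

/-- A closed rotation identity: the two mixed integrations by parts cancel. -/
lemma integral_cross_eq_zero {U : Set ℂ} (hU : IsOpen U) {f a b : ℂ → ℝ}
    (hf : ContDiffOn ℝ ∞ f U) (ha : IsTest U a) (hb : IsTest U b)
    (hab : ∀ x, fderiv ℝ a x Complex.I = fderiv ℝ b x 1) :
    ∫ x, (fderiv ℝ f x Complex.I * a x - fderiv ℝ f x 1 * b x) = 0 := by
  have hfv : ∀ v, ContinuousOn (fun x => fderiv ℝ f x v) U := fun v =>
    (((hf.fderiv_of_isOpen hU (m := ∞) le_rfl).clm_apply contDiffOn_const).continuousOn)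
  rw [integral_sub (integrable_mul_test hU (hfv _) ha) (integrable_mul_test hU (hfv _) hb),
    integral_fderiv_mul_test hU hf ha, integral_fderiv_mul_test hU hf hb]
  simp [hab]

lemma fderiv_comm_apply {φ : ℂ → ℝ} {x : ℂ} (h : ContDiffAt ℝ 2 φ x) (v w : ℂ) :
    fderiv ℝ (fun y => fderiv ℝ φ y v) x w = fderiv ℝ (fun y => fderiv ℝ φ y w) x v := by
  have hd : DifferentiableAt ℝ (fderiv ℝ φ) x :=
    (h.fderiv_right (m := 1) (by norm_num)).differentiableAt (by norm_num)
  rw [fderiv_clm_apply hd (differentiableAt_const v), fderiv_clm_apply hd (differentiableAt_const w)]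
  simp [(h.isSymmSndFDerivAt (by simp)) v w]

/-- Gradients of smooth functions are orthogonal to rotated gradients of test functions. -/
lemma integral_grad_rgrad {U : Set ℂ} (hU : IsOpen U) {f θ : ℂ → ℝ}
    (hf : ContDiffOn ℝ ∞ f U) (hθ : IsTest U θ) : ∫ x, dot (grad f x) (rgrad θ x) = 0 := by
  have := integral_cross_eq_zero hU hf (hθ.fderiv_apply 1) (hθ.fderiv_apply Complex.I)
    (fun x => fderiv_comm_apply (hθ.1.contDiffAt.of_le (WithTop.coe_le_coe.2 le_top)) _ _)
  rw [← this]
  refine integral_congr_ae (Eventually.of_forall fun x => ?_)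
  simp [dot, rgrad_re, rgrad_im, grad_re, grad_im]
  ring

end Vale.Agent.P128.Islands
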