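import Mathlib

/-!
# Global Mumford-Shah minimisers in the plane: definitions and the target statements
-/

namespace Vale.Agent.P128.Islands

open MeasureTheory Filter Metric Set
open scoped Topology ENNReal ContDiff

/-- The gradient of a function on the plane, as a complex number. -/
noncomputable def grad (f : ℂ → ℝ) (x : ℂ) : ℂ :=
  ⟨fderiv ℝ f x 1, fderiv ℝ f x Complex.I⟩

/-- Smooth functions with compact support inside `U`. -/
def IsTest (U : Set ℂ) (φ : ℂ → ℝ) : Prop :=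
  ContDiff ℝ ∞ φ ∧ HasCompactSupport φ ∧ tsupport φ ⊆ U

/-- `u ∈ W^{1,2}_loc(U)` with weak gradient `G`. -/
def IsSobolev (U : Set ℂ) (u : ℂ → ℝ) (G : ℂ → ℂ) : Prop :=
  (∀ S, IsCompact S → S ⊆ U →
    MemLp u 2 (volume.restrict S) ∧ MemLp G 2 (volume.restrict S)) ∧
  ∀ φ, IsTest U φ → ∫ x, (u x • grad φ x + φ x • G x) = 0

/-- `∫_{B∖K} |∇u|² + H¹(K ∩ B)` on the disk `B = ball c r`. -/
noncomputable def energy (G : ℂ → ℂ) (K : Set ℂ) (c : ℂ) (r : ℝ) : ℝ≥0∞ :=
  (∫⁻ x in ball c r \ K, ENNReal.ofReal (‖G x‖ ^ 2)) +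
    Measure.hausdorffMeasure 1 (K ∩ ball c r)

/-- `L` separates any two points outside `B ∪ K` which `K` separates. -/
def KeepsSeparation (K L B : Set ℂ) : Prop :=
  ∀ x y, x ∉ B ∪ K → y ∉ B ∪ K → y ∉ connectedComponentIn Kᶜ x → y ∉ connectedComponentIn Lᶜ x

/-- `(v, L)` is a competitor of `(u, K)` in `ball c r`. -/
def IsCompetitor (u : ℂ → ℝ) (K : Set ℂ) (c : ℂ) (r : ℝ) (v : ℂ → ℝ) (L : Set ℂ) : Prop :=
  IsClosed L ∧
  (∃ S, IsCompact S ∧ S ⊆ ball c r ∧ L \ S = K \ S ∧ ∀ᵐ x : ℂ, x ∉ S → v x = u x) ∧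
  KeepsSeparation K L (ball c r)

/-- Global minimisers: `K` closed, `u ∈ W^{1,2}_loc(ℂ ∖ K)`, energy finite on every disk and
minimal among competitors. -/
def IsGlobalMinimizer (u : ℂ → ℝ) (G : ℂ → ℂ) (K : Set ℂ) : Prop :=
  IsClosed K ∧ IsSobolev Kᶜ u G ∧ (∀ c r, energy G K c r ≠ ⊤) ∧
  ∀ c r v Gv L, IsCompetitor u K c r v L → IsSobolev Lᶜ v Gv →
    energy G K c r ≤ energy Gv L c r

/-- Every disk centred on `K` meets `K` in positive length. -/
def IsReduced (K : Set ℂ) : Prop :=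
  ∀ x ∈ K, ∀ r > 0, 0 < Measure.hausdorffMeasure 1 (K ∩ ball x r)

/-- Target: all components of the singular set are unbounded and there are at most twelve. -/
def UnboundedComponentsGoal : Prop :=
  ∀ u G K, IsGlobalMinimizer u G K → IsReduced K →
    (∀ x ∈ K, ¬ Bornology.IsBounded (connectedComponentIn K x)) ∧
    ∀ F : Finset ℂ, ↑F ⊆ K →
      (∀ x ∈ F, ∀ y ∈ F, connectedComponentIn K x = connectedComponentIn K y → x = y) →
        F.card ≤ 12

end Vale.Agent.P128.Islands
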