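import Vale.Agent.P128.Islands.Basic

/-!
# A straight line is a reduced global minimiser

This shows that the definitions admit minimisers with nonempty singular set.
-/

namespace Vale.Agent.P128.Islands

open MeasureTheory Filter Metric Set
open scoped Topology ENNReal

/-- The real axis. -/
def axisSet : Set ℂ := {z | z.im = 0}

lemma axisSet_inter_ball (c : ℂ) (r : ℝ) :
    axisSet ∩ ball c r = ((↑) : ℝ → ℂ) '' (((↑) : ℝ → ℂ) ⁻¹' ball c r) := by
  ext z
  constructor
  · rintro ⟨hz, hb⟩
    have e : ((z.re : ℝ) : ℂ) = z := Complex.ext (by simp) (by simpa [axisSet] using hz.symm)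
    exact ⟨z.re, by simpa [e] using hb, e⟩
  · rintro ⟨t, ht, rfl⟩
    exact ⟨by simp [axisSet], ht⟩

lemma length_axisSet (c : ℂ) (r : ℝ) :
    Measure.hausdorffMeasure 1 (axisSet ∩ ball c r) =
      volume (((↑) : ℝ → ℂ) ⁻¹' ball c r) := by
  rw [axisSet_inter_ball, show ((↑) : ℝ → ℂ) = ⇑Complex.ofRealLI from rfl,
    Complex.ofRealLI.isometry.hausdorffMeasure_image (Or.inl zero_le_one), hausdorffMeasure_real]

/-- A straight line with a locally constant function is a reduced global minimiser. -/
theorem isGlobalMinimizer_line :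
    IsGlobalMinimizer (fun _ => 0) (fun _ => 0) axisSet ∧ IsReduced axisSet ∧
      axisSet.Nonempty := by
  have hcl : IsClosed axisSet := isClosed_eq Complex.continuous_im continuous_const
  have e : grad (fun _ : ℂ => (0 : ℝ)) = fun _ => 0 := by
    funext x; simp [grad, Complex.ext_iff]
  have h := isSobolev_of_contDiffOn hcl.isOpen_compl (f := fun _ : ℂ => (0 : ℝ)) contDiffOn_const
  rw [e] at h
  refine ⟨⟨hcl, h, fun c r => ?_, fun c r v Gv L hcomp _ => ?_⟩, fun x hx r hr => ?_,
    ⟨0, by simp [axisSet]⟩⟩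
  · simp only [energy, norm_zero, ne_eq, zero_pow, OfNat.ofNat_ne_zero, not_false_eq_true,
      ENNReal.ofReal_zero, lintegral_zero, zero_add, length_axisSet]
    refine ne_top_of_le_ne_top (b := volume (Icc (c.re - r) (c.re + r))) (by simp)
      (measure_mono fun t ht => ?_)
    have h1 := (Complex.abs_re_le_norm ((t : ℂ) - c)).trans_lt (mem_ball_iff_norm.1 ht)
    simp [abs_lt] at h1
    exact ⟨by linarith [h1.1], by linarith [h1.2]⟩
  · obtain ⟨-, ⟨S, -, hSsub, hLK, -⟩, hsep⟩ := hcomp
    set T := ((↑) : ℝ → ℂ) ⁻¹' ball c r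
    have hsub : T ⊆ Complex.re '' (L ∩ ball c r) := by
      intro t ht
      by_contra hn
      set V := range fun s : ℝ => (⟨t, s⟩ : ℂ) with hV
      have hVL : V ⊆ Lᶜ := by
        rintro _ ⟨s, rfl⟩ hL
        by_cases hb : (⟨t, s⟩ : ℂ) ∈ ball c r
        · exact hn ⟨⟨t, s⟩, ⟨hL, hb⟩, rfl⟩
        · have hK : (⟨t, s⟩ : ℂ) ∈ axisSet :=
            ((Set.ext_iff.1 hLK _).1 ⟨hL, fun hS => hb (hSsub hS)⟩).1
          have hs : s = 0 := hK
          subst hs
          exact hb (show ((t : ℂ)) ∈ ball c r from ht)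
      have hcont : Continuous fun s : ℝ => (⟨t, s⟩ : ℂ) := by
        have : (fun s : ℝ => (⟨t, s⟩ : ℂ)) = fun s : ℝ => (t : ℂ) + (s : ℂ) * Complex.I := by
          funext s; simp [Complex.ext_iff]
        rw [this]; fun_prop
      set M := ‖c‖ + |r| + 1
      have hM : ∀ s : ℝ, M ≤ |s| → (⟨t, s⟩ : ℂ) ∉ ball c r ∪ axisSet := by
        intro s hs hmem
        have hpos : (0 : ℝ) < M := by positivity
        rcases hmem with hb | hK
        · have h1 := Complex.abs_im_le_norm (⟨t, s⟩ : ℂ)
          have h2 := norm_le_norm_add_norm_sub' (⟨t, s⟩ : ℂ) c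
          rw [mem_ball_iff_norm] at hb
          simp only at h1
          linarith [le_abs_self r]
        · have : s = 0 := hK
          subst this
          simp at hs
          linarith
      have hMabs : M ≤ |M| := le_abs_self M
      refine hsep ⟨t, M⟩ ⟨t, -M⟩ (hM M hMabs) (hM (-M) (by rwa [abs_neg])) (fun hmem => ?_)
        ((isPreconnected_range hcont).subset_connectedComponentIn ⟨M, rfl⟩ hVL ⟨-M, rfl⟩)
      have hp := (isPreconnected_connectedComponentIn (x := (⟨t, M⟩ : ℂ)) (F := axisSetᶜ)).image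
        Complex.im Complex.continuous_im.continuousOn
      have hM0 : (0 : ℝ) < M := by positivity
      obtain ⟨z, hz, hz0⟩ := hp.ordConnected.out ⟨_, hmem, rfl⟩
        ⟨_, mem_connectedComponentIn (fun h => hM M hMabs (Or.inr h)), rfl⟩
        (show (0 : ℝ) ∈ Icc (-M) M from ⟨by linarith, hM0.le⟩)
      exact connectedComponentIn_subset _ _ hz hz0
    simp only [energy, norm_zero, ne_eq, zero_pow, OfNat.ofNat_ne_zero, not_false_eq_true,
      ENNReal.ofReal_zero, lintegral_zero, zero_add, length_axisSet]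
    refine le_add_of_nonneg_of_le zero_le ?_
    rw [← hausdorffMeasure_real]
    refine (measure_mono hsub).trans ((LipschitzWith.hausdorffMeasure_image_le
      (f := Complex.re) (K := 1) ?_ zero_le_one _).trans (by simp))
    exact LipschitzWith.of_dist_le_mul fun a b => by
      simpa [Real.dist_eq, dist_eq_norm] using Complex.abs_re_le_norm (a - b)
  · rw [length_axisSet]
    have hx0 : x.im = 0 := hx
    refine lt_of_lt_of_le (by simp [hr] : 0 < volume (Ioo (x.re - r / 2) (x.re + r / 2)))
      (measure_mono fun t ht => ?_)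
    have e : ((t : ℂ) - x) = ((t - x.re : ℝ) : ℂ) := by simp [Complex.ext_iff, hx0]
    show (t : ℂ) ∈ ball x r
    rw [mem_ball_iff_norm, e, Complex.norm_real, Real.norm_eq_abs, abs_lt]
    exact ⟨by linarith [ht.1], by linarith [ht.2]⟩

end Vale.Agent.P128.Islands
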