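import Vale.Agent.P128.Islands.Vary

/-!
# The limit inequality for moved pieces
-/

namespace Vale.Agent.P128.Islands

open MeasureTheory Filter Metric Set InnerProductSpace
open scoped Topology ENNReal ContDiff

/-- An admissible variation supported near the piece. -/
structure IsVariation (K₀ : Set ℂ) (η : ℂ → ℝ) : Prop where
  smooth : ContDiffOn ℝ ∞ η K₀ᶜ
  compact : HasCompactSupport η
  memLp : MemLp (grad η) 2

/-- The data of the limit argument: the projection of the cut off gradient. -/
structure Frozen (u : ℂ → ℝ) (K K₀ O : Set ℂ) (χ : ℂ → ℝ) (H : ℂ → ℂ)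
    (φ : ℕ → ℂ → ℝ) : Prop where
  piece : Piece u K K₀ O χ
  memH : MemLp H 2
  test : ∀ n, IsTest univ (φ n)
  tendsto : TendstoL2 (fun n => grad (φ n)) H
  orth : ∀ θ, IsTest univ θ → ∫ x, dot (grad (fun y => χ y * u y) x - H x) (grad θ x) = 0

variable {u : ℂ → ℝ} {K K₀ O : Set ℂ} {χ : ℂ → ℝ} {H : ℂ → ℂ} {φ : ℕ → ℂ → ℝ}

lemma memLp_grad_test {φ : ℂ → ℝ} (h : IsTest univ φ) : MemLp (grad φ) 2 := by
  have hc := (contDiffOn_grad isOpen_univ h.1.contDiffOn).continuousOn
  rw [continuousOn_univ] at hc
  exact hc.memLp_of_hasCompactSupport (HasCompactSupport.intro h.2.1.isCompact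
    fun x hx => grad_eq_zero_of_notMem_tsupport hx)

lemma hasCompactSupport_comp_sinv {η : ℂ → ℝ} (h : HasCompactSupport η) (a : ℂ) {l : ℝ}
    (hl : l ≠ 0) : HasCompactSupport fun x => η (sinv a l x) := by
  refine HasCompactSupport.intro
    (h.isCompact.image (f := fun y => a + l • y) (by fun_prop)) fun x hx => ?_
  refine image_eq_zero_of_notMem_tsupport fun h' => hx ⟨_, h', ?_⟩
  exact add_sinv a hl x

lemma isTest_comp_sinv {η : ℂ → ℝ} (h : IsTest univ η) (a : ℂ) {l : ℝ} (hl : l ≠ 0) :
    IsTest univ fun x => η (sinv a l x) :=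
  ⟨h.1.comp (contDiff_sinv a l), hasCompactSupport_comp_sinv h.2.1 a hl, subset_univ _⟩

/-- The jump field of the piece. -/
noncomputable def jumpField (u χ : ℂ → ℝ) (H : ℂ → ℂ) (x : ℂ) : ℂ :=
  grad (fun y => χ y * u y) x - H x

lemma Frozen.memJump (F : Frozen u K K₀ O χ H φ) : MemLp (jumpField u χ H) 2 :=
  F.piece.memLp_cutoff.sub F.memH

lemma Frozen.orth_push (F : Frozen u K K₀ O χ H φ) (a : ℂ) {l : ℝ} (hl : 0 < l) :
    ∫ x, dot (jumpField u χ H x) (push a l H x) = 0 := by
  refine tendsto_nhds_unique ((tendstoL2_const F.memJump).dot (F.tendsto.push a hl)) ?_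
  have : ∀ n, ∫ x, dot (jumpField u χ H x) (push a l (grad (φ n)) x) = 0 := fun n => by
    rw [← grad_comp_sinv (φ n) a hl.ne']
    exact F.orth _ (isTest_comp_sinv (F.test n) a hl.ne')
  simp [this]

lemma Piece.integrable_dot_grad (P : Piece u K K₀ O χ) {f : ℂ → ℝ} (hf : HasCompactSupport f)
    (hg : MemLp (grad f) 2) : Integrable fun x => dot (grad u x) (grad f x) := by
  obtain ⟨R, hR⟩ := hf.isCompact.isBounded.subset_ball (0 : ℂ)
  exact P.reg.integrable_dot hg (r := R) fun x hx =>
    grad_eq_zero_of_notMem_tsupport fun h => hx (hR h)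

lemma Piece.euler_test (P : Piece u K K₀ O χ) {θ : ℂ → ℝ} (hθ : IsTest univ θ) :
    ∫ x, dot (grad u x) (grad θ x) = 0 :=
  P.reg.euler hθ.1.contDiffOn hθ.2.1 (memLp_grad_test hθ)

/-- The limit inequality for a piece moved by a similarity, scaled and perturbed. -/
theorem Frozen.moved (F : Frozen u K K₀ O χ H φ) (hSep : SeparationGoal) (hLen : LengthGoal)
    (a : ℂ) {l : ℝ} (hl : 0 < l) (s : ℝ) {η : ℂ → ℝ} (hη : IsVariation K₀ η) :
    0 ≤ (l - 1) * (Measure.hausdorffMeasure 1 K₀).toReal +
      (∫ x, ‖s • push a l (fun y => jumpField u χ H y + grad η y) x - jumpField u χ H x‖ ^ 2) +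
      2 * s * ((∫ x, dot (grad u x) (push a l (grad fun y => χ y * u y) x)) +
        ∫ x, dot (grad u x) (push a l (grad η) x)) := by
  have P := F.piece
  set A := grad fun y => χ y * u y with hA
  set G := grad u with hG
  set T : ℂ → ℂ := fun y => a + l • y
  have hQ : IsCompact (T '' K₀) := P.compact.image (by fun_prop)
  have hm : Measure.hausdorffMeasure 1 (T '' K₀) =
      ENNReal.ofReal l * Measure.hausdorffMeasure 1 K₀ := hLen.2.1 K₀ a l hl
  have hK₀fin : Measure.hausdorffMeasure 1 K₀ ≠ ⊤ := by
    obtain ⟨R, hR⟩ := P.compact.isBounded.subset_ball (0 : ℂ)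
    exact ne_top_of_le_ne_top (P.reg.length_ne_top R)
      (measure_mono fun x hx => show x ∈ K ∩ ball 0 R from ⟨P.subset hx, hR hx⟩)
  have hQfin : Measure.hausdorffMeasure 1 (T '' K₀) ≠ ⊤ := by
    rw [hm]; exact ENNReal.mul_ne_top ENNReal.ofReal_ne_top hK₀fin
  have hQnull : (volume : Measure ℂ) (T '' K₀) = 0 :=
    hLen.1 _ fun r => ne_top_of_le_ne_top hQfin (measure_mono inter_subset_left)
  have hmem : ∀ x, x ∉ T '' K₀ → sinv a l x ∉ K₀ := fun x hx h =>
    hx ⟨_, h, add_sinv a hl.ne' x⟩
  set g : ℕ → ℂ → ℂ := fun n x => A x - grad (φ n) x with hg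
  set d : ℕ → ℂ → ℂ := fun n x => s • push a l (fun y => g n y + grad η y) x - g n x with hd
  have hgn : TendstoL2 g (jumpField u χ H) := (tendstoL2_const P.memLp_cutoff).sub F.tendsto
  have hdn : TendstoL2 d
      (fun x => s • push a l (fun y => jumpField u χ H y + grad η y) x - jumpField u χ H x) :=
    (((hgn.add (tendstoL2_const hη.memLp)).push a hl).const_smul s).sub hgn
  set b := (∫ x, dot (G x) (push a l A x)) + ∫ x, dot (G x) (push a l (grad η) x) with hb
  have key : ∀ n, 0 ≤ (l - 1) * (Measure.hausdorffMeasure 1 K₀).toReal +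
      (∫ x, dot (d n x) (d n x)) + 2 * s * b := by
    intro n
    have hψ0 : ContDiffOn ℝ ∞ (fun x => χ x * u x - φ n x) K₀ᶜ :=
      P.contDiffOn_cutoff.sub (F.test n).1.contDiffOn
    set δ : ℂ → ℝ := fun x =>
      s * ((χ (sinv a l x) * u (sinv a l x) - φ n (sinv a l x)) + η (sinv a l x)) -
        (χ x * u x - φ n x) with hδ
    have hmaps : MapsTo (sinv a l) (K \ K₀ ∪ T '' K₀)ᶜ K₀ᶜ := fun x hx =>
      hmem x fun h => hx (Or.inr h)
    have hsm : ContDiffOn ℝ ∞
        (fun x => (χ (sinv a l x) * u (sinv a l x) - φ n (sinv a l x)) + η (sinv a l x))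
        (K \ K₀ ∪ T '' K₀)ᶜ :=
      ((hψ0.add hη.smooth).comp (contDiff_sinv a l).contDiffOn hmaps)
    have hv : ContDiffOn ℝ ∞ (fun x => u x + δ x) (K \ K₀ ∪ T '' K₀)ᶜ := by
      have h1 : ContDiffOn ℝ ∞ (fun x => u x - χ x * u x) (K \ K₀ ∪ T '' K₀)ᶜ :=
        P.contDiffOn_rest.mono (compl_subset_compl.2 subset_union_left)
      exact ((h1.add (F.test n).1.contDiffOn).add (contDiffOn_const.mul hsm)).congr fun x _ => by
        simp only [hδ]
        ring
    have hcomp : HasCompactSupport δ := by
      have c0 : HasCompactSupport fun x => χ x * u x - φ n x :=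
        P.test.2.1.mul_right.sub (F.test n).2.1
      exact ((hasCompactSupport_comp_sinv (c0.add hη.compact) a hl.ne').mul_left).sub c0
    have hgrad : ∀ᵐ x : ℂ, grad δ x = d n x := by
      filter_upwards [measure_eq_zero_iff_ae_notMem.1 P.reg.null,
        measure_eq_zero_iff_ae_notMem.1 hQnull] with x hxK hxQ
      have hx0 : x ∉ K₀ := fun h => hxK (P.subset h)
      have hy := hmem x hxQ
      have op : IsOpen K₀ᶜ := P.compact.isClosed.isOpen_compl
      have dχ : ∀ z ∉ K₀, DifferentiableAt ℝ (fun y => χ y * u y) z := fun z hz =>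
        ((P.contDiffOn_cutoff z hz).contDiffAt (op.mem_nhds hz)).differentiableAt (by simp)
      have dφ := (F.test n).1.differentiable (by simp)
      have dη : DifferentiableAt ℝ η (sinv a l x) :=
        ((hη.smooth _ hy).contDiffAt (op.mem_nhds hy)).differentiableAt (by simp)
      have ds := ((contDiff_sinv a l).differentiable (by simp) x)
      have e1 : grad (fun z => (χ (sinv a l z) * u (sinv a l z) - φ n (sinv a l z)) +
          η (sinv a l z)) x = push a l (fun y => g n y + grad η y) x := by
        rw [grad_comp_sinv (fun y => (χ y * u y - φ n y) + η y) a hl.ne']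
        simp only [push, hg, hA]
        rw [grad_add ((dχ _ hy).fun_sub (dφ _)) dη, grad_sub (dχ _ hy) (dφ _)]
      have dd : DifferentiableAt ℝ (fun z =>
          (χ (sinv a l z) * u (sinv a l z) - φ n (sinv a l z)) + η (sinv a l z)) x :=
        DifferentiableAt.comp x (g := fun y => (χ y * u y - φ n y) + η y)
          (((dχ _ hy).fun_sub (dφ _)).fun_add dη) ds
      rw [hδ, grad_sub (dd.const_mul s) ((dχ x hx0).fun_sub (dφ x)), grad_const_mul s dd, e1,
        grad_sub (dχ x hx0) (dφ x)]
    have hdL : MemLp (grad δ) 2 := (memLp_congr_ae hgrad).2 (hdn.1 n)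
    have hin := P.vary hSep hQ hQfin hcomp hv hQnull hdL
    have e2 : ∫ x, ‖grad δ x‖ ^ 2 = ∫ x, dot (d n x) (d n x) :=
      integral_congr_ae (hgrad.mono fun x hx => by simp only [hx, norm_sq_eq_dot])
    have e3 : ∫ x, dot (G x) (grad δ x) = s * b := by
      rw [integral_congr_ae (g := fun x => dot (G x) (d n x))
        (hgrad.mono fun x hx => by simp only [hx])]
      have hA' : Integrable fun x => dot (G x) (push a l A x) := by
        rw [hA, ← grad_comp_sinv (fun y => χ y * u y) a hl.ne']
        exact P.integrable_dot_grad (hasCompactSupport_comp_sinv P.test.2.1.mul_right a hl.ne')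
          (by rw [grad_comp_sinv (fun y => χ y * u y) a hl.ne']
              exact memLp_push P.memLp_cutoff a hl.ne')
      have hη' : Integrable fun x => dot (G x) (push a l (grad η) x) := by
        rw [← grad_comp_sinv _ a hl.ne']
        exact P.integrable_dot_grad (hasCompactSupport_comp_sinv hη.compact a hl.ne')
          (by rw [grad_comp_sinv _ a hl.ne']; exact memLp_push hη.memLp a hl.ne')
      have hp : Integrable fun x => dot (G x) (push a l (grad (φ n)) x) := by
        rw [← grad_comp_sinv _ a hl.ne']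
        exact P.integrable_dot_grad (isTest_comp_sinv (F.test n) a hl.ne').2.1
          (memLp_grad_test (isTest_comp_sinv (F.test n) a hl.ne'))
      have hp0 : ∫ x, dot (G x) (push a l (grad (φ n)) x) = 0 := by
        rw [← grad_comp_sinv _ a hl.ne']
        exact P.euler_test (isTest_comp_sinv (F.test n) a hl.ne')
      have hA0 : Integrable fun x => dot (G x) (A x) :=
        P.integrable_dot_grad P.test.2.1.mul_right P.memLp_cutoff
      have hφ0 : Integrable fun x => dot (G x) (grad (φ n) x) :=
        P.integrable_dot_grad (F.test n).2.1 (memLp_grad_test (F.test n))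
      have hAz : ∫ x, dot (G x) (A x) = 0 := P.euler_cutoff
      have hφz : ∫ x, dot (G x) (grad (φ n) x) = 0 := P.euler_test (F.test n)
      have e : (fun x => dot (G x) (d n x)) = fun x =>
          s * (dot (G x) (push a l A x) - dot (G x) (push a l (grad (φ n)) x) +
            dot (G x) (push a l (grad η) x)) -
          (dot (G x) (A x) - dot (G x) (grad (φ n) x)) := by
        funext x
        simp only [hd, hg, push, dot, Complex.sub_re, Complex.sub_im, Complex.add_re,
          Complex.add_im, Complex.smul_re, Complex.smul_im, smul_eq_mul]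
        ring
      have i1 := (hA'.sub' hp).fun_add hη'
      rw [e, integral_sub (i1.const_mul s) (hA0.sub' hφ0), integral_const_mul,
        integral_add (hA'.sub' hp) hη', integral_sub hA' hp, integral_sub hA0 hφ0, hp0, hAz, hφz,
        hb]
      ring
    rw [hm, ENNReal.toReal_mul, ENNReal.toReal_ofReal hl.le, e2, e3] at hin
    linarith
  have hlim := ((hdn.dot hdn).const_add
    ((l - 1) * (Measure.hausdorffMeasure 1 K₀).toReal)).add_const (2 * s * b)
  have := ge_of_tendsto' hlim key
  simp only [norm_sq_eq_dot]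
  exact this

/-- Removing the piece altogether. -/
theorem Frozen.length_le (F : Frozen u K K₀ O χ H φ) (hSep : SeparationGoal) :
    (Measure.hausdorffMeasure 1 K₀).toReal ≤ ∫ x, ‖jumpField u χ H x‖ ^ 2 := by
  have P := F.piece
  set g : ℕ → ℂ → ℂ := fun n x => grad (φ n) x - grad (fun y => χ y * u y) x with hg
  have hgn : TendstoL2 g (fun x => H x - grad (fun y => χ y * u y) x) :=
    F.tendsto.sub (tendstoL2_const P.memLp_cutoff)
  have key : ∀ n, (Measure.hausdorffMeasure 1 K₀).toReal ≤ ∫ x, dot (g n x) (g n x) := by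
    intro n
    set δ : ℂ → ℝ := fun x => φ n x - χ x * u x with hδ
    have hgrad : ∀ᵐ x : ℂ, grad δ x = g n x := by
      filter_upwards [measure_eq_zero_iff_ae_notMem.1 P.reg.null] with x hx
      exact grad_sub ((F.test n).1.differentiable (by simp) x)
        ((P.test.1.differentiable (by simp) x).fun_mul (P.differentiableAt hx))
    have hv : ContDiffOn ℝ ∞ (fun x => u x + δ x) (K \ K₀ ∪ ∅)ᶜ := by
      rw [union_empty]
      exact (P.contDiffOn_rest.add (F.test n).1.contDiffOn).congr fun x _ => by
        simp only [hδ]; ring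
    have hc : HasCompactSupport δ := (F.test n).2.1.sub P.test.2.1.mul_right
    have hin := P.vary hSep isCompact_empty (by simp) hc
      hv (by simp) ((memLp_congr_ae hgrad).2 (hgn.1 n))
    have h0 : ∫ x, dot (grad u x) (grad δ x) = 0 := by
      rw [integral_congr_ae (g := fun x => dot (grad u x) (g n x))
        (hgrad.mono fun x hx => by simp only [hx])]
      simp only [hg]
      rw [integral_dot_sub (P.integrable_dot_grad (F.test n).2.1 (memLp_grad_test (F.test n)))
        (P.integrable_dot_grad (f := fun y => χ y * u y) P.test.2.1.mul_right P.memLp_cutoff),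
        P.euler_test (F.test n),
        P.euler_cutoff, sub_zero]
    rw [h0, integral_congr_ae (g := fun x => dot (g n x) (g n x))
      (hgrad.mono fun x hx => by simp only [hx, norm_sq_eq_dot]), measure_empty,
      ENNReal.toReal_zero] at hin
    linarith
  refine (ge_of_tendsto' (hgn.dot hgn) key).trans (le_of_eq ?_)
  refine integral_congr_ae (Eventually.of_forall fun x => ?_)
  simp only [← norm_sq_eq_dot, jumpField, norm_sub_rev]

end Vale.Agent.P128.Islands
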