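import Vale.Agent.P128.Islands.Basic

/-!
# A smooth representative of a global minimiser and the variational inequality
-/

namespace Vale.Agent.P128.Islands

open MeasureTheory Filter Metric Set InnerProductSpace
open scoped Topology ENNReal ContDiff Laplacian

lemma norm_add_sq_dot (v w : ℂ) : ‖v + w‖ ^ 2 = ‖v‖ ^ 2 + 2 * dot v w + ‖w‖ ^ 2 := by
  rw [dot_eq_inner, norm_add_sq_real]

lemma integrable_dot {μ : Measure ℂ} {f g : ℂ → ℂ} (hf : MemLp f 2 μ) (hg : MemLp g 2 μ) :
    Integrable (fun x => dot (f x) (g x)) μ :=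
  ((hf.re.integrable_mul hg.re).add (hf.im.integrable_mul hg.im))

lemma lintegral_norm_sq {μ : Measure ℂ} {f : ℂ → ℂ} (hf : MemLp f 2 μ) :
    ∫⁻ x, ENNReal.ofReal (‖f x‖ ^ 2) ∂μ = ENNReal.ofReal (∫ x, ‖f x‖ ^ 2 ∂μ) :=
  (ofReal_integral_eq_lintegral_ofReal hf.norm.integrable_sq
    (Eventually.of_forall fun _ => by positivity)).symm

/-- A global minimiser in smooth form, with the inequality it satisfies against competitors which
are smooth off their singular set. -/
structure Reg (u : ℂ → ℝ) (K : Set ℂ) : Prop where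
  isClosed : IsClosed K
  smooth : ContDiffOn ℝ ∞ u Kᶜ
  null : (volume : Measure ℂ) K = 0
  length_ne_top : ∀ r, Measure.hausdorffMeasure 1 (K ∩ ball 0 r) ≠ ⊤
  memLp : ∀ r, MemLp (grad u) 2 (volume.restrict (ball 0 r))
  vary : ∀ (L : Set ℂ) (δ : ℂ → ℝ) (ρ : ℝ), IsClosed L → (volume : Measure ℂ) L = 0 →
    ContDiffOn ℝ ∞ (fun x => u x + δ x) Lᶜ → (∀ x, x ∉ closedBall 0 ρ → δ x = 0) →
    L \ closedBall 0 ρ = K \ closedBall 0 ρ → KeepsSeparation K L (ball 0 (ρ + 1)) →
    Measure.hausdorffMeasure 1 (L ∩ ball 0 (ρ + 1)) ≠ ⊤ → MemLp (grad δ) 2 →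
    0 ≤ ((Measure.hausdorffMeasure 1 (L ∩ ball 0 (ρ + 1))).toReal -
      (Measure.hausdorffMeasure 1 (K ∩ ball 0 (ρ + 1))).toReal) +
      (∫ x, ‖grad δ x‖ ^ 2) + 2 * ∫ x, dot (grad u x) (grad δ x)

lemma grad_eq_zero_outside {δ : ℂ → ℝ} {S : Set ℂ} (hS : IsClosed S)
    (h : ∀ x, x ∉ S → δ x = 0) {x : ℂ} (hx : x ∉ S) : grad δ x = 0 := by
  rw [grad_congr (g := fun _ => (0 : ℝ))]
  · simp [grad, Complex.ext_iff]
  · filter_upwards [hS.isOpen_compl.mem_nhds hx] with y hy using h y hy

/-- Integrability against the gradient of a minimiser. -/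
lemma Reg.integrable_dot {u : ℂ → ℝ} {K : Set ℂ} (h : Reg u K) {g : ℂ → ℂ} (hg : MemLp g 2)
    {r : ℝ} (h0 : ∀ x, x ∉ ball 0 r → g x = 0) :
    Integrable fun x => dot (grad u x) (g x) := by
  refine (integrableOn_iff_integrable_of_support_subset ?_).1
    (Islands.integrable_dot (h.memLp r) (hg.restrict _))
  intro x hx
  by_contra hn
  exact hx (by simp [dot, h0 x hn])

/-- A smooth function with compact support, differentiable off `K`, is an admissible variation:
the first variation vanishes. -/
theorem Reg.euler {u : ℂ → ℝ} {K : Set ℂ} (h : Reg u K) {φ : ℂ → ℝ}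
    (hφ : ContDiffOn ℝ ∞ φ Kᶜ) (hc : HasCompactSupport φ) (hg : MemLp (grad φ) 2) :
    ∫ x, dot (grad u x) (grad φ x) = 0 := by
  obtain ⟨ρ, hρ⟩ := hc.isCompact.isBounded.subset_closedBall (0 : ℂ)
  set a := ∫ x, ‖grad φ x‖ ^ 2 with ha
  set b := ∫ x, dot (grad u x) (grad φ x) with hb
  have key : ∀ t : ℝ, 0 ≤ t ^ 2 * a + 2 * t * b := by
    intro t
    have hd : ∀ᵐ x : ℂ, grad (fun y => t * φ y) x = t • grad φ x := by
      filter_upwards [measure_eq_zero_iff_ae_notMem.1 h.null] with x hx
      exact grad_const_mul t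
        (((hφ x hx).contDiffAt (h.isClosed.isOpen_compl.mem_nhds hx)).differentiableAt (by simp))
    have hz : ∀ x, x ∉ closedBall 0 ρ → t * φ x = 0 := fun x hx => by
      rw [image_eq_zero_of_notMem_tsupport fun h' => hx (hρ h'), mul_zero]
    have := h.vary K (fun y => t * φ y) ρ h.isClosed h.null
      (h.smooth.add (contDiffOn_const.mul hφ)) hz rfl (fun x y _ _ hn => hn)
      (h.length_ne_top _) ((memLp_congr_ae hd).2 (hg.const_smul t))
    have e1 : ∫ x, ‖grad (fun y => t * φ y) x‖ ^ 2 = t ^ 2 * a := by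
      rw [ha, ← integral_const_mul]
      refine integral_congr_ae (hd.mono fun x hx => ?_)
      simp only [hx, norm_smul, Real.norm_eq_abs, mul_pow, sq_abs]
    have e2 : ∫ x, dot (grad u x) (grad (fun y => t * φ y) x) = t * b := by
      rw [hb, ← integral_const_mul]
      refine integral_congr_ae (hd.mono fun x hx => ?_)
      simp only [hx, dot, Complex.smul_re, Complex.smul_im, smul_eq_mul]
      ring
    rw [e1, e2, sub_self, zero_add] at this
    linarith
  have ha0 : 0 ≤ a := integral_nonneg fun x => by positivity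
  by_contra hne
  have h2 := key (-b / (a + 1))
  have e : (-b / (a + 1)) ^ 2 * a + 2 * (-b / (a + 1)) * b =
      -(b ^ 2 * (a + 2)) / (a + 1) ^ 2 := by
    field_simp
    ring
  have : (0 : ℝ) < b ^ 2 * (a + 2) / (a + 1) ^ 2 := by positivity
  rw [e, neg_div] at h2
  linarith

/-- A global minimiser has a smooth representative, equal to it almost everywhere. -/
theorem exists_reg_ae (hW : WeylGoal) (hL : LengthGoal) {u : ℂ → ℝ} {G : ℂ → ℂ} {K : Set ℂ}
    (hm : IsGlobalMinimizer u G K) : ∃ u', Reg u' K ∧ u =ᵐ[volume] u' := by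
  obtain ⟨hcl, ⟨hloc, hweak⟩, hfin, hmin⟩ := hm
  have hnull : (volume : Measure ℂ) K = 0 :=
    hL.1 K fun r => ne_top_of_le_ne_top (hfin 0 r) le_add_self
  have hU : IsOpen Kᶜ := hcl.isOpen_compl
  have hGloc : LocallyIntegrableOn G Kᶜ :=
    (locallyIntegrableOn_iff hU.isLocallyClosed).2 fun S hSU hS =>
      haveI : IsFiniteMeasure ((volume : Measure ℂ).restrict S) :=
        isFiniteMeasure_restrict.2 hS.measure_ne_top
      (hloc S hS hSU).2.integrable one_le_two
  have huloc : LocallyIntegrableOn u Kᶜ :=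
    (locallyIntegrableOn_iff hU.isLocallyClosed).2 fun S hSU hS =>
      haveI : IsFiniteMeasure ((volume : Measure ℂ).restrict S) :=
        isFiniteMeasure_restrict.2 hS.measure_ne_top
      (hloc S hS hSU).1.integrable one_le_two
  -- products with test functions are integrable
  have hIu : ∀ φ, IsTest Kᶜ φ → Integrable fun x => u x • grad φ x + φ x • G x := by
    intro φ hφ
    have : IsFiniteMeasure ((volume : Measure ℂ).restrict (tsupport φ)) :=
      isFiniteMeasure_restrict.2 hφ.2.1.isCompact.measure_ne_top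
    obtain ⟨B, hB⟩ := hφ.2.1.exists_bound_of_continuous hφ.1.continuous
    have hc := (contDiffOn_grad isOpen_univ hφ.1.contDiffOn).continuousOn
    rw [continuousOn_univ] at hc
    obtain ⟨B', hB'⟩ := hφ.2.1.isCompact.exists_bound_of_continuousOn hc.continuousOn
    refine (integrableOn_iff_integrable_of_support_subset ?_).1
      ((((hloc _ hφ.2.1.isCompact hφ.2.2).1.integrable one_le_two).smul_bdd B'
        hc.aestronglyMeasurable
        (ae_restrict_of_forall_mem (isClosed_tsupport φ).measurableSet hB')).add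
      (((hloc _ hφ.2.1.isCompact hφ.2.2).2.integrable one_le_two).bdd_smul B
        hφ.1.continuous.aestronglyMeasurable (Eventually.of_forall hB)))
    intro x hx
    by_contra hn
    exact hx (by simp [grad_eq_zero_of_notMem_tsupport hn, image_eq_zero_of_notMem_tsupport hn])
  have hre : ∀ φ, IsTest Kᶜ φ → ∫ x, (u x * fderiv ℝ φ x 1 + φ x * (G x).re) = 0 := by
    intro φ hφ
    have := congrArg Complex.reCLM (hweak φ hφ)
    rw [← Complex.reCLM.integral_comp_comm (hIu φ hφ)] at this
    simpa [grad] using this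
  have him : ∀ φ, IsTest Kᶜ φ →
      ∫ x, (u x * fderiv ℝ φ x Complex.I + φ x * (G x).im) = 0 := by
    intro φ hφ
    have := congrArg Complex.imCLM (hweak φ hφ)
    rw [← Complex.imCLM.integral_comp_comm (hIu φ hφ)] at this
    simpa [grad] using this
  -- Euler equation for the given field, against test functions off `K`
  have heul : ∀ φ, IsTest Kᶜ φ → Integrable (fun x => dot (G x) (grad φ x)) ∧
      ∫ x, dot (G x) (grad φ x) = 0 := by
    intro φ hφ
    obtain ⟨ρ, hρ⟩ := hφ.2.1.isCompact.isBounded.subset_ball (0 : ℂ)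
    have hc := (contDiffOn_grad isOpen_univ hφ.1.contDiffOn).continuousOn
    rw [continuousOn_univ] at hc
    have hS : HasCompactSupport (grad φ) :=
      HasCompactSupport.intro hφ.2.1.isCompact fun x hx => grad_eq_zero_of_notMem_tsupport hx
    have hgφ : MemLp (grad φ) 2 := hc.memLp_of_hasCompactSupport hS
    have hint : Integrable fun x => dot (G x) (grad φ x) := by
      refine (integrableOn_iff_integrable_of_support_subset ?_).1
        (integrable_dot (hloc _ hφ.2.1.isCompact hφ.2.2).2 (hgφ.restrict _))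
      intro x hx
      by_contra hn
      exact hx (by simp [dot, grad_eq_zero_of_notMem_tsupport hn])
    refine ⟨hint, ?_⟩
    set a := ∫ x, ‖grad φ x‖ ^ 2
    set b := ∫ x, dot (G x) (grad φ x)
    have key : ∀ t : ℝ, 0 ≤ t ^ 2 * a + 2 * t * b := by
      intro t
      have hcomp : IsCompetitor u K 0 ρ (fun x => u x + t * φ x) K :=
        ⟨hcl, ⟨tsupport φ, hφ.2.1.isCompact, hρ, rfl, Eventually.of_forall fun x hx => by
          simp [image_eq_zero_of_notMem_tsupport hx]⟩, fun x y _ _ hn => hn⟩
      have hsob : IsSobolev Kᶜ (fun x => u x + t * φ x) (fun x => G x + t • grad φ x) := by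
        refine ⟨fun S hS' hSU => ⟨(hloc S hS' hSU).1.add
          ((hφ.1.continuous.memLp_of_hasCompactSupport hφ.2.1).const_mul t |>.restrict S),
          (hloc S hS' hSU).2.add ((hgφ.const_smul t).restrict S)⟩, fun θ hθ => ?_⟩
        have h1 := hweak θ hθ
        have h2 := (isSobolev_of_contDiffOn isOpen_univ hφ.1.contDiffOn).2 θ
          (hθ.mono (subset_univ _))
        have hc' := (contDiffOn_grad isOpen_univ hθ.1.contDiffOn).continuousOn
        rw [continuousOn_univ] at hc'
        have i2 : Integrable fun x => φ x • grad θ x + θ x • grad φ x :=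
          ((hφ.1.continuous.smul hc').add (hθ.1.continuous.smul hc)).integrable_of_hasCompactSupport
            ((hφ.2.1.smul_right).add (hS.smul_left))
        calc ∫ x, ((u x + t * φ x) • grad θ x + θ x • (G x + t • grad φ x))
            = ∫ x, ((u x • grad θ x + θ x • G x) + t • (φ x • grad θ x + θ x • grad φ x)) := by
              refine integral_congr_ae (Eventually.of_forall fun x => ?_)
              simp only [smul_add, add_smul, smul_smul]
              rw [mul_comm (θ x) t]
              abel
          _ = 0 := by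
              rw [integral_add (hIu θ hθ) (i2.fun_smul t), h1, integral_smul, h2, smul_zero,
                zero_add]
      have hE := hmin 0 ρ _ _ _ hcomp hsob
      have hne := hfin 0 ρ
      rw [energy] at hne
      have hGρ : ∫⁻ x in ball (0 : ℂ) ρ \ K, ENNReal.ofReal (‖G x‖ ^ 2) ≠ ⊤ :=
        (ENNReal.add_ne_top.1 hne).1
      rw [energy, energy, ENNReal.add_le_add_iff_right (ENNReal.add_ne_top.1 hne).2] at hE
      have hrest : (volume : Measure ℂ).restrict (ball 0 ρ \ K) =
          volume.restrict (ball 0 ρ) := Measure.restrict_congr_set (sdiff_null_ae_eq_self hnull)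
      rw [hrest] at hE hGρ
      have hGm : MemLp G 2 ((volume : Measure ℂ).restrict (ball 0 ρ)) := by
        refine ⟨?_, ?_⟩
        · rw [← hrest]
          exact hGloc.aestronglyMeasurable.mono_set (fun x hx => hx.2)
        · rw [eLpNorm_lt_top_iff_lintegral_rpow_enorm_lt_top two_ne_zero ENNReal.ofNat_ne_top]
          refine lt_of_eq_of_lt (lintegral_congr fun x => ?_) hGρ.lt_top
          rw [ENNReal.toReal_ofNat, show (2 : ℝ) = ((2 : ℕ) : ℝ) by norm_num,
            ENNReal.rpow_natCast, ← ofReal_norm, ← ENNReal.ofReal_pow (norm_nonneg _)]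
      rw [lintegral_norm_sq hGm, lintegral_norm_sq (f := fun x => G x + t • grad φ x)
        (hGm.add ((hgφ.const_smul t).restrict _))] at hE
      rw [ENNReal.ofReal_le_ofReal_iff (integral_nonneg fun x => by positivity)] at hE
      have hexp : ∀ x, ‖G x + t • grad φ x‖ ^ 2 =
          ‖G x‖ ^ 2 + (t ^ 2 * ‖grad φ x‖ ^ 2 + 2 * t * dot (G x) (grad φ x)) := fun x => by
        rw [norm_add_sq_dot, norm_smul, mul_pow, Real.norm_eq_abs, sq_abs]
        simp [dot]
        ring
      have hres : ∀ g : ℂ → ℝ, (∀ x, x ∉ tsupport φ → g x = 0) →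
          ∫ x in ball (0 : ℂ) ρ, g x = ∫ x, g x := fun g hg =>
        setIntegral_eq_integral_of_forall_compl_eq_zero fun x hx =>
          hg x fun h' => hx (hρ h')
      have i1 : Integrable (fun x => t ^ 2 * ‖grad φ x‖ ^ 2) := hgφ.norm.integrable_sq.const_mul _
      rw [integral_congr_ae (Eventually.of_forall hexp),
        integral_add hGm.norm.integrable_sq
          ((i1.fun_add (hint.const_mul (2 * t))).integrableOn),
        integral_add i1.integrableOn (hint.const_mul (2 * t)).integrableOn,
        hres (fun x => t ^ 2 * ‖grad φ x‖ ^ 2)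
          (fun x hx => by simp [grad_eq_zero_of_notMem_tsupport hx]),
        hres (fun x => 2 * t * dot (G x) (grad φ x))
          (fun x hx => by simp [dot, grad_eq_zero_of_notMem_tsupport hx]),
        integral_const_mul, integral_const_mul] at hE
      linarith
    have ha0 : 0 ≤ a := integral_nonneg fun x => by positivity
    by_contra hne
    have h2 := key (-b / (a + 1))
    have e : (-b / (a + 1)) ^ 2 * a + 2 * (-b / (a + 1)) * b =
        -(b ^ 2 * (a + 2)) / (a + 1) ^ 2 := by
      field_simp
      ring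
    have : (0 : ℝ) < b ^ 2 * (a + 2) / (a + 1) ^ 2 := by positivity
    rw [e, neg_div] at h2
    linarith
  -- `u` is weakly harmonic
  have hwh : IsWeakHarmonic Kᶜ u := by
    refine ⟨huloc, fun φ hφ => ?_⟩
    have hx := hφ.fderiv_apply 1
    have hy := hφ.fderiv_apply Complex.I
    have e1 := hre _ hx
    have e2 := him _ hy
    obtain ⟨hI, hE⟩ := heul φ hφ
    have i1 : Integrable fun x => u x * fderiv ℝ (fun y => fderiv ℝ φ y 1) x 1 +
        fderiv ℝ φ x 1 * (G x).re := by
      have := Complex.reCLM.integrable_comp (hIu _ hx)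
      simpa [grad] using this
    have i2 : Integrable fun x => u x * fderiv ℝ (fun y => fderiv ℝ φ y Complex.I) x Complex.I +
        fderiv ℝ φ x Complex.I * (G x).im := by
      have := Complex.imCLM.integrable_comp (hIu _ hy)
      simpa [grad] using this
    have key : ∫ x, ((u x * fderiv ℝ (fun y => fderiv ℝ φ y 1) x 1 +
        fderiv ℝ φ x 1 * (G x).re) + (u x * fderiv ℝ (fun y => fderiv ℝ φ y Complex.I) x Complex.I +
        fderiv ℝ φ x Complex.I * (G x).im) - dot (G x) (grad φ x)) = 0 := by
      rw [integral_sub (i1.fun_add i2) hI, integral_add i1 i2, e1, e2, hE]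
      simp
    rw [← key]
    refine integral_congr_ae (Eventually.of_forall fun x => ?_)
    have hd : ∀ v : ℂ, fderiv ℝ (fun y => fderiv ℝ φ y v) x v =
        fderiv ℝ (fderiv ℝ φ) x v v := fun v => by
      rw [fderiv_clm_apply ((hφ.1.fderiv_right (m := ∞) le_rfl).differentiable (by simp) x)
        (differentiableAt_const v)]
      simp
    simp [laplacian_eq_iteratedFDeriv_complexPlane, iteratedFDeriv_two_apply, hd, dot, grad]
    ring
  obtain ⟨h, hh, huh⟩ := hW _ hU u hwh
  have hsm : ContDiffOn ℝ ∞ h Kᶜ := fun x hx =>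
    (HarmonicAt.analyticAt (hh x hx) |>.contDiffAt).contDiffWithinAt
  have hGh : G =ᵐ[volume] grad h := by
    have hd : ∀ (i : ℂ →L[ℝ] ℝ) (v : ℂ),
        (∀ φ, IsTest Kᶜ φ → ∫ x, (u x * fderiv ℝ φ x v + φ x * i (G x)) = 0) →
        ∀ᵐ x, x ∈ Kᶜ → i (G x) - fderiv ℝ h x v = 0 := by
      intro i v hw
      refine hU.ae_eq_zero_of_integral_contDiff_smul_eq_zero ?_ ?_
      · have hcv : ContinuousOn (fun x => fderiv ℝ h x v) Kᶜ :=
          ((hsm.fderiv_of_isOpen hU (m := ∞) le_rfl).clm_apply contDiffOn_const).continuousOn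
        refine (locallyIntegrableOn_iff hU.isLocallyClosed).2 fun S hSU hS => ?_
        exact (i.integrable_comp ((locallyIntegrableOn_iff hU.isLocallyClosed).1 hGloc S hSU hS)).sub
          ((hcv.mono hSU).integrableOn_compact hS)
      · intro φ hφ hφc hφs
        have ht : IsTest Kᶜ φ := ⟨hφ, hφc, hφs⟩
        have hcv : ContinuousOn (fun x => fderiv ℝ h x v) Kᶜ :=
          ((hsm.fderiv_of_isOpen hU (m := ∞) le_rfl).clm_apply contDiffOn_const).continuousOn
        have i1 : Integrable fun x => fderiv ℝ h x v * φ x := integrable_mul_test hU hcv ht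
        have i2 : Integrable fun x => h x * fderiv ℝ φ x v :=
          integrable_mul_test hU hsm.continuousOn (ht.fderiv_apply v)
        have e : ∫ x, u x * fderiv ℝ φ x v = ∫ x, h x * fderiv ℝ φ x v := by
          refine integral_congr_ae ?_
          filter_upwards [(ae_restrict_iff' hU.measurableSet).1 huh] with x hx
          by_cases hx' : x ∈ Kᶜ
          · rw [hx hx']
          · have : fderiv ℝ φ x v = 0 :=
              image_eq_zero_of_notMem_tsupport (f := fun y => fderiv ℝ φ y v)
                fun h' => hx' ((ht.fderiv_apply v).2.2 h')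
            simp [this]
        have i3 : Integrable fun x => u x * fderiv ℝ φ x v := by
          refine i2.congr ?_
          filter_upwards [(ae_restrict_iff' hU.measurableSet).1 huh] with x hx
          by_cases hx' : x ∈ Kᶜ
          · rw [hx hx']
          · have : fderiv ℝ φ x v = 0 :=
              image_eq_zero_of_notMem_tsupport (f := fun y => fderiv ℝ φ y v)
                fun h' => hx' ((ht.fderiv_apply v).2.2 h')
            simp [this]
        have i4 : Integrable fun x => φ x * i (G x) := by
          refine (integrableOn_iff_integrable_of_support_subset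
            ((Function.support_mul_subset_left _ _).trans subset_closure)).1 ?_
          obtain ⟨B, hB⟩ := hφc.exists_bound_of_continuous hφ.continuous
          exact (i.integrable_comp ((locallyIntegrableOn_iff hU.isLocallyClosed).1 hGloc _ hφs
            hφc.isCompact)).bdd_mul hφ.continuous.aestronglyMeasurable (Eventually.of_forall hB)
        have e1 := hw φ ht
        rw [integral_add i3 i4, e] at e1
        have e2 := integral_fderiv_mul_test hU hsm ht v
        calc ∫ x, φ x • (i (G x) - fderiv ℝ h x v)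
            = ∫ x, (φ x * i (G x) - fderiv ℝ h x v * φ x) := by
              refine integral_congr_ae (Eventually.of_forall fun x => ?_)
              simp [mul_sub, mul_comm]
          _ = 0 := by rw [integral_sub i4 i1, e2]; linarith
    filter_upwards [hd Complex.reCLM 1 hre, hd Complex.imCLM Complex.I him,
      measure_eq_zero_iff_ae_notMem.1 hnull] with x h1 h2 hxK
    have a := h1 hxK
    have b := h2 hxK
    simp only [Complex.reCLM_apply, Complex.imCLM_apply] at a b
    refine Complex.ext ?_ ?_ <;> simp [grad] <;> linarith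
  have hen : ∀ c r, energy G K c r = energy (grad h) K c r := fun c r => by
    rw [energy, energy]
    congr 1
    exact lintegral_congr_ae ((ae_restrict_of_ae hGh).mono fun x hx => by simp [hx])
  have hrest : ∀ (L : Set ℂ) r, (volume : Measure ℂ) L = 0 →
      (volume : Measure ℂ).restrict (ball 0 r \ L) = volume.restrict (ball 0 r) :=
    fun L r hL => Measure.restrict_congr_set (sdiff_null_ae_eq_self hL)
  have hmem : ∀ r, MemLp (grad h) 2 (volume.restrict (ball 0 r)) := by
    intro r
    refine ⟨?_, ?_⟩
    · rw [← hrest K r hnull]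
      exact ((contDiffOn_grad hU hsm).continuousOn.aestronglyMeasurable
        hU.measurableSet).mono_set (fun x hx => hx.2)
    · have := hfin 0 r
      rw [hen, energy, hrest K r hnull] at this
      rw [eLpNorm_lt_top_iff_lintegral_rpow_enorm_lt_top two_ne_zero ENNReal.ofNat_ne_top]
      refine lt_of_eq_of_lt (lintegral_congr fun x => ?_)
        (ENNReal.add_ne_top.1 this).1.lt_top
      rw [ENNReal.toReal_ofNat, show (2 : ℝ) = ((2 : ℕ) : ℝ) by norm_num,
        ENNReal.rpow_natCast, ← ofReal_norm, ← ENNReal.ofReal_pow (norm_nonneg _)]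
  refine ⟨h, ⟨hcl, hsm, hnull, fun r => ne_top_of_le_ne_top (hfin 0 r) le_add_self, hmem, ?_⟩, ?_⟩
  swap
  · filter_upwards [(ae_restrict_iff' hU.measurableSet).1 huh,
      measure_eq_zero_iff_ae_notMem.1 hnull] with x hx hxK
    exact hx hxK
  intro L δ ρ hLcl hLnull hv hz hLK hsep hLfin hgδ
  have hcomp : IsCompetitor u K 0 (ρ + 1) (fun x => h x + δ x) L := by
    refine ⟨hLcl, ⟨closedBall 0 ρ, isCompact_closedBall _ _,
      closedBall_subset_ball (by linarith), hLK, ?_⟩, hsep⟩
    filter_upwards [(ae_restrict_iff' hU.measurableSet).1 huh,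
      measure_eq_zero_iff_ae_notMem.1 hnull] with x hx hxK hxS
    simp [hz x hxS, hx hxK]
  have hE := hmin 0 (ρ + 1) _ _ _ hcomp (isSobolev_of_contDiffOn hLcl.isOpen_compl hv)
  have hgv : ∀ᵐ x : ℂ, grad (fun y => h y + δ y) x = grad h x + grad δ x := by
    filter_upwards [measure_eq_zero_iff_ae_notMem.1 hnull,
      measure_eq_zero_iff_ae_notMem.1 hLnull] with x hxK hxL
    have d1 : DifferentiableAt ℝ h x :=
      ((hsm x hxK).contDiffAt (hU.mem_nhds hxK)).differentiableAt (by simp)
    have d3 : DifferentiableAt ℝ (fun y => h y + δ y) x :=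
      ((hv x hxL).contDiffAt (hLcl.isOpen_compl.mem_nhds hxL)).differentiableAt (by simp)
    exact grad_add d1 (by simpa [Pi.sub_def] using d3.sub d1)
  have hzg : ∀ x, x ∉ closedBall 0 ρ → grad δ x = 0 := fun x hx =>
    grad_eq_zero_outside isClosed_closedBall hz hx
  have hball : ∀ x, x ∉ ball (0 : ℂ) (ρ + 1) → grad δ x = 0 := fun x hx =>
    hzg x fun h' => hx (closedBall_subset_ball (by linarith) h')
  have hintd : Integrable fun x => dot (grad h x) (grad δ x) := by
    refine (integrableOn_iff_integrable_of_support_subset ?_).1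
      (integrable_dot (hmem (ρ + 1)) (hgδ.restrict _))
    intro x hx
    by_contra hn
    exact hx (by simp [dot, hball x hn])
  rw [hen, energy, energy, hrest K _ hnull, hrest L _ hLnull,
    lintegral_congr_ae (f := fun x => ENNReal.ofReal (‖grad (fun y => h y + δ y) x‖ ^ 2))
      (g := fun x => ENNReal.ofReal (‖grad h x + grad δ x‖ ^ 2))
      ((ae_restrict_of_ae hgv).mono fun x hx => by
        change ENNReal.ofReal (‖grad (fun y => h y + δ y) x‖ ^ 2) = _
        rw [hx])] at hE
  rw [lintegral_norm_sq (hmem _), lintegral_norm_sq (f := fun x => grad h x + grad δ x)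
    ((hmem _).add (hgδ.restrict _))] at hE
  have hKfin : Measure.hausdorffMeasure 1 (K ∩ ball 0 (ρ + 1)) ≠ ⊤ :=
    ne_top_of_le_ne_top (hfin 0 _) le_add_self
  have := ENNReal.toReal_mono (ENNReal.add_ne_top.2 ⟨ENNReal.ofReal_ne_top, hLfin⟩) hE
  rw [ENNReal.toReal_add ENNReal.ofReal_ne_top hKfin,
    ENNReal.toReal_add ENNReal.ofReal_ne_top hLfin,
    ENNReal.toReal_ofReal (integral_nonneg fun x => by positivity),
    ENNReal.toReal_ofReal (integral_nonneg fun x => by positivity)] at this
  have hexp : ∫ x in ball (0 : ℂ) (ρ + 1), ‖grad h x + grad δ x‖ ^ 2 =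
      (∫ x in ball (0 : ℂ) (ρ + 1), ‖grad h x‖ ^ 2) + (∫ x, ‖grad δ x‖ ^ 2) +
        2 * ∫ x, dot (grad h x) (grad δ x) := by
    rw [integral_congr_ae (Eventually.of_forall fun x => norm_add_sq_dot (grad h x) (grad δ x)),
      integral_add ((hmem _).norm.integrable_sq.fun_add (hintd.const_mul 2).integrableOn)
        hgδ.norm.integrable_sq.integrableOn,
      integral_add (hmem _).norm.integrable_sq (hintd.const_mul 2).integrableOn,
      setIntegral_eq_integral_of_forall_compl_eq_zero (f := fun x => ‖grad δ x‖ ^ 2)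
        (fun x hx => by simp [hball x hx]),
      setIntegral_eq_integral_of_forall_compl_eq_zero (f := fun x => 2 * dot (grad h x) (grad δ x))
        (fun x hx => by simp [dot, hball x hx]), integral_const_mul]
    ring
  rw [hexp] at this
  linarith

/-- A global minimiser has a smooth representative. -/
theorem exists_reg (hW : WeylGoal) (hL : LengthGoal) {u : ℂ → ℝ} {G : ℂ → ℂ} {K : Set ℂ}
    (hm : IsGlobalMinimizer u G K) : ∃ u', Reg u' K :=
  (exists_reg_ae hW hL hm).imp fun _ h => h.1

end Vale.Agent.P128.Islands
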