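import Vale.Agent.P128.Islands.Calculus

/-!
# Competitors obtained by moving a compact piece
-/

namespace Vale.Agent.P128.Islands

open MeasureTheory Filter Metric Set InnerProductSpace
open scoped Topology ENNReal ContDiff

/-- A compact piece `K₀` of the singular set, an open set `O` free of the rest, and a cutoff. -/
structure Piece (u : ℂ → ℝ) (K K₀ O : Set ℂ) (χ : ℂ → ℝ) : Prop where
  reg : Reg u K
  compact : IsCompact K₀
  subset : K₀ ⊆ K
  closed : IsClosed (K \ K₀)
  isOpen : IsOpen O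
  disjoint : Disjoint O (K \ K₀)
  test : IsTest O χ
  one : ∀ᶠ x in 𝓝ˢ K₀, χ x = 1

variable {u : ℂ → ℝ} {K K₀ O : Set ℂ} {χ : ℂ → ℝ}

lemma eventually_one_of_mem (P : Piece u K K₀ O χ) {x : ℂ} (hx : x ∈ K₀) :
    ∀ᶠ y in 𝓝 x, χ y = 1 :=
  nhds_le_nhdsSet hx P.one

lemma Piece.subset_cutoff (P : Piece u K K₀ O χ) : K₀ ⊆ tsupport χ := fun x hx =>
  subset_tsupport _ (by simp [(eventually_one_of_mem P hx).self_of_nhds])

/-- The derivatives of the cutoff live off `K`. -/
lemma Piece.isTest_fderiv (P : Piece u K K₀ O χ) (v : ℂ) :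
    IsTest Kᶜ fun x => fderiv ℝ χ x v := by
  refine ⟨(P.test.fderiv_apply v).1, (P.test.fderiv_apply v).2.1, fun x hx hxK => ?_⟩
  by_cases h0 : x ∈ K₀
  · have h : (fun y => fderiv ℝ χ y v) =ᶠ[𝓝 x] 0 := by
      filter_upwards [(eventually_one_of_mem P h0).eventually_nhds] with y hy
      simp [Filter.EventuallyEq.fderiv_eq (f := fun _ => (1 : ℝ)) hy]
    exact (notMem_tsupport_iff_eventuallyEq.2 h) hx
  · exact P.disjoint.le_bot ⟨(P.test.fderiv_apply v).2.2 hx, hxK, h0⟩

lemma Piece.grad_cutoff_eq_zero (P : Piece u K K₀ O χ) {x : ℂ} (hx : x ∈ K) :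
    grad χ x = 0 := by
  have h : ∀ v, fderiv ℝ χ x v = 0 := fun v =>
    image_eq_zero_of_notMem_tsupport (f := fun y => fderiv ℝ χ y v)
      fun h => (P.isTest_fderiv v).2.2 h hx
  simp [grad, h, Complex.ext_iff]

/-- The cut off function is smooth off `K₀`. -/
lemma Piece.contDiffOn_cutoff (P : Piece u K K₀ O χ) :
    ContDiffOn ℝ ∞ (fun x => χ x * u x) K₀ᶜ := by
  intro x hx
  by_cases hK : x ∈ K
  · have hn : x ∉ tsupport χ := fun h => P.disjoint.le_bot ⟨P.test.2.2 h, hK, hx⟩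
    have : (fun y => χ y * u y) =ᶠ[𝓝 x] fun _ => (0 : ℝ) := by
      filter_upwards [(notMem_tsupport_iff_eventuallyEq.1 hn)] with y hy
      simp [hy]
    exact (contDiffAt_const.congr_of_eventuallyEq this).contDiffWithinAt
  · exact ((P.test.1.contDiffAt).mul
      ((P.reg.smooth x hK).contDiffAt (P.reg.isClosed.isOpen_compl.mem_nhds hK))).contDiffWithinAt

/-- Off the piece, the complementary cut off function is smooth. -/
lemma Piece.contDiffOn_rest (P : Piece u K K₀ O χ) :
    ContDiffOn ℝ ∞ (fun x => u x - χ x * u x) (K \ K₀)ᶜ := by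
  intro x hx
  by_cases hK : x ∈ K
  · have h0 : x ∈ K₀ := by by_contra h; exact hx ⟨hK, h⟩
    have : (fun y => u y - χ y * u y) =ᶠ[𝓝 x] fun _ => (0 : ℝ) := by
      filter_upwards [eventually_one_of_mem P h0] with y hy
      simp [hy]
    exact (contDiffAt_const.congr_of_eventuallyEq this).contDiffWithinAt
  · have hu := (P.reg.smooth x hK).contDiffAt (P.reg.isClosed.isOpen_compl.mem_nhds hK)
    exact (hu.sub (P.test.1.contDiffAt.mul hu)).contDiffWithinAt

lemma Piece.differentiableAt (P : Piece u K K₀ O χ) {x : ℂ} (hx : x ∉ K) :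
    DifferentiableAt ℝ u x :=
  ((P.reg.smooth x hx).contDiffAt (P.reg.isClosed.isOpen_compl.mem_nhds hx)).differentiableAt
    (by simp)

lemma Piece.ae_grad_cutoff (P : Piece u K K₀ O χ) :
    ∀ᵐ x : ℂ, grad (fun y => χ y * u y) x = χ x • grad u x + u x • grad χ x := by
  filter_upwards [measure_eq_zero_iff_ae_notMem.1 P.reg.null] with x hx
  exact grad_mul (P.test.1.differentiable (by simp) x) (P.differentiableAt hx)

lemma Piece.memLp_cutoff (P : Piece u K K₀ O χ) : MemLp (grad fun x => χ x * u x) 2 := by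
  obtain ⟨R, hR⟩ := P.test.2.1.isCompact.isBounded.subset_ball (0 : ℂ)
  obtain ⟨B, hB⟩ := P.test.2.1.exists_bound_of_continuous P.test.1.continuous
  have h1 : MemLp (fun x => χ x • grad u x) 2 := by
    have h : MemLp (fun x => χ x • grad u x) 2 (volume.restrict (ball 0 R)) :=
      (P.reg.memLp R).of_le_mul (c := B)
        (P.test.1.continuous.aestronglyMeasurable.smul (P.reg.memLp R).1)
        (Eventually.of_forall fun x => by
          rw [norm_smul]; exact mul_le_mul_of_nonneg_right (hB x) (norm_nonneg _))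
    have := (memLp_indicator_iff_restrict measurableSet_ball).2 h
    convert this using 1
    funext x
    by_cases hx : x ∈ ball (0 : ℂ) R
    · simp [hx]
    · simp [hx, image_eq_zero_of_notMem_tsupport fun h => hx (hR h)]
  have h2 : MemLp (fun x => u x • grad χ x) 2 := by
    have c1 := (contDiff_mul_test P.reg.isClosed.isOpen_compl P.reg.smooth
      (P.isTest_fderiv 1)).continuous
    have c2 := (contDiff_mul_test P.reg.isClosed.isOpen_compl P.reg.smooth
      (P.isTest_fderiv Complex.I)).continuous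
    have e : (fun x => u x • grad χ x) = fun x => Complex.equivRealProdCLM.symm
        (u x * fderiv ℝ χ x 1, u x * fderiv ℝ χ x Complex.I) := by
      funext x
      simp [grad, Complex.ext_iff]
    refine Continuous.memLp_of_hasCompactSupport ?_ ?_
    · rw [e]
      exact Complex.equivRealProdCLM.symm.continuous.comp (c1.prodMk c2)
    · refine HasCompactSupport.intro P.test.2.1.isCompact fun x hx => ?_
      simp [grad_eq_zero_of_notMem_tsupport hx]
  exact (memLp_congr_ae (P.ae_grad_cutoff)).2 (h1.add h2)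

/-- The first variation along the cut off function vanishes. -/
lemma Piece.euler_cutoff (P : Piece u K K₀ O χ) :
    ∫ x, dot (grad u x) (grad (fun y => χ y * u y) x) = 0 :=
  P.reg.euler (P.contDiffOn_cutoff.mono (compl_subset_compl.2 P.subset)) P.test.2.1.mul_right
    P.memLp_cutoff

/-- Competitors in which the piece is replaced by a compact set. -/
theorem Piece.vary (P : Piece u K K₀ O χ) (hSep : SeparationGoal) {Q : Set ℂ} (hQ : IsCompact Q)
    (hQfin : Measure.hausdorffMeasure 1 Q ≠ ⊤) {δ : ℂ → ℝ} (hδ : HasCompactSupport δ)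
    (hv : ContDiffOn ℝ ∞ (fun x => u x + δ x) (K \ K₀ ∪ Q)ᶜ) (hQnull : (volume : Measure ℂ) Q = 0)
    (hgδ : MemLp (grad δ) 2) :
    0 ≤ ((Measure.hausdorffMeasure 1 Q).toReal - (Measure.hausdorffMeasure 1 K₀).toReal) +
      (∫ x, ‖grad δ x‖ ^ 2) + 2 * ∫ x, dot (grad u x) (grad δ x) := by
  obtain ⟨ρ, hρ⟩ := ((hQ.union P.compact).union hδ.isCompact).isBounded.subset_closedBall (0 : ℂ)
  have hQρ : Q ⊆ closedBall 0 ρ := fun x hx => hρ (Or.inl (Or.inl hx))
  have h0ρ : K₀ ⊆ closedBall 0 ρ := fun x hx => hρ (Or.inl (Or.inr hx))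
  have hin : closedBall (0 : ℂ) ρ ⊆ ball 0 (ρ + 1) := closedBall_subset_ball (by linarith)
  set B := ball (0 : ℂ) (ρ + 1) with hB
  set m := Measure.hausdorffMeasure (X := ℂ) 1 with hm
  have hsplit : K ∩ B = (K \ K₀) ∩ B ∪ K₀ := by
    ext x
    constructor
    · rintro ⟨h1, h2⟩
      by_cases h : x ∈ K₀
      · exact Or.inr h
      · exact Or.inl ⟨⟨h1, h⟩, h2⟩
    · rintro (⟨h1, h2⟩ | h)
      · exact ⟨h1.1, h2⟩
      · exact ⟨P.subset h, hin (h0ρ h)⟩
  have hmK : m (K ∩ B) = m ((K \ K₀) ∩ B) + m K₀ := by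
    rw [hsplit, measure_union (Disjoint.mono_left inter_subset_left disjoint_sdiff_left)
      P.compact.measurableSet]
  have hKfin := P.reg.length_ne_top (ρ + 1)
  rw [← hB, ← hm, hmK, ENNReal.add_ne_top] at hKfin
  have hmL : m ((K \ K₀ ∪ Q) ∩ B) ≤ m ((K \ K₀) ∩ B) + m Q :=
    (measure_mono fun x hx => hx.1.imp (fun h => ⟨h, hx.2⟩) id).trans (measure_union_le _ _)
  have hLK : (K \ K₀ ∪ Q) \ closedBall 0 ρ = K \ closedBall 0 ρ := by
    ext x
    constructor
    · rintro ⟨h | h, hx⟩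
      · exact ⟨h.1, hx⟩
      · exact absurd (hQρ h) hx
    · rintro ⟨h, hx⟩
      exact ⟨Or.inl ⟨h, fun h' => hx (h0ρ h')⟩, hx⟩
  have hsep : KeepsSeparation K (K \ K₀ ∪ Q) B := by
    intro x y hx hy hn hyL
    apply hn
    have hx' : x ∉ K \ K₀ := fun h => hx (Or.inr h.1)
    have := hSep (K \ K₀) K₀ 0 (ρ + 1) P.closed P.compact disjoint_sdiff_left (h0ρ.trans hin) x y
      (fun h => hx (Or.inl h)) (fun h => hy (Or.inl h)) hx'
      (connectedComponentIn_mono x (compl_subset_compl.2 subset_union_left) hyL)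
    rwa [sdiff_union_of_subset P.subset] at this
  have hnullL : (volume : Measure ℂ) (K \ K₀ ∪ Q) = 0 :=
    measure_union_null (measure_mono_null sdiff_subset P.reg.null) hQnull
  have hLfin : m ((K \ K₀ ∪ Q) ∩ B) ≠ ⊤ :=
    ne_top_of_le_ne_top (ENNReal.add_ne_top.2 ⟨hKfin.1, hQfin⟩) hmL
  have key := P.reg.vary (K \ K₀ ∪ Q) δ ρ (P.closed.union hQ.isClosed) hnullL hv
    (fun x hx => image_eq_zero_of_notMem_tsupport fun h => hx (hρ (Or.inr h))) hLK hsep hLfin hgδ
  have h1 := ENNReal.toReal_mono (ENNReal.add_ne_top.2 ⟨hKfin.1, hQfin⟩) hmL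
  rw [ENNReal.toReal_add hKfin.1 hQfin] at h1
  rw [← hB, ← hm, hmK, ENNReal.toReal_add hKfin.1 hKfin.2] at key
  linarith

/-- The module which shows that a piece without curl has no field. -/
def CurlGoal : Prop :=
  LiouvilleGoal → ∀ (u : ℂ → ℝ) (K K₀ O : Set ℂ) (χ : ℂ → ℝ) (H : ℂ → ℂ),
    Piece u K K₀ O χ → MemLp H 2 →
    (∀ θ, IsTest univ θ → ∫ x, dot (H x) (rgrad θ x) = 0) →
    (∀ θ, IsTest univ θ → ∫ x, dot (grad (fun y => χ y * u y) x - H x) (grad θ x) = 0) →
    (∀ θ, IsTest O θ → ∫ x, dot (grad u x) (rgrad θ x) = 0) →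
    (fun x => grad (fun y => χ y * u y) x - H x) =ᵐ[volume] 0

end Vale.Agent.P128.Islands
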